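import Crest.Agent.R316.PTB

/-! Row 316: closure properties of the counting hierarchy. -/

set_option autoImplicit false

namespace Crest.Agent.R316

open Crest.Agent.PT Finset

variable {α β : Type} [Rp α] [Rp β]

theorem CH.pt {P : α → Prop} (h : PTime P) : CH P := ⟨0, h⟩

theorem CH.congr {P Q : α → Prop} (h : CH P) (e : ∀ a, Q a ↔ P a) : CH Q := by
  obtain rfl : Q = P := funext fun a => propext (e a)
  exact h

namespace CHx

theorem lv_congr {j : ℕ} {P Q : α → Prop} (h : Lv j α P) (e : ∀ a, Q a ↔ P a) : Lv j α Q := by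
  obtain rfl : Q = P := funext fun a => propext (e a)
  exact h

theorem lv_comp (j : ℕ) : ∀ {α β : Type} [Rp α] [Rp β] {P : β → Prop} {f : α → β},
    Lv j β P → PTime f → Lv j α fun a => P (f a) := by
  induction j with
  | zero => intro α β _ _ P f h hf; exact PTime.comp (g := P) h hf
  | succ j ih =>
    rintro α β _ _ P f ⟨m, B, hm, hB, h⟩ hf
    exact ⟨fun a => m (f a), fun p => B (f p.1, p.2), hm.comp hf,
      ih (f := fun p : α × ℕ => (f p.1, p.2)) hB ((hf.comp PTime.fst').pair PTime.snd'),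
      fun a => h (f a)⟩

theorem cnt_one (B : ℕ → Prop) : 0 < cnt 1 B ↔ B 0 := by simp [cnt_pos]

theorem lv_succ {j : ℕ} {P : α → Prop} (h : Lv j α P) : Lv (j + 1) α P :=
  ⟨fun _ => 0, fun p => P p.1, PU.const 0, lv_comp j h PTime.fst', fun a => by
    have := cnt_one fun _ => P a
    rw [pow_zero]
    exact this.symm.trans (by simp only []; omega)⟩

theorem lv_mono {j k : ℕ} {P : α → Prop} (h : Lv j α P) (hjk : j ≤ k) : Lv k α P := by
  induction hjk with
  | refl => exact h
  | step _ ih => exact lv_succ ih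

theorem lv_pt (j : ℕ) {P : α → Prop} (h : PTime P) : Lv j α P := lv_mono (j := 0) h j.zero_le

theorem lv_ite (j : ℕ) : ∀ {α : Type} [Rp α] {c P Q : α → Prop}, PTime c → Lv j α P → Lv j α Q →
    Lv j α fun a => (c a ∧ P a) ∨ (¬ c a ∧ Q a) := by
  induction j with
  | zero => intro α _ c P Q hc hP hQ; exact (hc.and hP).or (hc.not.and hQ)
  | succ j ih =>
    rintro α _ c P Q hc ⟨m, B, hm, hB, h⟩ ⟨m', B', hm', hB', h'⟩
    classical
    refine ⟨fun a => if c a then m a else m' a, fun p => (c p.1 ∧ B p) ∨ (¬ c p.1 ∧ B' p),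
      PU.ite hc hm hm', ih (c := fun p : α × ℕ => c p.1) (hc.comp PTime.fst') hB hB',
      fun a => ?_⟩
    by_cases hca : c a <;> simp [hca, h, h']

theorem lv_thr {j : ℕ} {B : α × ℕ → Prop} {m t : α → ℕ} (hB : Lv j (α × ℕ) B) (hm : PU m)
    (ht : PTime t) : Lv (j + 1) α fun a => t a ≤ cnt (2 ^ m a) fun u => B (a, u) := by
  have hM : PTime fun p : α × ℕ => 2 ^ m p.1 := (PTime.const 2).pow (hm.comp PTime.fst')
  have ht' : PTime fun p : α × ℕ => t p.1 := ht.comp PTime.fst'
  have h1 : Lv (j + 1) α fun a => 2 ^ (m a + 1) < 2 * cnt (2 ^ (m a + 1)) fun u =>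
      (u < 2 ^ m a ∧ B (a, u)) ∨ (¬ u < 2 ^ m a ∧ u - 2 ^ m a < 2 ^ m a + 1 - t a) :=
    ⟨fun a => m a + 1, fun p => (p.2 < 2 ^ m p.1 ∧ B p) ∨
      (¬ p.2 < 2 ^ m p.1 ∧ p.2 - 2 ^ m p.1 < 2 ^ m p.1 + 1 - t p.1), hm.add (PU.const 1),
      lv_ite j (PTime.snd'.lt hM) hB
        (lv_pt j ((PTime.snd'.sub hM).lt ((hM.add (PTime.const 1)).sub ht'))), fun _ => Iff.rfl⟩
  refine lv_congr (lv_ite (j + 1) (ht.eq (PTime.const 0)) (lv_pt _ (PTime.const True)) h1)
    fun a => ?_
  have e : (cnt (2 ^ (m a + 1)) fun u =>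
      (u < 2 ^ m a ∧ B (a, u)) ∨ (¬ u < 2 ^ m a ∧ u - 2 ^ m a < 2 ^ m a + 1 - t a)) =
      (cnt (2 ^ m a) fun u => B (a, u)) + min (2 ^ m a) (2 ^ m a + 1 - t a) := by
    rw [pow_succ, mul_two, cnt_add, ← cnt_lt]
    congr 1
    · exact cnt_congr fun u hu => by simp [hu]
    · exact cnt_congr fun u _ => by simp
  have hle := cnt_le (2 ^ m a) fun u => B (a, u)
  rw [e, pow_succ]
  simp only [and_true]
  omega

theorem lv_not (j : ℕ) : ∀ {α : Type} [Rp α] {P : α → Prop}, Lv j α P → Lv j α fun a => ¬ P a := by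
  induction j with
  | zero => intro α _ P h; exact PTime.not h
  | succ j ih =>
    rintro α _ P ⟨m, B, hm, hB, h⟩
    have hM : PTime fun a => 2 ^ m a := (PTime.const 2).pow hm
    refine lv_congr (lv_thr (ih hB) hm (hM.sub (hM.div (PTime.const 2)))) fun a => ?_
    have := cnt_add_not (2 ^ m a) fun u => B (a, u)
    rw [h]
    omega

theorem cnt_restrict {N M : ℕ} (h : N ≤ M) (B : ℕ → Prop) :
    cnt M (fun u => (u < N ∧ B u) ∨ (¬ u < N ∧ False)) = cnt N B := by
  classical
  unfold cnt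
  congr 1
  ext u
  simp only [mem_filter, mem_range, and_false, or_false]
  exact ⟨fun h => h.2, fun h' => ⟨h'.1.trans_le h, h'⟩⟩

theorem ch_ite {c P Q : α → Prop} (hc : PTime c) (hP : CH P) (hQ : CH Q) :
    CH fun a => (c a ∧ P a) ∨ (¬ c a ∧ Q a) := by
  obtain ⟨j, hj⟩ := hP
  obtain ⟨k, hk⟩ := hQ
  exact ⟨max j k, lv_ite _ hc (lv_mono hj (le_max_left _ _)) (lv_mono hk (le_max_right _ _))⟩

/-- one step of the parser of `pairBits` -/
def upStep (s : Word × Word) : Word × Word :=
  if s.1.headI = true then (s.1.tail.tail, s.2 ++ [s.1.tail.headI]) else s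

def up (z : Word) : Word × Word := upStep^[z.length] (z, [])

theorem up_run (x y acc : Word) (k : ℕ) (hk : x.length ≤ k) :
    upStep^[k] ((x.flatMap fun b => [true, b]) ++ false :: y, acc) = (false :: y, acc ++ x) := by
  induction x generalizing acc k with
  | nil =>
    simp only [List.flatMap_nil, List.nil_append, List.append_nil]
    exact Function.iterate_fixed (by simp [upStep]) k
  | cons b x ih =>
    obtain ⟨k, rfl⟩ : ∃ k', k = k' + 1 := ⟨k - 1, by simp at hk; omega⟩
    rw [Function.iterate_succ_apply]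
    have e : upStep (((b :: x).flatMap fun b => [true, b]) ++ false :: y, acc) =
        ((x.flatMap fun b => [true, b]) ++ false :: y, acc ++ [b]) := by simp [upStep]
    rw [e, ih _ _ (by simpa using hk)]
    simp

theorem up_pair (x y : Word) : up (Crest.CountHier.pairBits x y) = (false :: y, x) := by
  rw [up, Crest.CountHier.pairBits, up_run]
  · simp
  · induction x with
    | nil => simp
    | cons b x ih => simp at ih ⊢; omega

theorem pt_up : PTime up := by
  refine PTime.iter (step := fun _ s => upStep s) (init := fun z : Word => (z, ([] : Word)))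
    (by unfold upStep; fun_prop) (by fun_prop) (PU.length PTime.id)
    (B := fun z => z.length + z.length) ((PU.length PTime.id).add (PU.length PTime.id)).pb
    fun z k hk => ?_
  have key : ∀ k, PT.sz (upStep^[k] (z, ([] : Word))) ≤ z.length + k := fun k => by
    induction k with
    | zero => simp
    | succ k ih =>
      rw [Function.iterate_succ_apply']
      generalize upStep^[k] (z, ([] : Word)) = s at ih ⊢
      obtain ⟨s1, s2⟩ := s
      unfold upStep
      split_ifs
      · simp at ih ⊢; omega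
      · omega
  exact (key k).trans (by omega)

theorem ncard_words (Q : ℕ) (B : ℕ → Prop) :
    {y : Word | y.length = Q ∧ B (ofB y)}.ncard = cnt (2 ^ Q) B := by
  classical
  rw [cnt, ← Set.ncard_coe_finset, ← Set.InjOn.ncard_image (f := ofB)]
  · congr 1
    ext u
    simp only [Set.mem_image, Set.mem_ofPred_eq, coe_filter, mem_range]
    constructor
    · rintro ⟨y, ⟨rfl, h⟩, rfl⟩
      exact ⟨ofB_lt y, h⟩
    · rintro ⟨hu, h⟩
      have e : ofB ((List.range Q).map u.testBit) = u := by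
        refine Nat.eq_of_testBit_eq fun i => ?_
        rw [testBit_ofB, getD_rangeMap]
        by_cases hi : i < Q
        · simp [hi]
        · simp only [hi, decide_false, Bool.false_and]
          exact (Nat.testBit_lt_two_pow
            (hu.trans_le (Nat.pow_le_pow_right (by omega) (not_lt.1 hi)))).symm
      exact ⟨_, ⟨by simp, by rwa [e]⟩, e⟩
  · rintro y ⟨hy, -⟩ y' ⟨hy', -⟩ e
    refine List.ext_getElem (hy.trans hy'.symm) fun i hi hi' => ?_
    have := congrArg (fun n : ℕ => n.testBit i) e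
    simp only [testBit_ofB] at this
    rwa [List.getD_eq_getElem _ _ hi, List.getD_eq_getElem _ _ hi'] at this

theorem lv_final (j : ℕ) : ∀ {α : Type} [Rp α] {P : α → Prop}, Lv j α P → ∀ g : Word → α,
    PTime g → {w | P (g w)} ∈ Crest.CountHier.level j := by
  induction j with
  | zero =>
    intro α _ P h g hg
    classical
    have h1 : PTime fun w => decide (P (g w)) := (PTime.comp (g := P) h hg).decide
    exact ⟨fun w => decide (P (g w)), PTime.polyTimeComputable _ _ _
      (fun w => [decide (P (g w))]) (fun _ => h1 ()) fun _ => rfl, fun _ => by simp⟩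
  | succ j ih =>
    rintro α _ P ⟨m, B, hm, hB, h⟩ g hg
    obtain ⟨q, hq⟩ := (hm.comp hg).pb
    have h1 : PTime fun z => g (up z).2 := hg.comp pt_up.snd
    refine ⟨_, ih hB (fun z => (g (up z).2, ofB (up z).1.tail % 2 ^ m (g (up z).2)))
      (h1.pair (pt_up.fst.tail.ofB.mod ((PTime.const 2).pow (hm.comp h1)))), q, fun x => ?_⟩
    simp only [Set.mem_ofPred_eq, up_pair, List.tail_cons]
    rw [ncard_words _ fun u => B (g x, u % 2 ^ m (g x)), h]
    have hle : m (g x) ≤ q.eval x.length := by simpa using hq x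
    obtain ⟨k, hk⟩ := Nat.exists_eq_add_of_le' hle
    rw [hk, pow_add, cnt_mul (2 ^ k) (2 ^ m (g x)) fun _ u => B (g x, u), sum_const, card_range,
      smul_eq_mul, mul_left_comm]
    exact (Nat.mul_lt_mul_left (Nat.two_pow_pos k)).symm

end CHx

open CHx

theorem CH.comp {P : β → Prop} {f : α → β} (h : CH P) (hf : PTime f) : CH fun a => P (f a) :=
  Exists.imp (fun j hj => lv_comp j hj hf) h

theorem CH.not {P : α → Prop} (h : CH P) : CH fun a => ¬ P a :=
  Exists.imp (fun j hj => lv_not j hj) h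

theorem CH.count {B : α × ℕ → Prop} {N t : α → ℕ} (h : CH B) (hN : PTime N) (ht : PTime t) :
    CH fun a => t a ≤ cnt (N a) fun u => B (a, u) := by
  obtain ⟨j, hj⟩ := ch_ite (PTime.snd'.lt (hN.comp PTime.fst')) h (CH.pt (PTime.const False))
  refine ⟨j + 1, lv_congr (lv_thr hj (PU.size hN) ht) fun a => ?_⟩
  rw [cnt_restrict (Nat.lt_size_self _).le fun u => B (a, u)]

theorem CH.and {P Q : α → Prop} (hP : CH P) (hQ : CH Q) : CH fun a => P a ∧ Q a := by
  refine ((ch_ite (PTime.snd'.eq (PTime.const 0)) (hP.comp PTime.fst')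
    (hQ.comp PTime.fst')).count (PTime.const (1 + 1)) (PTime.const 2)).congr fun a => ?_
  rw [cnt_add]
  have h1 := cnt_one fun u => (u = 0 ∧ P a) ∨ (¬ u = 0 ∧ Q a)
  have h2 := cnt_one fun u => (1 + u = 0 ∧ P a) ∨ (¬ 1 + u = 0 ∧ Q a)
  have h3 := cnt_le 1 fun u => (u = 0 ∧ P a) ∨ (¬ u = 0 ∧ Q a)
  have h4 := cnt_le 1 fun u => (1 + u = 0 ∧ P a) ∨ (¬ 1 + u = 0 ∧ Q a)
  simp only [true_and, not_true, false_and, or_false, add_zero, one_ne_zero, not_false_iff,
    false_or] at h1 h2
  exact (and_congr h1 h2).symm.trans (by simp only []; omega)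

theorem CH.or {P Q : α → Prop} (hP : CH P) (hQ : CH Q) : CH fun a => P a ∨ Q a :=
  (hP.not.and hQ.not).not.congr fun _ => or_iff_not_and_not

theorem CH.imp {P Q : α → Prop} (hP : CH P) (hQ : CH Q) : CH fun a => P a → Q a :=
  (hP.not.or hQ).congr fun _ => imp_iff_not_or

theorem CH.iff {P Q : α → Prop} (hP : CH P) (hQ : CH Q) : CH fun a => P a ↔ Q a :=
  ((hP.imp hQ).and (hQ.imp hP)).congr fun _ => iff_def

theorem CH.ex {B : α × ℕ → Prop} {N : α → ℕ} (h : CH B) (hN : PTime N) :
    CH fun a => ∃ u < N a, B (a, u) :=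
  (h.count hN (PTime.const 1)).congr fun _ => cnt_pos.symm

theorem CH.all {B : α × ℕ → Prop} {N : α → ℕ} (h : CH B) (hN : PTime N) :
    CH fun a => ∀ u < N a, B (a, u) :=
  (h.not.ex hN).not.congr fun _ => by simp

theorem CH.final {P : Word → Prop} (h : CH P) : ∃ j, {w | P w} ∈ Crest.CountHier.level j :=
  Exists.imp (fun j hj => lv_final j hj (fun w => w) PTime.id) h

end Crest.Agent.R316
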