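import Crest.Agent.R316.PFX

/-! Row 316: products from power sums. -/

set_option autoImplicit false

namespace Crest.Agent.R316

open Crest.Agent.PT Finset

variable {α β : Type} [Rp α] [Rp β]

namespace Norm

open Polynomial

theorem X_pow_succ_dvd {D : ℂ[X]} {m : ℕ} (h0 : D.coeff 0 = 0) (h : X ^ m ∣ derivative D) :
    X ^ (m + 1) ∣ D := by
  rw [X_pow_dvd_iff] at h ⊢
  intro d hd
  cases d with
  | zero => exact h0
  | succ d =>
    have := h d (by omega)
    rw [coeff_derivative] at this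
    exact (mul_eq_zero.1 this).resolve_right (by exact_mod_cast Nat.succ_ne_zero d)

/-- uniqueness for the truncated linear differential equation -/
theorem ode_unique {D T : ℂ[X]} {M : ℕ} (h0 : D.coeff 0 = 0) (h : X ^ M ∣ derivative D - T * D) :
    ∀ m ≤ M, X ^ (m + 1) ∣ D := by
  intro m
  induction m with
  | zero => intro _; exact X_pow_succ_dvd h0 (by simp)
  | succ m ih =>
    intro hm
    refine X_pow_succ_dvd h0 ?_
    have h1 : X ^ (m + 1) ∣ derivative D - T * D := (pow_dvd_pow _ hm).trans h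
    have h2 : X ^ (m + 1) ∣ T * D := (ih (by omega)).mul_left _
    simpa using dvd_add h1 h2

theorem ode_prod (w : ℕ → ℂ) (M N : ℕ) :
    X ^ M ∣ derivative (∏ i ∈ range N, (1 + C (w i) * X)) -
      (∑ i ∈ range N, C (w i) * ∑ k ∈ range M, (-(C (w i) * X)) ^ k) *
        ∏ i ∈ range N, (1 + C (w i) * X) := by
  induction N with
  | zero => simp
  | succ N ih =>
    rw [prod_range_succ, sum_range_succ]
    set A := ∏ i ∈ range N, (1 + C (w i) * X)
    set T := ∑ i ∈ range N, C (w i) * ∑ k ∈ range M, (-(C (w i) * X)) ^ k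
    have hg := geom_sum_mul_neg (-(C (w N) * X)) M
    set G := ∑ k ∈ range M, (-(C (w N) * X)) ^ k
    have e : derivative (A * (1 + C (w N) * X)) - (T + C (w N) * G) * (A * (1 + C (w N) * X)) =
        (derivative A - T * A) * (1 + C (w N) * X) + A * C (w N) * (-(C (w N) * X)) ^ M := by
      rw [derivative_mul]
      simp only [derivative_add, derivative_one, derivative_C_mul_X, zero_add]
      linear_combination (-(A * C (w N))) * hg
    rw [e]
    refine dvd_add (ih.mul_right _) (Dvd.dvd.mul_left ?_ _)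
    exact pow_dvd_pow_of_dvd (dvd_neg.2 (Dvd.intro_left _ rfl)) _

/-- truncated exponential -/
noncomputable def texp (S : ℂ[X]) (n : ℕ) : ℂ[X] :=
  ∑ l ∈ range n, C ((l.factorial : ℂ)⁻¹) * S ^ l

theorem derivative_texp (S : ℂ[X]) (n : ℕ) :
    derivative (texp S (n + 1)) = derivative S * texp S n := by
  induction n with
  | zero => simp [texp]
  | succ n ih =>
    have e1 : texp S (n + 1 + 1) = texp S (n + 1) + C (((n + 1).factorial : ℂ)⁻¹) * S ^ (n + 1) :=
      sum_range_succ _ _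
    have e2 : texp S (n + 1) = texp S n + C ((n.factorial : ℂ)⁻¹) * S ^ n := sum_range_succ _ _
    have e3 : C (((n + 1).factorial : ℂ)⁻¹) * C ((n : ℂ) + 1) = C ((n.factorial : ℂ)⁻¹) := by
      rw [← C_mul, Nat.factorial_succ]
      congr 1
      have : ((n : ℂ) + 1) ≠ 0 := by exact_mod_cast Nat.succ_ne_zero n
      have : (n.factorial : ℂ) ≠ 0 := by exact_mod_cast n.factorial_ne_zero
      push_cast
      field_simp
    rw [e1, derivative_add, ih, derivative_C_mul, derivative_pow_succ]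
    conv_rhs => rw [e2]
    linear_combination (S ^ n * derivative S) * e3

theorem ode_texp {S : ℂ[X]} (hS : X ∣ S) (M : ℕ) :
    X ^ M ∣ derivative (texp S (M + 1)) - derivative S * texp S (M + 1) := by
  have e2 : texp S (M + 1) = texp S M + C ((M.factorial : ℂ)⁻¹) * S ^ M := sum_range_succ _ _
  have : derivative (texp S (M + 1)) - derivative S * texp S (M + 1) =
      -(derivative S * C ((M.factorial : ℂ)⁻¹)) * S ^ M := by
    rw [derivative_texp, e2]; ring
  rw [this]
  exact (pow_dvd_pow_of_dvd hS M).mul_left _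

theorem texp_coeff_zero {S : ℂ[X]} (hS : X ∣ S) (M : ℕ) : (texp S (M + 1)).coeff 0 = 1 := by
  have h : S.eval 0 = 0 := by rw [← coeff_zero_eq_eval_zero]; exact X_dvd_iff.1 hS
  rw [coeff_zero_eq_eval_zero, texp, sum_range_succ']
  simp [eval_finset_sum, h]

/-- the truncated logarithm of `∏ (1 + w i X)` from the power sums -/
noncomputable def tlog (p : ℕ → ℂ) (M : ℕ) : ℂ[X] :=
  ∑ k ∈ range M, C ((-1) ^ k / ((k : ℂ) + 1) * p (k + 1)) * X ^ (k + 1)

theorem X_dvd_tlog (p : ℕ → ℂ) (M : ℕ) : X ∣ tlog p M :=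
  dvd_sum fun k _ => (dvd_pow_self X (Nat.succ_ne_zero k)).mul_left _

theorem derivative_tlog (w : ℕ → ℂ) (M N : ℕ) :
    derivative (tlog (fun k => ∑ i ∈ range N, w i ^ k) M) =
      ∑ i ∈ range N, C (w i) * ∑ k ∈ range M, (-(C (w i) * X)) ^ k := by
  simp only [mul_sum]
  rw [sum_comm, tlog, derivative_sum]
  refine sum_congr rfl fun k _ => ?_
  have hk : ((k : ℂ) + 1) ≠ 0 := by exact_mod_cast Nat.succ_ne_zero k
  rw [derivative_C_mul_X_pow, Nat.add_sub_cancel]
  have : (-1) ^ k / ((k : ℂ) + 1) * (∑ i ∈ range N, w i ^ (k + 1)) * ((k + 1 : ℕ) : ℂ) =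
      ∑ i ∈ range N, w i * (-w i) ^ k := by
    push_cast
    rw [mul_right_comm, div_mul_cancel₀ _ hk, mul_sum]
    refine sum_congr rfl fun i _ => ?_
    rw [neg_pow (w i)]
    ring
  rw [this, map_sum, sum_mul]
  refine sum_congr rfl fun i _ => ?_
  rw [← neg_mul, mul_pow, C_mul, C_pow, C_neg, mul_assoc]

theorem coeff_texp_tlog (w : ℕ → ℂ) (M : ℕ) :
    (texp (tlog (fun k => ∑ i ∈ range M, w i ^ k) M) (M + 1)).coeff M = ∏ i ∈ range M, w i := by
  set S := tlog (fun k => ∑ i ∈ range M, w i ^ k) M with hS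
  have hX : X ∣ S := X_dvd_tlog _ _
  have h1 := ode_texp hX M
  have h2 := ode_prod w M M
  rw [← derivative_tlog, ← hS] at h2
  set A := ∏ i ∈ range M, (1 + C (w i) * X) with hA
  have h0 : (texp S (M + 1) - A).coeff 0 = 0 := by
    rw [coeff_sub, texp_coeff_zero hX, coeff_zero_eq_eval_zero, hA]
    simp [eval_prod]
  have h3 : X ^ M ∣ derivative (texp S (M + 1) - A) - derivative S * (texp S (M + 1) - A) := by
    have := dvd_sub h1 h2
    rw [derivative_sub]
    convert this using 1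
    ring
  have h4 := X_pow_dvd_iff.1 (ode_unique h0 h3 M le_rfl) M (by omega)
  rw [coeff_sub, sub_eq_zero] at h4
  have h5 := coeff_prod_of_natDegree_le (s := range M) (fun i => 1 + C (w i) * X) 1 fun i _ => by
    compute_degree
  rw [card_range, mul_one] at h5
  rw [h4, hA, h5]
  simp [coeff_one]

end Norm

theorem PF.norm {M : α → ℕ} {w : α → Pt → ℕ → ℂ} (hM : PTime M)
    (h : PF fun (p : α × ℕ) v => ∑ i ∈ range (M p.1), w p.1 v i ^ p.2) :
    PF fun a v => ∏ i ∈ range (M a), w a v i := by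
  have h1 := (h.shift (m := fun _ => 1) (PU.const 1)).comp
    (g := fun p : α × ℕ => (p.1, p.2 + 1)) (by fun_prop)
  have hc : QC fun p : α × ℕ => (-1 : ℚ) ^ p.2 / ((p.2 + 1 : ℕ) : ℚ) :=
    ((QC.const (-1)).pow (by fun_prop)).div (QC.nat (by fun_prop))
  have hv : PF fun (p : α × ℕ) (u : Pt) => u 0 ^ (p.2 + 1) :=
    (PF.var (k := fun _ => 0) (PU.const 0)).pow (by fun_prop)
  have hS := (((PF.const hc).mul h1).mul hv).sum hM
  have hf : QC fun p : α × ℕ => ((p.2.factorial : ℕ) : ℚ)⁻¹ := (QC.factorial (by fun_prop)).inv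
  have hE := ((PF.const hf).mul ((hS.comp (g := fun p : α × ℕ => p.1) (by fun_prop)).pow
    (k := fun p => p.2) (by fun_prop))).sum (N := fun a => M a + 1) (by fun_prop)
  obtain ⟨G, hG, hGe⟩ := hE.coef1 hM
  refine hG.congr fun a v => ?_
  rw [← Norm.coeff_texp_tlog]
  refine (hGe a v _ fun t => ?_).symm
  simp [Norm.texp, Norm.tlog, Polynomial.eval_finset_sum]

theorem Fam.prod {n M : α → ℕ} {ξ : α → Pt → ℕ → Pt} (h : Fam n M ξ) {g : β → α}
    {G : β × Un → Pt → ℂ} {F : β → Pt → ℂ} (hg : PTime g) (hG : PF G) (hF : PF F) :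
    PF fun b v => ∏ i ∈ range (M (g b)),
      F b (glue (n (g b)) (ξ (g b) (fun j => G (b, ⟨j⟩) v) i) v) := by
  refine PF.norm (M := fun b => M (g b))
    (w := fun b v i => F b (glue (n (g b)) (ξ (g b) (fun j => G (b, ⟨j⟩) v) i) v))
    (h.2.1.comp hg) ?_
  exact h.2.2 (β × ℕ) (fun p => g p.1) (fun q => G (q.1.1, q.2)) (fun p v => F p.1 v ^ p.2)
    (by fun_prop) (hG.comp (g := fun q : (β × ℕ) × Un => (q.1.1, q.2)) (by fun_prop))
    ((hF.comp (g := fun p : β × ℕ => p.1) (by fun_prop)).pow (by fun_prop))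

end Crest.Agent.R316
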