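import Crest.Agent.R316.PhamFam
import Crest.Agent.R316.Norm

/-! Row 316: an eliminant for the critical points of the penalised function. -/

set_option autoImplicit false

namespace Crest.Agent.R316

open Crest.Agent.PT Finset

variable {α β : Type} [Rp α] [Rp β]

namespace Chi

theorem glue_glue (m : ℕ) (y v w : Pt) : glue m (glue m y v) w = glue m y w :=
  glue_congr (fun _ hi => glue_lt hi y v) w

theorem glue_self (m : ℕ) (y v : Pt) : glue m y v m = v 0 := by
  simpa using glue_add m 0 y v

theorem im_rext {n : ℕ} (y : Fin n → ℝ) (i : ℕ) : (rext y i).im = 0 := by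
  unfold rext ext
  split_ifs <;> simp

theorem im_glue {m : ℕ} {y v : Pt} (hy : ∀ i, (y i).im = 0) (hv : ∀ i, (v i).im = 0) (i : ℕ) :
    (glue m y v i).im = 0 := by
  unfold glue
  split_ifs
  · exact hy _
  · exact hv _

theorem im_cons {t : ℝ} {v : Pt} (hv : ∀ i, (v i).im = 0) (i : ℕ) : (cons t v i).im = 0 :=
  im_glue (fun _ => by simp) hv i

theorem rext_update {n : ℕ} (y : Fin n → ℝ) (k : Fin n) (t : ℝ) (v : Pt) :
    glue n (rext (Function.update y k t)) v = Function.update (glue n (rext y) v) k (t : ℂ) := by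
  unfold rext
  rw [glue_ext_update]
  congr 2
  funext j
  by_cases h : j = k
  · subst h; simp
  · simp [Function.update_of_ne h]

theorem hasDerivAt_Gp {n : ℕ} (e : ℕ) (y : Fin n → ℝ) (k : Fin n) :
    HasDerivAt (fun t => Gp e (Function.update y k t)) (((2 * e : ℕ) : ℝ) * y k ^ (2 * e - 1))
      (y k) := by
  have h : (fun t => Gp e (Function.update y k t)) =
      fun t => t ^ (2 * e) + ∑ j ∈ univ.erase k, y j ^ (2 * e) := by
    funext t
    unfold Gp
    rw [← Finset.add_sum_erase _ _ (mem_univ k), Function.update_self]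
    congr 1
    exact Finset.sum_congr rfl fun j hj => by rw [Function.update_of_ne (ne_of_mem_erase hj)]
  rw [h]
  exact (hasDerivAt_pow (2 * e) (y k)).add_const _

theorem pf_drop {n : α → ℕ} {H : α → Pt → ℂ} (hn : PU n) (hH : PF H) (c : ℕ) :
    PF fun a p => H a (glue (n a) p fun j => p (j + (n a + c))) :=
  hH.glue hn pf_id (PF.var (k := fun p : α × Un => p.2.val + (n p.1 + c)) (by fun_prop))

end Chi

open Chi in
theorem chi {n : α → ℕ} {H : α → Pt → ℂ} (hn : PU n) (hH : PF H) :
    ∃ (e : α → ℕ) (χ : α → Pt → ℂ), PF χ ∧ ∀ a, 1 ≤ e a ∧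
      (∀ κ v, {T | χ a (cons T (cons κ v)) = 0}.Finite) ∧
      ∀ (v : Pt) (κ : ℝ) (y : Fin (n a) → ℝ), (∀ i, (v i).im = 0) →
        IsLocalMin (fun y' => κ * (H a (glue (n a) (rext y') v)).re + Gp (e a) y') y →
        χ a (cons ((κ * (H a (glue (n a) (rext y) v)).re + Gp (e a) y : ℝ) : ℂ) (cons κ v)) = 0 ∧
          ∀ k, χ a (cons (y k) (cons κ v)) = 0 := by
  let H' : α → Pt → ℂ := fun a p => H a (glue (n a) p fun j => p (j + (n a + 1)))
  have hH' : PF H' := pf_drop hn hH 1
  let g₀ : α × Un → Pt → ℂ := fun q p =>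
    deriv (fun t => H' q.1 (Function.update p q.2.val t)) (p q.2.val)
  have hg₀ : PF g₀ := (hH'.comp (g := Prod.fst) (by fun_prop)).deriv (by fun_prop)
  obtain ⟨n₀, D₀, hn₀, hD₀, hP₀⟩ := hg₀.isP
  obtain ⟨D, hD, hDD⟩ := pt_bddU hD₀ hn
  have hnp := hn.ptime
  let e : α → ℕ := fun a => n a * D a + 1
  have he : PTime e := by fun_prop
  let g : α × Un → Pt → ℂ := fun q p => ((-((2 * e q.1 : ℕ) : ℚ)⁻¹ : ℚ) : ℂ) * p (n q.1) * g₀ q p
  have hg : PF g :=
    ((PF.const (QC.nat (f := fun q : α × Un => 2 * e q.1) (by fun_prop)).inv.neg).mul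
      (PF.var (k := fun q : α × Un => n q.1) (by fun_prop))).mul hg₀
  obtain ⟨ξ, hξ, hcov⟩ := pham_fam (d := fun a => 2 * e a - 1) hn (by fun_prop)
    (fun a => by simp only [e]; omega) hg (fun a v k hk => by
      obtain ⟨P, hP, -, hev⟩ := (hP₀ (a, ⟨k⟩)).exists_mv (n a) v
      refine ⟨MvPolynomial.C (((-((2 * e a : ℕ) : ℚ)⁻¹ : ℚ) : ℂ) * v 0) * P, ?_, fun y => ?_⟩
      · have h1 := MvPolynomial.totalDegree_mul
          (MvPolynomial.C (((-((2 * e a : ℕ) : ℚ)⁻¹ : ℚ) : ℂ) * v 0)) P
        rw [MvPolynomial.totalDegree_C] at h1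
        have h2 : n a * D₀ (a, ⟨k⟩) ≤ n a * D a := Nat.mul_le_mul_left _ (hDD a k hk.le)
        have h3 : e a = n a * D a + 1 := rfl
        omega
      · simp only [g, map_mul, MvPolynomial.eval_C, hev, glue_self])
  let F : α → Pt → ℂ := fun a p =>
    (p (n a) - (p (n a + 1) * H a (glue (n a) p fun j => p (j + (n a + 2))) +
      ∑ k ∈ range (n a), p k ^ (2 * e a))) * ∏ k ∈ range (n a), (p (n a) - p k)
  have hF : PF F :=
    ((PF.var hn).sub (((PF.var (k := fun a => n a + 1) (by fun_prop)).mul (pf_drop hn hH 2)).add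
      (PF.sumU (F := fun q p => p q.2.val ^ (2 * e q.1)) (pf_id.pow (by fun_prop)) hn))).mul
      (PF.prodU (F := fun q p => p (n q.1) - p q.2.val)
        ((PF.var (k := fun q : α × Un => n q.1) (by fun_prop)).sub pf_id) hn)
  have hχ := hξ.prod (g := fun a => a) (G := fun q p => p (q.2.val + 1)) PTime.id
    (PF.var (by fun_prop)) hF
  have hFv : ∀ a (η : Pt) T κ v, F a (glue (n a) η (cons T (cons κ v))) =
      (T - (κ * H a (glue (n a) η v) + ∑ k ∈ range (n a), η k ^ (2 * e a))) *
        ∏ k ∈ range (n a), (T - η k) := by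
    intro a η T κ v
    have e1 : glue (n a) η (cons T (cons κ v)) (n a + 1) = κ := by
      rw [add_comm, glue_add]; simp
    have e2 : (fun j => glue (n a) η (cons T (cons κ v)) (j + (n a + 2))) = v := by
      funext j
      rw [show j + (n a + 2) = (j + 1 + 1) + n a by ring, glue_add]; simp
    simp only [F, glue_self, e1, e2, glue_glue, cons_zero]
    rw [Finset.sum_congr rfl fun k hk => by rw [glue_lt (mem_range.1 hk)],
      Finset.prod_congr rfl fun k hk => by rw [glue_lt (mem_range.1 hk)]]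
  have hw : ∀ T κ (v : Pt), (fun j => cons T (cons κ v) (j + 1)) = cons κ v := fun T κ v => by
    funext j; simp
  refine ⟨e, _, hχ, fun a => ⟨by simp only [e]; omega, fun κ v => ?_, fun v κ y hv hmin => ?_⟩⟩
  · simp only [hw, hFv]
    refine Set.Finite.subset (((range ((2 * e a - 1) ^ n a)).biUnion fun i =>
      insert (κ * H a (glue (n a) (ξ a (cons κ v) i) v) +
        ∑ k ∈ range (n a), ξ a (cons κ v) i k ^ (2 * e a))
        ((range (n a)).image (ξ a (cons κ v) i))).finite_toSet) fun T hT => ?_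
    simp only [Set.mem_ofPred_eq, Finset.prod_eq_zero_iff, mul_eq_zero, sub_eq_zero] at hT
    obtain ⟨i, hi, h⟩ := hT
    simp only [coe_biUnion, Set.mem_iUnion, mem_coe, mem_insert, mem_image]
    refine ⟨i, hi, h.imp id ?_⟩
    rintro ⟨k, hk, h⟩
    exact ⟨k, hk, h.symm⟩
  · have hreal : ∀ i, (glue (n a) (rext y) (cons κ v) i).im = 0 :=
      im_glue (im_rext y) (im_cons hv)
    have hcrit : ∀ k < n a, rext y k ^ (2 * e a - 1) =
        g (a, ⟨k⟩) (glue (n a) (rext y) (cons κ v)) := by
      intro k hk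
      set p := glue (n a) (rext y) (cons κ v) with hp
      have hpk : p k = (y ⟨k, hk⟩ : ℂ) := by
        rw [hp, glue_lt hk]; exact rext_val y ⟨k, hk⟩
      obtain ⟨n', D', -, -, hP'⟩ := hH'.isP
      obtain ⟨q, -, hq⟩ := (hP' a).2 k p
      have hd : HasDerivAt (fun t => H' a (Function.update p k t)) (g₀ (a, ⟨k⟩) p) (p k) := by
        have : DifferentiableAt ℂ (fun t => H' a (Function.update p k t)) (p k) := by
          rw [funext hq]; exact q.differentiableAt
        exact this.hasDerivAt
      rw [hpk] at hd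
      have hd' := hd.real_of_complex
      have hfun : (fun t : ℝ => (H' a (Function.update p k t)).re) =
          fun t => (H a (glue (n a) (rext (Function.update y ⟨k, hk⟩ t)) v)).re := by
        funext t
        have e1 := rext_update y ⟨k, hk⟩ t (cons κ v)
        simp only at e1
        rw [hp, ← e1]
        simp only [H', glue_glue]
        congr 3
        funext j
        rw [show j + (n a + 1) = (j + 1) + n a by ring, glue_add]; simp
      rw [hfun] at hd'
      have hmin' : IsLocalMin (fun t => κ * (H a (glue (n a)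
          (rext (Function.update y ⟨k, hk⟩ t)) v)).re + Gp (e a) (Function.update y ⟨k, hk⟩ t))
          (y ⟨k, hk⟩) := by
        have hc : ContinuousAt (fun t => Function.update y ⟨k, hk⟩ t) (y ⟨k, hk⟩) :=
          (continuous_const.update _ continuous_id).continuousAt
        have := IsLocalMin.comp_continuous (f := fun y' =>
          κ * (H a (glue (n a) (rext y') v)).re + Gp (e a) y')
          (g := fun t => Function.update y ⟨k, hk⟩ t) (b := y ⟨k, hk⟩)
          (by simpa using hmin) hc
        exact this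
      have h0 := hmin'.hasDerivAt_eq_zero ((hd'.const_mul κ).add (hasDerivAt_Gp (e a) y ⟨k, hk⟩))
      have him := hg₀.real (a, ⟨k⟩) p hreal
      have hre : g₀ (a, ⟨k⟩) p = ((g₀ (a, ⟨k⟩) p).re : ℂ) :=
        Complex.ext (by simp) (by simp [him])
      have he0 : ((2 * e a : ℕ) : ℝ) ≠ 0 := by
        simp only [e]; positivity
      have h1 : y ⟨k, hk⟩ ^ (2 * e a - 1) = -((2 * e a : ℕ) : ℝ)⁻¹ * κ * (g₀ (a, ⟨k⟩) p).re := by
        field_simp
        linarith
      have h2 : p (n a) = κ := by rw [hp, glue_self]; simp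
      rw [show rext y k = (y ⟨k, hk⟩ : ℂ) from rext_val y ⟨k, hk⟩]
      simp only [g]
      rw [h2, hre, ← Complex.ofReal_pow, h1]
      push_cast
      simp
    obtain ⟨i, hi, hξi⟩ := hcov a (cons κ v) (rext y) hcrit
    have hgl : glue (n a) (ξ a (cons κ v) i) v = glue (n a) (rext y) v := glue_congr hξi v
    simp only [hw, hFv]
    refine ⟨Finset.prod_eq_zero (mem_range.2 hi) ?_, fun k =>
      Finset.prod_eq_zero (mem_range.2 hi) ?_⟩
    · apply mul_eq_zero_of_left
      rw [hgl, sub_eq_zero]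
      have him := hH.real a _ (im_glue (m := n a) (im_rext y) hv)
      have hre : H a (glue (n a) (rext y) v) = ((H a (glue (n a) (rext y) v)).re : ℂ) :=
        Complex.ext (by simp) (by simp [him])
      have hs : ∑ k ∈ range (n a), ξ a (cons κ v) i k ^ (2 * e a) = (Gp (e a) y : ℂ) := by
        rw [Finset.sum_congr rfl fun k hk => by rw [hξi k (mem_range.1 hk)]]
        unfold Gp
        push_cast
        rw [← Fin.sum_univ_eq_sum_range (fun k => rext y k ^ (2 * e a))]
        exact Finset.sum_congr rfl fun k _ => by rw [rext_val]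
      rw [hs]
      push_cast
      rw [← hre]
    · apply mul_eq_zero_of_right
      exact Finset.prod_eq_zero (mem_range.2 k.2) (by rw [hξi k k.2, rext_val, sub_self])

end Crest.Agent.R316
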