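import Crest.Agent.R316.Pen

/-! Row 316: solvability is locally constant on strata. -/

set_option autoImplicit false

namespace Crest.Agent.R316

open Finset Filter Topology

namespace Const

/-- the leading term dominates, locally uniformly in the parameter -/
theorem lead {X : Type} [TopologicalSpace X] {D j₀ : ℕ} (hj : j₀ < D) (a : ℕ → X → ℂ)
    (ha : ∀ j, Continuous (a j)) (S : Set X) {x₀ : X} (h0 : a j₀ x₀ ≠ 0)
    (hS : ∀ x ∈ S, ∀ j < D, j₀ < j → a j x = 0) :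
    ∃ B : ℝ, 0 < B ∧ ∀ᶠ x in 𝓝[S] x₀, ∀ T : ℝ, B ≤ T → ∑ j ∈ range D, a j x * (T : ℂ) ^ j ≠ 0 := by
  have hη : 0 < ‖a j₀ x₀‖ / 2 := half_pos (norm_pos_iff.2 h0)
  have hC : 0 ≤ ∑ j ∈ range j₀, ‖a j x₀‖ + 1 := by positivity
  have e1 : ∀ᶠ x in 𝓝 x₀, ‖a j₀ x₀‖ / 2 < ‖a j₀ x‖ :=
    (ha j₀).norm.continuousAt.eventually_const_lt (by linarith)
  have e2 : ∀ᶠ x in 𝓝 x₀, ∑ j ∈ range j₀, ‖a j x‖ < ∑ j ∈ range j₀, ‖a j x₀‖ + 1 :=
    (continuous_finsetSum (range j₀) fun j _ => (ha j).norm).continuousAt.eventually_lt_const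
      (by linarith)
  generalize ‖a j₀ x₀‖ / 2 = η at *
  generalize ∑ j ∈ range j₀, ‖a j x₀‖ + 1 = C at *
  have hCη : 0 ≤ C / η := by positivity
  refine ⟨C / η + 1, by linarith, ?_⟩
  filter_upwards [e1.filter_mono nhdsWithin_le_nhds, e2.filter_mono nhdsWithin_le_nhds,
    self_mem_nhdsWithin] with x h1 h2 hx T hT h
  have hT1 : 1 ≤ T := by linarith
  have h3 : ∑ j ∈ range D, a j x * (T : ℂ) ^ j = ∑ j ∈ range (j₀ + 1), a j x * (T : ℂ) ^ j := by
    refine (Finset.sum_subset (Finset.range_mono hj) fun j h3 h4 => ?_).symm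
    rw [hS x hx j (mem_range.1 h3) (by simpa using h4), zero_mul]
  rw [h3, Finset.sum_range_succ, add_eq_zero_iff_neg_eq] at h
  have hn : ∀ j, ‖a j x * (T : ℂ) ^ j‖ = ‖a j x‖ * T ^ j := fun j => by
    rw [norm_mul, norm_pow, Complex.norm_real, Real.norm_of_nonneg (by linarith)]
  have h4 : ‖a j₀ x‖ * T ^ j₀ * T ≤ (∑ j ∈ range j₀, ‖a j x‖) * T ^ j₀ := by
    rw [← hn, ← h, norm_neg, Finset.sum_mul]
    refine (mul_le_mul_of_nonneg_right (norm_sum_le _ _) (by linarith)).trans ?_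
    rw [Finset.sum_mul]
    refine Finset.sum_le_sum fun j hj => ?_
    rw [hn, mul_assoc, ← pow_succ]
    exact mul_le_mul_of_nonneg_left (pow_le_pow_right₀ hT1 (mem_range.1 hj)) (norm_nonneg _)
  have h5 : 0 < T ^ j₀ := by positivity
  have h6 : ‖a j₀ x‖ * T ≤ ∑ j ∈ range j₀, ‖a j x‖ :=
    le_of_mul_le_mul_right (by linarith) h5
  have h7 : C ≤ η * T := by
    have : C / η ≤ T := by linarith
    rwa [div_le_iff₀' hη] at this
  nlinarith

/-- solvability is read off from the penalised minimum at one parameter -/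
theorem crit {n e D i₀ : ℕ} (he : 1 ≤ e) (f : (Fin n → ℝ) → ℝ) (hf : Continuous f)
    (h0 : ∀ y, 0 ≤ f y) (c : ℕ → ℕ → ℂ)
    (hz : ∀ (κ : ℝ) y, 0 < κ → (∀ y', κ * f y + Gp e y ≤ κ * f y' + Gp e y') →
      ∑ i ∈ range D, ∑ j ∈ range D, c i j * (κ : ℂ) ^ i * ((κ * f y + Gp e y : ℝ) : ℂ) ^ j = 0)
    (hi : i₀ < D) (hc : ∀ i, i₀ < i → i < D → ∀ j < D, c i j = 0) {B L : ℝ} (hL : 0 < L)
    (h1 : ∀ T : ℝ, B ≤ T → ∑ j ∈ range D, c i₀ j * (T : ℂ) ^ j ≠ 0)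
    (h2 : ∀ κ : ℝ, L ≤ κ → ∑ i ∈ range D, (∑ j ∈ range D, c i j * (B : ℂ) ^ j) * (κ : ℂ) ^ i ≠ 0) :
    ((∃ y, f y = 0) ↔ ∃ y, L * f y + Gp e y < B) ∧
      ((∃ y, L * f y + Gp e y < B) ∨ ∀ y, B < L * f y + Gp e y) := by
  have hm : ∀ κ : ℝ, ∃ y, 0 ≤ κ → ∀ y', κ * f y + Gp e y ≤ κ * f y' + Gp e y' := by
    intro κ
    by_cases h : 0 ≤ κ
    · obtain ⟨y, hy⟩ := exists_min he f hf h0 h
      exact ⟨y, fun _ => hy⟩
    · exact ⟨0, fun h' => absurd h' h⟩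
  choose m hm using hm
  set μ : ℝ → ℝ := fun κ => κ * f (m κ) + Gp e (m κ) with hμ
  have hne : ∀ κ, L ≤ κ → μ κ ≠ B := by
    intro κ hκ h
    have h3 := hz κ (m κ) (by linarith) (hm κ (by linarith))
    rw [show κ * f (m κ) + Gp e (m κ) = B from h] at h3
    refine h2 κ hκ (Eq.trans ?_ h3)
    refine Finset.sum_congr rfl fun i _ => ?_
    rw [Finset.sum_mul]
    exact Finset.sum_congr rfl fun j _ => by ring
  have hconc : ConcaveOn ℝ (Set.Ioi 0) μ := by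
    refine ⟨convex_Ioi 0, fun κ₁ k1 κ₂ k2 a b ha hb hab => ?_⟩
    have h3 := mul_le_mul_of_nonneg_left (hm κ₁ (le_of_lt k1) (m (a * κ₁ + b * κ₂))) ha
    have h4 := mul_le_mul_of_nonneg_left (hm κ₂ (le_of_lt k2) (m (a * κ₁ + b * κ₂))) hb
    simp only [smul_eq_mul, hμ]
    have h5 : Gp e (m (a * κ₁ + b * κ₂)) = (a + b) * Gp e (m (a * κ₁ + b * κ₂)) := by
      rw [hab, one_mul]
    linarith
  have hcont : ContinuousOn μ (Set.Ioi 0) := hconc.continuousOn isOpen_Ioi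
  refine ⟨⟨?_, ?_⟩, ?_⟩
  · rintro ⟨y₀, hy₀⟩
    have hmono : Monotone fun k : ℕ => μ (L + k) := by
      intro k k' hk
      have h3 := hm (L + k) (by positivity) (m (L + k'))
      have h4 : (k : ℝ) ≤ k' := by exact_mod_cast hk
      have h5 := mul_le_mul_of_nonneg_right h4 (h0 (m (L + k')))
      simp only [hμ]
      linarith
    have hbdd : BddAbove (Set.range fun k : ℕ => μ (L + k)) := by
      refine ⟨Gp e y₀, ?_⟩
      rintro _ ⟨k, rfl⟩
      simpa [hy₀] using hm (L + k) (by positivity) y₀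
    have h3 := elim D c hi hc (fun k : ℕ => L + k) (fun k : ℕ => μ (L + k)) _
      (tendsto_atTop_add_const_left _ _ tendsto_natCast_atTop_atTop)
      (tendsto_atTop_ciSup hmono hbdd)
      fun k => hz _ _ (by positivity) (hm _ (by positivity))
    have h4 : ⨆ k : ℕ, μ (L + k) < B := by
      by_contra h
      exact h1 _ (not_lt.1 h) h3
    have h5 := le_ciSup hbdd 0
    simp only [Nat.cast_zero, add_zero] at h5
    exact ⟨m L, h5.trans_lt h4⟩
  · rintro ⟨y₀, hy₀⟩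
    have h3 : μ L < B := (hm L hL.le y₀).trans_lt hy₀
    have h4 : ∀ κ, L ≤ κ → μ κ < B := by
      intro κ hκ
      by_contra h
      obtain ⟨κ', k1, k2⟩ := intermediate_value_Icc hκ
        (hcont.mono fun t ht => hL.trans_le ht.1) ⟨h3.le, not_lt.1 h⟩
      exact hne κ' k1.1 k2
    have h5 : ∀ κ, L ≤ κ → Gp e (m κ) ≤ B := fun κ hκ => by
      have := h4 κ hκ
      have := mul_nonneg (hL.le.trans hκ) (h0 (m κ))
      simp only [hμ] at *
      linarith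
    obtain ⟨y, -, hy⟩ := (isCompact_Gp_le (n := n) he B).exists_isMinOn ⟨m L, h5 L le_rfl⟩
      hf.continuousOn
    refine ⟨y, le_antisymm (not_lt.1 fun hp => ?_) (h0 y)⟩
    have h6 := h4 _ (le_max_left L (B / f y))
    have h7 : f y ≤ f (m (max L (B / f y))) := hy (h5 _ (le_max_left L (B / f y)))
    have h8 : B ≤ max L (B / f y) * f y := by
      rw [← div_le_iff₀ hp]; exact le_max_right _ _
    have h9 := mul_le_mul_of_nonneg_left h7 (hL.le.trans (le_max_left L (B / f y)))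
    have h10 := Gp_nonneg e (m (max L (B / f y)))
    simp only [hμ] at h6
    linarith
  · rcases (hne L le_rfl).lt_or_gt with h | h
    · exact Or.inl ⟨m L, h⟩
    · exact Or.inr fun y => h.trans_le (hm L hL.le y)

end Const

theorem loc_const {X : Type} [TopologicalSpace X] {n e D : ℕ} (he : 1 ≤ e)
    (f : X → (Fin n → ℝ) → ℝ) (hf : Continuous fun p : X × (Fin n → ℝ) => f p.1 p.2)
    (h0 : ∀ x y, 0 ≤ f x y) (c : ℕ → ℕ → X → ℂ) (hc : ∀ i j, Continuous (c i j))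
    (hz : ∀ x (κ : ℝ) y, 0 < κ → (∀ y', κ * f x y + Gp e y ≤ κ * f x y' + Gp e y') →
      ∑ i ∈ range D, ∑ j ∈ range D,
        c i j x * (κ : ℂ) ^ i * ((κ * f x y + Gp e y : ℝ) : ℂ) ^ j = 0)
    {i₀ j₀ : ℕ} (hi : i₀ < D) (hj : j₀ < D) (S : Set X)
    (hS : ∀ x ∈ S, c i₀ j₀ x ≠ 0 ∧
      ∀ i < D, ∀ j < D, (i₀ < i ∨ (i = i₀ ∧ j₀ < j)) → c i j x = 0)
    {x₀ : X} (hx : x₀ ∈ S) : ∀ᶠ x in 𝓝[S] x₀, ((∃ y, f x y = 0) ↔ ∃ y, f x₀ y = 0) := by
  obtain ⟨B, -, hB⟩ := Const.lead hj (c i₀) (hc i₀) S (hS x₀ hx).1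
    fun x hx j h1 h2 => (hS x hx).2 i₀ hi j h1 (Or.inr ⟨rfl, h2⟩)
  obtain ⟨L, hL0, hL⟩ := Const.lead hi (fun i x => ∑ j ∈ range D, c i j x * (B : ℂ) ^ j)
    (fun i => continuous_finsetSum _ fun j _ => (hc i j).mul continuous_const) S
    (hB.self_of_nhdsWithin hx B le_rfl)
    fun x hx i h1 h2 => Finset.sum_eq_zero fun j hj => by
      rw [(hS x hx).2 i h1 j (mem_range.1 hj) (Or.inl h2), zero_mul]
  have key : ∀ᶠ x in 𝓝[S] x₀, ((∃ y, f x y = 0) ↔ ∃ y, L * f x y + Gp e y < B) ∧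
      ((∃ y, L * f x y + Gp e y < B) ∨ ∀ y, B < L * f x y + Gp e y) := by
    filter_upwards [hB, hL, self_mem_nhdsWithin] with x h1 h2 hx
    exact Const.crit he (f x) (hf.comp (Continuous.prodMk_right x)) (h0 x) (fun i j => c i j x)
      (hz x) hi (fun i k1 k2 j k3 => (hS x hx).2 i k2 j k3 (Or.inl k1)) hL0 h1 h2
  have hF : Continuous fun p : X × (Fin n → ℝ) => L * f p.1 p.2 + Gp e p.2 :=
    (continuous_const.mul hf).add ((continuous_Gp e).comp continuous_snd)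
  obtain ⟨k1, ⟨y, hy⟩ | k2⟩ := key.self_of_nhdsWithin hx
  · have : ∀ᶠ x in 𝓝 x₀, L * f x y + Gp e y < B :=
      (hF.comp (Continuous.prodMk_left y)).continuousAt.eventually_lt_const hy
    filter_upwards [key, this.filter_mono nhdsWithin_le_nhds] with x h1 h2
    exact iff_of_true (h1.1.2 ⟨y, h2⟩) (k1.2 ⟨y, hy⟩)
  · have : ∀ᶠ x in 𝓝 x₀, ∀ y ∈ {y : Fin n → ℝ | Gp e y ≤ B}, B < L * f x y + Gp e y :=
      (isCompact_Gp_le he B).eventually_forall_of_forall_eventually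
        fun y _ => hF.continuousAt.eventually_const_lt (k2 y)
    filter_upwards [key, this.filter_mono nhdsWithin_le_nhds] with x h1 h2
    refine iff_of_false (fun h => ?_) fun h => ?_
    · obtain ⟨y, hy⟩ := h1.1.1 h
      have := mul_nonneg hL0.le (h0 x y)
      exact lt_asymm hy (h2 y (show Gp e y ≤ B by linarith))
    · obtain ⟨y, hy⟩ := k1.1 h
      exact lt_asymm hy (k2 y)

end Crest.Agent.R316
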