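import Crest.Agent.R316.RealT

/-! Row 316: deciding sentences over real grid points. -/

set_option autoImplicit false

namespace Crest.Agent.R316

open Crest.Agent.PT Finset

variable {α β : Type} [Rp α] [Rp β]

namespace FD

theorem grid_real (D m : ℕ) (z : ℕ → ℂ) (w : Pt) (Φ : Pt → Prop) :
    (∃ i < D ^ m, (∀ k < m, (glue m (fun k => z (dg D i k)) w k).im = 0) ∧
      Φ (glue m (fun k => z (dg D i k)) w)) ↔
      ∃ x : Fin m → ℝ, (∀ k, InG D z (x k)) ∧ Φ (glue m (rext x) w) := by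
  constructor
  · rintro ⟨i, hi, h1, h2⟩
    have e : ∀ k : Fin m, (((z (dg D i k)).re : ℝ) : ℂ) = z (dg D i k) := fun k => by
      have := h1 k k.2
      rw [glue_lt k.2] at this
      exact Complex.ext (by simp) (by simp [this])
    refine ⟨fun k => (z (dg D i k)).re, fun k => ⟨_, dg_lt_of_lt hi k.2, e k⟩, ?_⟩
    rwa [glue_congr (y' := fun k => z (dg D i k))
      fun k hk => (rext_val _ ⟨k, hk⟩).trans (e ⟨k, hk⟩)]
  · rintro ⟨x, h1, h2⟩
    obtain ⟨u, hu, h3⟩ := (onG_iff (D := D) (m := m) (z := z) (v := rext x)).1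
      fun k hk => by rw [show rext x k = _ from rext_val x ⟨k, hk⟩]; exact h1 _
    refine ⟨u, hu, fun k hk => ?_, by rwa [← glue_congr h3]⟩
    rw [glue_lt hk, ← h3 k hk, show rext x k = _ from rext_val x ⟨k, hk⟩, Complex.ofReal_im]

theorem glue_rext {m : ℕ} (x : Fin m → ℝ) : glue m (rext x) 0 = rext x := by
  funext i
  by_cases h : i < m <;> simp [glue, rext, ext, h]

theorem glue_glue (n r : ℕ) (y x : Pt) :
    glue (n + r) (glue n y (glue r x 0)) 0 = glue n y (glue r x 0) := by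
  funext i
  simp only [glue]
  split_ifs <;> first | rfl | omega

theorem onG_glue {D n r : ℕ} {z : ℕ → ℂ} {y w : Pt} (hy : OnG D z n y) (hw : OnG D z r w) :
    OnG D z (n + r) (glue n y w) := by
  intro k hk
  unfold glue
  split_ifs with h
  · exact hy k h
  · exact hw _ (by omega)

theorem realm {D Θ m : α → ℕ} {z : α → ℕ → ℂ} {Good : α → ℕ → Prop}
    (hI : IND (fun (p : α × ℕ) v => p.2 < Θ p.1 ∧ Good p.1 p.2 ∧ InG (D p.1) (z p.1) (v 0))
      fun _ v => (v 0).im = 0) (hm : PU m) :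
    IND (fun (p : α × ℕ) v => (p.2 < Θ p.1 ∧ Good p.1 p.2) ∧ OnG (D p.1) (z p.1) (m p.1) v)
      fun p v => ∀ k < m p.1, (v k).im = 0 := by
  have h1 := (hI.comp (g := fun q : (α × ℕ) × Un => q.1) PTime.fst').bind
    (G := fun q v => v q.1.2.val) (pf_id.comp (g := fun q : ((α × ℕ) × Un) × Un => q.1) PTime.fst')
  exact (h1.allU (hm.comp PTime.fst')).mono (fun p v h u hu => ⟨h.1.1, h.1.2, h.2 u hu⟩)
    fun _ _ _ => Iff.rfl

end FD

open FD in
theorem fin_dec {D₀ D₁ r n : α → ℕ} {z₀ z₁ : α → ℕ → ℂ} {Q : α → Pt → ℂ} (h₀ : GF D₀ z₀)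
    (h₁ : GF D₁ z₁) (hr : PU r) (hn : PU n) (hQ : PF Q) :
    CH fun a => ∃ x : Fin (r a) → ℝ, (∀ k, InG (D₀ a) (z₀ a) (x k)) ∧
      ∀ y : Fin (n a) → ℝ, (∀ k, InG (D₁ a) (z₁ a) (y k)) →
        Q a (glue (n a) (rext y) (rext x)) ≠ 0 := by
  have hG := h₀.union h₁
  obtain ⟨Θ, Good, hΘ, hmaj, hI⟩ := real_ind hG
  have hz := ind_zero (hG.comp (g := fun p : α × ℕ => p.1) PTime.fst')
    ((hn.add hr).comp PTime.fst') (hQ.comp PTime.fst')
  have hRn := realm (D := fun a => D₀ a + D₁ a)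
    (z := fun a i => if i < D₀ a then z₀ a i else z₁ a (i - D₀ a)) hI hn
  have hRr := realm (D := fun a => D₀ a + D₁ a)
    (z := fun a i => if i < D₀ a then z₀ a i else z₁ a (i - D₀ a)) hI hr
  have h2 := (hRn.mono (S' := fun (p : α × ℕ) v => (p.2 < Θ p.1 ∧ Good p.1 p.2) ∧
      OnG (D₀ p.1 + D₁ p.1) (fun i => if i < D₀ p.1 then z₀ p.1 i else z₁ p.1 (i - D₀ p.1))
        (n p.1 + r p.1) v) (fun p v h => ⟨h.1, fun k hk => h.2 k (by omega)⟩)
      fun _ _ _ => Iff.rfl).imp (hz.mono (fun p v h => h.2) fun _ _ _ => Iff.rfl).not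
  have h3 := hRr.and ((h2.allFam
    ((h₁.comp (g := fun p : α × ℕ => p.1) PTime.fst').fam (hn.comp PTime.fst'))).mono
      (fun p v h i hi => ⟨h.1, onG_glue
        (fun k hk => inG_union.2 (Or.inr ⟨_, dg_lt_of_lt hi hk, rfl⟩)) h.2⟩) fun _ _ _ => Iff.rfl)
  obtain ⟨c, hc, h4⟩ := (h3.not.allFam
    ((h₀.comp (g := fun p : α × ℕ => p.1) PTime.fst').fam (hr.comp PTime.fst'))).not.final
  refine (hc.count hΘ ((hΘ.div (PTime.const 2)).add (PTime.const 1))).congr fun a => ?_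
  have key : ∀ u < Θ a, Good a u → (c (a, u) ↔
      ∃ x : Fin (r a) → ℝ, (∀ k, InG (D₀ a) (z₀ a) (x k)) ∧
        ∀ y : Fin (n a) → ℝ, (∀ k, InG (D₁ a) (z₁ a) (y k)) →
          Q a (glue (n a) (rext y) (rext x)) ≠ 0) := by
    intro u hu hg
    rw [h4 (a, u) fun i hi => ⟨⟨hu, hg⟩, fun k hk => by
      rw [glue_lt hk]; exact inG_union.2 (Or.inl ⟨_, dg_lt_of_lt hi hk, rfl⟩)⟩]
    simp only [not_forall, not_not, exists_prop]
    refine (grid_real (D₀ a) (r a) (z₀ a) 0 fun w => ∀ i < D₁ a ^ n a,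
      (∀ k < n a, (glue (n a) (fun k => z₁ a (dg (D₁ a) i k)) w k).im = 0) →
        ¬ Q a (glue (n a + r a) (glue (n a) (fun k => z₁ a (dg (D₁ a) i k)) w) 0) = 0).trans ?_
    refine exists_congr fun x => and_congr_right fun _ => ?_
    have := (grid_real (D₁ a) (n a) (z₁ a) (glue (r a) (rext x) 0)
      fun w => Q a (glue (n a + r a) w 0) = 0).not
    simp only [not_exists, not_and] at this
    rw [this]
    simp only [glue_glue]
    simp only [glue_rext, Ne]
  have h5 := hmaj a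
  have mono : ∀ B B' : ℕ → Prop, (∀ u < Θ a, B u → B' u) → cnt (Θ a) B ≤ cnt (Θ a) B' := by
    intro B B' h
    classical
    refine card_le_card fun u => ?_
    simp only [mem_filter, mem_range]
    exact fun h' => ⟨h'.1, h u h'.1 h'.2⟩
  constructor
  · intro h
    have := mono (Good a) (fun u => c (a, u)) fun u hu hg => (key u hu hg).2 h
    omega
  · intro h
    by_contra h'
    have := mono (fun u => c (a, u)) (fun u => ¬ Good a u)
      fun u hu h1 hg => h' ((key u hu hg).1 h1)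
    have := cnt_add_not (Θ a) (Good a)
    omega

end Crest.Agent.R316
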