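import Crest.Agent.R316.Samp
import Crest.Agent.R316.Const
import Crest.Agent.R316.FD

/-! Row 316: the core theorem. -/

set_option autoImplicit false

namespace Crest.Agent.R316

open Crest.Agent.PT Finset Filter Topology

variable {α β : Type} [Rp α] [Rp β]

namespace Core

theorem closed_part {X : Type} [TopologicalSpace X] {Z : Set X} (hZ : IsClosed Z) (φ : X → Prop)
    (h : ∀ x₀ ∈ Z, ∀ᶠ x in 𝓝[Z] x₀, (φ x ↔ φ x₀)) : IsClosed (Z ∩ {x | φ x}) := by
  refine isClosed_of_closure_subset fun x₀ hx => ?_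
  have h0 : x₀ ∈ Z := hZ.closure_subset (closure_mono Set.inter_subset_left hx)
  refine ⟨h0, ?_⟩
  have h1 := h x₀ h0
  rw [eventually_nhdsWithin_iff] at h1
  obtain ⟨x, hx1, hx2⟩ := ((mem_closure_iff_frequently.1 hx).and_eventually h1).exists
  exact (hx2 hx1.1).1 hx1.2

theorem eq_re {w : ℂ} (h : w.im = 0) : w = (w.re : ℂ) := Complex.ext (by simp) (by simp [h])

/-- the real factor whose zero set is a stratum -/
noncomputable def fac (D : ℕ) (c : ℕ → ℕ → ℝ) (w : ℝ) (i j : ℕ) : ℝ :=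
  (∑ i' ∈ range D, ∑ j' ∈ range D, if i < i' ∨ (i' = i ∧ j < j') then c i' j' ^ 2 else 0) +
    (w * c i j - 1) ^ 2

theorem sum_nonneg' (D : ℕ) (c : ℕ → ℕ → ℝ) (i j i' : ℕ) :
    0 ≤ ∑ j' ∈ range D, if i < i' ∨ (i' = i ∧ j < j') then c i' j' ^ 2 else 0 :=
  Finset.sum_nonneg fun _ _ => by split_ifs <;> positivity

theorem fac_nonneg (D : ℕ) (c : ℕ → ℕ → ℝ) (w : ℝ) (i j : ℕ) : 0 ≤ fac D c w i j :=
  add_nonneg (Finset.sum_nonneg fun i' _ => sum_nonneg' D c i j i') (sq_nonneg _)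

theorem fac_eq_zero {D : ℕ} {c : ℕ → ℕ → ℝ} {w : ℝ} {i j : ℕ} : fac D c w i j = 0 ↔
    (∀ i' < D, ∀ j' < D, (i < i' ∨ (i' = i ∧ j < j')) → c i' j' = 0) ∧ w * c i j = 1 := by
  unfold fac
  rw [add_eq_zero_iff_of_nonneg (Finset.sum_nonneg fun i' _ => sum_nonneg' D c i j i')
    (sq_nonneg _), Finset.sum_eq_zero_iff_of_nonneg fun i' _ => sum_nonneg' D c i j i',
    sq_eq_zero_iff, sub_eq_zero]
  refine and_congr_left fun _ => forall_congr' fun i' => ?_
  rw [mem_range]
  refine imp_congr_right fun _ => ?_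
  rw [Finset.sum_eq_zero_iff_of_nonneg fun _ _ => by split_ifs <;> positivity]
  refine forall_congr' fun j' => ?_
  rw [mem_range]
  refine imp_congr_right fun _ => ?_
  split_ifs with h <;> simp [h]

end Core

open _root_.Crest.Agent.R316.Core Chi in
theorem core {r n : α → ℕ} {Q : α → Pt → ℂ} (hr : PU r) (hn : PU n) (hQ : PF Q) :
    CH fun a => ∃ x : Fin (r a) → ℝ, ∀ y : Fin (n a) → ℝ,
      Q a (glue (n a) (rext y) (rext x)) ≠ 0 := by
  have hH : PF fun a v => Q a v * Q a v := hQ.mul hQ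
  have hQr : ∀ a (x : Fin (r a) → ℝ) (y : Fin (n a) → ℝ),
      (Q a (glue (n a) (rext y) (rext x))).im = 0 := fun a x y =>
    hQ.real a _ (im_glue (im_rext y) (im_rext x))
  have hH0 : ∀ a (x : Fin (r a) → ℝ) (y : Fin (n a) → ℝ),
      0 ≤ (Q a (glue (n a) (rext y) (rext x)) * Q a (glue (n a) (rext y) (rext x))).re := by
    intro a x y
    rw [Complex.mul_re, hQr, mul_zero, sub_zero]
    exact mul_self_nonneg _
  have hHz : ∀ a (x : Fin (r a) → ℝ) (y : Fin (n a) → ℝ),
      (Q a (glue (n a) (rext y) (rext x)) * Q a (glue (n a) (rext y) (rext x))).re = 0 ↔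
        Q a (glue (n a) (rext y) (rext x)) = 0 := by
    intro a x y
    rw [Complex.mul_re, hQr, mul_zero, sub_zero, mul_self_eq_zero]
    exact ⟨fun h => Complex.ext h (hQr a x y), fun h => by rw [h]; rfl⟩
  obtain ⟨e, χ, hχ, hc⟩ := chi hn hH
  obtain ⟨D, C, hD, hC, hexp⟩ := hχ.expand2
  let X : α → Pt → Pt := fun a p => glue (r a) (fun k => p (k + 1)) 0
  let C' : α × ℕ × ℕ → Pt → ℂ := fun q p => C q (X q.1 p)
  have hC' : PF C' :=
    hC.glue (m := fun q => r q.1) (Y := fun q p => p (q.2.val + 1)) (W := fun _ _ => 0)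
      (by fun_prop) (PF.var (by fun_prop)) PF.zero
  let H₂ : α → Pt → ℂ := fun a p => ∏ i ∈ range (D a), ∏ j ∈ range (D a),
    ((∑ i' ∈ range (D a), ∑ j' ∈ range (D a),
      if i < i' ∨ (i' = i ∧ j < j') then C' (a, i', j') p ^ 2 else 0) +
      (p 0 * C' (a, i, j) p - 1) ^ 2)
  have hH₂ : PF H₂ := by
    have h1 : PF fun (q : (((α × ℕ) × ℕ) × ℕ) × ℕ) p =>
        if q.1.1.1.2 < q.1.2 ∨ (q.1.2 = q.1.1.1.2 ∧ q.1.1.2 < q.2)
        then C' (q.1.1.1.1, q.1.2, q.2) p ^ 2 else 0 :=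
      PF.ite (CH.pt (by fun_prop))
        ((hC'.comp (g := fun q : (((α × ℕ) × ℕ) × ℕ) × ℕ => (q.1.1.1.1, q.1.2, q.2))
          (by fun_prop)).pow (k := fun _ => 2) (by fun_prop)) PF.zero
    have h2 := (h1.sum (N := fun q => D q.1.1.1) (by fun_prop)).sum (N := fun q => D q.1.1)
      (by fun_prop)
    have h3 : PF fun (q : (α × ℕ) × ℕ) p => (p 0 * C' (q.1.1, q.1.2, q.2) p - 1) ^ 2 :=
      (((PF.var (k := fun _ => 0) (PU.const 0)).mul
        (hC'.comp (g := fun q : (α × ℕ) × ℕ => (q.1.1, q.1.2, q.2)) (by fun_prop))).sub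
        PF.one).pow (k := fun _ => 2) (by fun_prop)
    exact ((h2.add h3).prod (N := fun q => D q.1) (by fun_prop)).prod hD
  obtain ⟨M₀, z₀, hG₀, hs₀⟩ := samp (r := fun _ => 0) (n := fun a => r a + 1) gf_zero (PU.const 0)
    (by fun_prop) hH₂
  obtain ⟨M₁, z₁, hG₁, hs₁⟩ := samp hG₀ hr hn hH
  refine (fin_dec hG₀ hG₁ hr hn hQ).congr fun a => ⟨?_, ?_⟩
  · rintro ⟨x₀, hx₀⟩
    let tl : (Fin (r a + 1) → ℝ) → Fin (r a) → ℝ := fun p k => p k.succ
    have htl : Continuous tl := continuous_pi fun k => continuous_apply _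
    let c : ℕ → ℕ → (Fin (r a + 1) → ℝ) → ℂ := fun i j p => C (a, i, j) (rext (tl p))
    have hcc : ∀ i j, Continuous (c i j) := fun i j =>
      (hC.continuous (a, i, j)).comp (continuous_rext.comp htl)
    have hcr : ∀ i j p, c i j p = ((c i j p).re : ℂ) := fun i j p =>
      eq_re (hC.real _ _ (im_rext _))
    have hX : ∀ (p : Fin (r a + 1) → ℝ) (w : Pt),
        X a (glue (r a + 1) (rext p) w) = rext (tl p) := by
      intro p w
      funext k
      by_cases hk : k < r a
      · simp only [X]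
        rw [glue_lt hk, glue_lt (by omega)]
        exact (rext_val p (Fin.succ ⟨k, hk⟩)).trans (rext_val (tl p) ⟨k, hk⟩).symm
      · simp [X, glue, rext, ext, hk]
    have hH₂v : ∀ (p : Fin (r a + 1) → ℝ) (w : Pt), (H₂ a (glue (r a + 1) (rext p) w)).re =
        ∏ i ∈ range (D a), ∏ j ∈ range (D a), fac (D a) (fun i j => (c i j p).re) (p 0) i j := by
      intro p w
      have h0 : glue (r a + 1) (rext p) w 0 = (p 0 : ℂ) := by
        rw [glue_lt (by omega)]; exact rext_val p 0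
      have h1 : ∀ i j, C' (a, i, j) (glue (r a + 1) (rext p) w) = ((c i j p).re : ℂ) := by
        intro i j
        simp only [C']
        rw [hX, ← hcr]
      rw [← Complex.ofReal_re (∏ i ∈ range (D a), ∏ j ∈ range (D a), _)]
      congr 1
      simp only [H₂, h0, h1, fac]
      push_cast
      refine Finset.prod_congr rfl fun i _ => Finset.prod_congr rfl fun j _ => ?_
      congr 1
      refine Finset.sum_congr rfl fun i' _ => Finset.sum_congr rfl fun j' _ => ?_
      split_ifs <;> simp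
    let f : (Fin (r a + 1) → ℝ) → (Fin (n a) → ℝ) → ℝ := fun p y =>
      (Q a (glue (n a) (rext y) (rext (tl p))) * Q a (glue (n a) (rext y) (rext (tl p)))).re
    have hf : Continuous fun q : (Fin (r a + 1) → ℝ) × (Fin (n a) → ℝ) => f q.1 q.2 :=
      continuous_re_glue hH a (n a) (continuous_rext.comp htl)
    let Z : ℕ → ℕ → Set (Fin (r a + 1) → ℝ) := fun i j =>
      {p | fac (D a) (fun i j => (c i j p).re) (p 0) i j = 0}
    have hZ : ∀ i j, IsClosed (Z i j) := by
      intro i j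
      refine isClosed_eq ?_ continuous_const
      have hre : ∀ i j, Continuous fun p => (c i j p).re := fun i j =>
        Complex.continuous_re.comp (hcc i j)
      unfold fac
      refine Continuous.add (continuous_finsetSum _ fun i' _ =>
        continuous_finsetSum _ fun j' _ => ?_)
        ((((continuous_apply 0).mul (hre i j)).sub continuous_const).pow 2)
      split_ifs
      · exact (hre i' j').pow 2
      · exact continuous_const
    have hloc : ∀ i < D a, ∀ j < D a, ∀ p₀ ∈ Z i j,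
        ∀ᶠ p in 𝓝[Z i j] p₀, ((∃ y, f p y = 0) ↔ ∃ y, f p₀ y = 0) := by
      intro i hi j hj p₀ hp₀
      refine loc_const (hc a).1 f hf (fun p y => hH0 a _ y) c hcc (fun p κ y _ hmin => ?_) hi hj
        (Z i j) (fun p hp => ?_) hp₀
      · exact (hexp a _ _ _).symm.trans
          ((hc a).2.2 (rext (tl p)) κ y (im_rext _) (Eventually.of_forall hmin)).1
      · obtain ⟨h1, h2⟩ := fac_eq_zero.1 hp
        refine ⟨fun h => ?_, fun i' hi' j' hj' h => ?_⟩
        · rw [h] at h2
          simp at h2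
        · rw [hcr, h1 i' hi' j' hj' h, Complex.ofReal_zero]
    have hZall : ∀ φ : (Fin (r a + 1) → ℝ) → Prop, (∀ i < D a, ∀ j < D a, ∀ p₀ ∈ Z i j,
        ∀ᶠ p in 𝓝[Z i j] p₀, (φ p ↔ φ p₀)) → IsClosed {p | (∃ i < D a, ∃ j < D a, p ∈ Z i j) ∧
          φ p} := by
      intro φ hφ
      have : {p | (∃ i < D a, ∃ j < D a, p ∈ Z i j) ∧ φ p} =
          ⋃ i ∈ range (D a), ⋃ j ∈ range (D a), Z i j ∩ {p | φ p} := by
        ext p
        simp only [Set.mem_ofPred_eq, Set.mem_iUnion, mem_range, Set.mem_inter_iff, exists_prop]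
        constructor
        · rintro ⟨⟨i, hi, j, hj, h⟩, h'⟩
          exact ⟨i, hi, j, hj, h, h'⟩
        · rintro ⟨i, hi, j, hj, h, h'⟩
          exact ⟨⟨i, hi, j, hj, h⟩, h'⟩
      rw [this]
      exact isClosed_biUnion_finset fun i hi => isClosed_biUnion_finset fun j hj =>
        closed_part (hZ i j) φ (hφ i (mem_range.1 hi) j (mem_range.1 hj))
    have hzero : ∀ (p : Fin (r a + 1) → ℝ) (w : Pt), (H₂ a (glue (r a + 1) (rext p) w)).re = 0 ↔
        ∃ i < D a, ∃ j < D a, p ∈ Z i j := by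
      intro p w
      rw [hH₂v]
      simp only [Finset.prod_eq_zero_iff, mem_range, Z, Set.mem_ofPred_eq]
    obtain ⟨p, hp, hpG⟩ := hs₀ a (fun k => k.elim0) (fun k => k.elim0)
      (fun p => by
        rw [hH₂v]
        exact Finset.prod_nonneg fun i _ => Finset.prod_nonneg fun j _ => fac_nonneg _ _ _ _ _)
      {p | (∃ i < D a, ∃ j < D a, p ∈ Z i j) ∧ ¬ ∃ y, f p y = 0} (by
        obtain ⟨T, hT⟩ := ((hc a).2.1 1 (rext x₀)).exists_notMem
        have hne : ∃ i < D a, ∃ j < D a, C (a, i, j) (rext x₀) ≠ 0 := by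
          by_contra hne
          push Not at hne
          apply hT
          rw [Set.mem_ofPred_eq, hexp]
          exact Finset.sum_eq_zero fun i hi => Finset.sum_eq_zero fun j hj => by
            rw [hne i (mem_range.1 hi) j (mem_range.1 hj), zero_mul, zero_mul]
        obtain ⟨i, hi, j, hj, h1, h2⟩ := exists_lex (D a) (fun i j => C (a, i, j) (rext x₀)) hne
        let p : Fin (r a + 1) → ℝ := Fin.cons (C (a, i, j) (rext x₀)).re⁻¹ x₀
        have hp : tl p = x₀ := funext fun k => Fin.cons_succ _ _ k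
        refine ⟨p, ⟨i, hi, j, hj, fac_eq_zero.2 ⟨fun i' hi' j' hj' h => ?_, ?_⟩⟩, ?_⟩
        · simp only [c, hp]
          rw [h2 i' hi' j' hj' h]
          rfl
        · simp only [c, hp]
          refine inv_mul_cancel₀ fun h => h1 ?_
          exact Complex.ext h (hC.real _ _ (im_rext _))
        · rintro ⟨y, hy⟩
          simp only [f, hp] at hy
          exact hx₀ y ((hHz a x₀ y).1 hy))
      (fun p hp => (hzero p _).2 hp.1)
      (hZall _ fun i hi j hj p₀ hp₀ => (hloc i hi j hj p₀ hp₀).mono fun p h => not_congr h)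
      (by
        convert hZall _ hloc using 1
        ext p
        simp only [Set.mem_sdiff, Set.mem_ofPred_eq, hzero]
        exact ⟨fun h => ⟨h.1, by_contra fun h' => h.2 ⟨h.1, h'⟩⟩,
          fun h => ⟨h.1, fun h' => h'.2 h.2⟩⟩)
    exact ⟨tl p, fun k => hpG k.succ, fun y _ h => hp.2 ⟨y, (hHz a _ y).2 h⟩⟩
  · rintro ⟨x, hx, h⟩
    refine ⟨x, fun y₀ hy₀ => ?_⟩
    obtain ⟨y, hy, hyG⟩ := hs₁ a x hx (hH0 a x)
      {y | (Q a (glue (n a) (rext y) (rext x)) * Q a (glue (n a) (rext y) (rext x))).re = 0}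
      ⟨y₀, (hHz a x y₀).2 hy₀⟩ (fun _ h => h)
      (isClosed_eq ((continuous_re_glue hH a (n a) (X := Unit) (w := fun _ => rext x)
        continuous_const).comp (continuous_const (y := ()).prodMk continuous_id)) continuous_const)
      (by rw [Set.sdiff_self]; exact isClosed_empty)
    exact h y hyG ((hHz a x y).1 hy)

end Crest.Agent.R316
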