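import Crest.Agent.R290.PTx
import Crest.Prelude.Def_CountHier
import Crest.Prelude.Def_RealEA

/-!
# Row 316 (S0488): the existential-universal theory of the reals is in the counting hierarchy

Layers. `CH`: predicates of the counting hierarchy. `FN`: functions with polynomially many output
bits and graph in `CH`. `ZC`, `QC`: integers and rationals with exponentially many bits, given by
residues modulo primes. `PF`: families of polynomial functions of exponential degree in polynomially
many variables whose values at integer points are in `QC`. `Fam`: finite families of points along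
which sums of `PF` functions are `PF`. `GF`: finite multisets of complex numbers with power sums in
`QC`. `IND`: predicates whose indicator is approximated by `PF` functions on a promise set.
All classes are closed under sums and products over `u < N a` with `N` given in binary.
-/

set_option autoImplicit false

namespace Crest.Agent.R316

open Crest.Agent.PT Finset

open Classical in
/-- number of `u < N` with `B u` -/
noncomputable def cnt (N : ℕ) (B : ℕ → Prop) : ℕ := ((range N).filter B).card

/-- levels of the counting hierarchy on represented types -/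
def Lv : ℕ → (α : Type) → [Rp α] → (α → Prop) → Prop
  | 0, _, _, P => PTime P
  | j + 1, α, _, P => ∃ (m : α → ℕ) (B : α × ℕ → Prop), PU m ∧ Lv j (α × ℕ) B ∧
      ∀ a, P a ↔ 2 ^ m a < 2 * cnt (2 ^ m a) fun u => B (a, u)

section
variable {α : Type} [Rp α]

def CH (P : α → Prop) : Prop := ∃ j, Lv j α P

def FN (f : α → ℕ) : Prop :=
  (∃ N : α → ℕ, PTime N ∧ ∀ a, f a < N a) ∧ CH fun p : α × ℕ => f p.1 = p.2

def ZC (X : α → ℤ) : Prop :=
  ∃ (b th : α → ℕ) (R : α × ℕ → ℕ), PTime b ∧ PTime th ∧ FN R ∧ (∀ a, |X a| ≤ 2 ^ b a) ∧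
    ∀ a p, p.Prime → th a ≤ p → (R (a, p) : ℤ) ≡ X a [ZMOD p]

def QC (X : α → ℚ) : Prop :=
  ∃ N D : α → ℤ, ZC N ∧ ZC D ∧ ∀ a, D a ≠ 0 ∧ X a = N a / D a

end

/-- points -/
abbrev Pt := ℕ → ℂ

/-- digit `i` of `u` in base `B` -/
def dg (B u i : ℕ) : ℕ := u / B ^ i % B

/-- the integer point with the digits of `u` as coordinates -/
def dig (B u : ℕ) : Pt := fun i => (dg B u i : ℂ)

/-- the first `m` coordinates of `y`, followed by `v` -/
def glue (m : ℕ) (y v : Pt) : Pt := fun i => if i < m then y i else v (i - m)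

/-- `t`, followed by `v` -/
def cons (t : ℂ) (v : Pt) : Pt := glue 1 (fun _ => t) v

/-- extension by zero -/
def ext {n : ℕ} (y : Fin n → ℂ) : Pt := fun i => if h : i < n then y ⟨i, h⟩ else 0

/-- extension by zero of a real tuple -/
def rext {n : ℕ} (y : Fin n → ℝ) : Pt := ext fun k => (y k : ℂ)

/-- integer coefficients of the numerator of a Lagrange basis polynomial on the nodes `0, …, D` -/
noncomputable def lcZ (D j k : ℕ) : ℤ :=
  (∏ i ∈ (range (D + 1)).erase j, (Polynomial.X - Polynomial.C (i : ℤ))).coeff k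

/-- coefficients of the Lagrange basis polynomial -/
noncomputable def lagc (D j k : ℕ) : ℚ :=
  lcZ D j k / ∏ i ∈ (range (D + 1)).erase j, ((j : ℚ) - i)

/-- the Lagrange basis polynomial on the nodes `0, …, D` -/
noncomputable def lag (D j : ℕ) (t : ℂ) : ℂ :=
  ∏ i ∈ (range (D + 1)).erase j, (t - i) / ((j : ℂ) - i)

/-- `f` depends on the first `n` coordinates only, and is a polynomial of degree at most `D` in each
coordinate -/
def IsP (n D : ℕ) (f : Pt → ℂ) : Prop :=
  (∀ v v' : Pt, (∀ i < n, v i = v' i) → f v = f v') ∧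
    ∀ i v, ∃ p : Polynomial ℂ, p.natDegree ≤ D ∧ ∀ t, f (Function.update v i t) = p.eval t

section
variable {α : Type} [Rp α]

def PF (F : α → Pt → ℂ) : Prop :=
  (∃ n D : α → ℕ, PU n ∧ PTime D ∧ ∀ a, IsP (n a) (D a) (F a)) ∧
    ∃ X : α × ℕ × ℕ → ℚ, QC X ∧ ∀ a B u, (X (a, B, u) : ℂ) = F a (dig B u)

/-- `ξ a w i`, `i < M a`, are points with `n a` relevant coordinates depending on parameters `w` -/
def Fam (n M : α → ℕ) (ξ : α → Pt → ℕ → Pt) : Prop :=
  PU n ∧ PTime M ∧ ∀ (β : Type) [Rp β] (g : β → α) (G : β × Un → Pt → ℂ) (F : β → Pt → ℂ),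
    PTime g → PF G → PF F → PF fun b v => ∑ i ∈ range (M (g b)),
      F b (glue (n (g b)) (ξ (g b) (fun j => G (b, ⟨j⟩) v) i) v)

/-- the numbers `z a i`, `i < D a`, have power sums in `QC` -/
def GF (D : α → ℕ) (z : α → ℕ → ℂ) : Prop :=
  PTime D ∧ ∃ X : α × ℕ → ℚ, QC X ∧ ∀ a k, (X (a, k) : ℂ) = ∑ i ∈ range (D a), z a i ^ k

open Classical in
/-- on the promise set `S` the indicator of `P` is approximated to any exponential precision -/
def IND (S P : α → Pt → Prop) : Prop :=
  ∃ F : α × ℕ → Pt → ℂ, PF F ∧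
    ∀ a K v, S a v → ‖F (a, K) v - (if P a v then 1 else 0)‖ ≤ 1 / 2 ^ K

end

/-- `t` is one of the numbers `z i`, `i < D` -/
def InG (D : ℕ) (z : ℕ → ℂ) (t : ℂ) : Prop := ∃ i < D, t = z i

/-- the first `m` coordinates of `v` are among the numbers `z i`, `i < D` -/
def OnG (D : ℕ) (z : ℕ → ℂ) (m : ℕ) (v : Pt) : Prop := ∀ k < m, InG D z (v k)

/-- the penalty -/
def Gp {n : ℕ} (e : ℕ) (y : Fin n → ℝ) : ℝ := ∑ k, y k ^ (2 * e)

/-- the Jacobian of the system `X k ^ d = g k` -/
noncomputable def jac {n : ℕ} (d : ℕ) (g : Fin n → MvPolynomial (Fin n) ℂ) :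
    MvPolynomial (Fin n) ℂ :=
  Matrix.det (Matrix.of fun k l => MvPolynomial.pderiv l (MvPolynomial.X k ^ d - g k))

/-- the truncated global residue of the system `X k ^ d = g k` -/
noncomputable def res {n : ℕ} (d : ℕ) (g : Fin n → MvPolynomial (Fin n) ℂ) (K : ℕ)
    (u : MvPolynomial (Fin n) ℂ) : ℂ :=
  ∑ κ : Fin n → Fin (K + 1),
    MvPolynomial.coeff (Finsupp.equivFunOnFinite.symm fun k => ((κ k).val + 1) * d - 1)
      (u * ∏ k, g k ^ (κ k).val)

@[simp] theorem cons_zero (t : ℂ) (v : Pt) : cons t v 0 = t := rfl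
@[simp] theorem cons_succ (t : ℂ) (v : Pt) (i : ℕ) : cons t v (i + 1) = v i := by
  simp [cons, glue]
theorem glue_lt {m i : ℕ} (h : i < m) (y v : Pt) : glue m y v i = y i := if_pos h
theorem glue_add (m i : ℕ) (y v : Pt) : glue m y v (i + m) = v i := by simp [glue]
theorem glue_congr {m : ℕ} {y y' : Pt} (h : ∀ i < m, y i = y' i) (v : Pt) :
    glue m y v = glue m y' v := by
  funext i
  unfold glue
  split_ifs with hi
  · exact h i hi
  · rfl
theorem glue_ext (m : ℕ) (y v : Pt) : glue m (ext fun k : Fin m => y k) v = glue m y v :=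
  glue_congr (fun i hi => by simp [ext, hi]) v
theorem ext_val {n : ℕ} (y : Fin n → ℂ) (k : Fin n) : ext y k = y k := by simp [ext]
theorem rext_val {n : ℕ} (y : Fin n → ℝ) (k : Fin n) : rext y k = y k := ext_val _ k

end Crest.Agent.R316
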