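import Crest.Agent.R316.CH

/-! Row 316: functions with short values and graph in the counting hierarchy. -/

set_option autoImplicit false

namespace Crest.Agent.R316

open Crest.Agent.PT Finset

variable {α β : Type} [Rp α] [Rp β]

theorem FN.pt {f : α → ℕ} (h : PTime f) : FN f := by
  exact ⟨⟨fun a => f a + 1, by fun_prop, fun a => Nat.lt_succ_self _⟩,
    CH.pt ((h.comp PTime.fst').eq PTime.snd')⟩

theorem FN.congr {f g : α → ℕ} (h : FN f) (e : ∀ a, g a = f a) : FN g := by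
  obtain rfl : g = f := funext e
  exact h

theorem FN.comp {f : β → ℕ} {g : α → β} (h : FN f) (hg : PTime g) : FN fun a => f (g a) := by
  obtain ⟨⟨N, hN, h1⟩, h2⟩ := h
  exact ⟨⟨fun a => N (g a), hN.comp hg, fun a => h1 _⟩,
    h2.comp (f := fun p : α × ℕ => (g p.1, p.2)) ((hg.comp PTime.fst').pair PTime.snd')⟩

theorem CH.subst {P : α × ℕ → Prop} {f : α → ℕ} (h : CH P) (hf : FN f) :
    CH fun a => P (a, f a) := by
  obtain ⟨⟨N, hN, h1⟩, h2⟩ := hf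
  refine ((h2.and h).ex hN).congr fun a => ⟨fun h => ⟨f a, h1 a, rfl, h⟩, ?_⟩
  rintro ⟨u, -, e, h⟩
  exact (show f a = u from e) ▸ h

theorem FN.subst {g : α × ℕ → ℕ} {f : α → ℕ} (h : FN g) (hf : FN f) : FN fun a => g (a, f a) := by
  obtain ⟨⟨M, hM, h1⟩, h2⟩ := h
  obtain ⟨N, hN, h3⟩ := hf.1
  obtain ⟨G, hG, h4⟩ := pt_bdd hM hN
  exact ⟨⟨G, hG, fun a => (h1 _).trans_le (h4 a _ (h3 a).le)⟩,
    CH.subst (P := fun q : (α × ℕ) × ℕ => g (q.1.1, q.2) = q.1.2)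
      (h2.comp (f := fun q : (α × ℕ) × ℕ => ((q.1.1, q.2), q.1.2)) (by fun_prop))
      (hf.comp PTime.fst')⟩

theorem FN.map {g : α × ℕ → ℕ} {f : α → ℕ} (h : PTime g) (hf : FN f) : FN fun a => g (a, f a) :=
  (FN.pt h).subst hf

theorem FN.map₂ {g : α × ℕ × ℕ → ℕ} {f f' : α → ℕ} (h : PTime g) (hf : FN f) (hf' : FN f') :
    FN fun a => g (a, f a, f' a) := by
  exact FN.subst (g := fun q : α × ℕ => g (q.1, q.2, f' q.1))
    (FN.map (g := fun r : (α × ℕ) × ℕ => g (r.1.1, r.1.2, r.2))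
      (h.comp (f := fun r : (α × ℕ) × ℕ => (r.1.1, r.1.2, r.2)) (by fun_prop))
      (hf'.comp PTime.fst')) hf

theorem CH.subst₂ {P : α × ℕ × ℕ → Prop} {f f' : α → ℕ} (h : CH P) (hf : FN f) (hf' : FN f') :
    CH fun a => P (a, f a, f' a) := by
  exact CH.subst (P := fun q : α × ℕ => P (q.1, q.2, f' q.1))
    (CH.subst (P := fun r : (α × ℕ) × ℕ => P (r.1.1, r.1.2, r.2))
      (h.comp (f := fun r : (α × ℕ) × ℕ => (r.1.1, r.1.2, r.2)) (by fun_prop))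
      (hf'.comp PTime.fst')) hf

theorem FN.count {B : α × ℕ → Prop} {N : α → ℕ} (h : CH B) (hN : PTime N) :
    FN fun a => cnt (N a) fun u => B (a, u) := by
  have h' : CH fun q : (α × ℕ) × ℕ => B (q.1.1, q.2) :=
    h.comp (f := fun q : (α × ℕ) × ℕ => (q.1.1, q.2)) (by fun_prop)
  have hN' : PTime fun p : α × ℕ => N p.1 := hN.comp PTime.fst'
  refine ⟨⟨fun a => N a + 1, by fun_prop, fun a => Nat.lt_succ_of_le (cnt_le _ _)⟩,
    ((h'.count hN' PTime.snd').and (h'.count (t := fun p => p.2 + 1) hN' (by fun_prop)).not).congr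
      fun p => ?_⟩
  simp only
  omega

theorem FN.sum {f : α × ℕ → ℕ} {N : α → ℕ} (h : FN f) (hN : PTime N) :
    FN fun a => ∑ u ∈ range (N a), f (a, u) := by
  obtain ⟨M, hM, h1⟩ := h.1
  obtain ⟨G, hG, h2⟩ := pt_bdd hM hN
  have hG' : PTime fun p : α × ℕ => G p.1 := hG.comp PTime.fst'
  have hG'' : PTime fun p : (α × ℕ) × ℕ => G p.1.1 := hG'.comp PTime.fst'
  have h3 : CH fun p : α × ℕ => p.2 % G p.1 < f (p.1, p.2 / G p.1) :=
    CH.subst (P := fun q : (α × ℕ) × ℕ => q.1.2 % G q.1.1 < q.2)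
      (CH.pt ((PTime.fst'.snd.mod hG'').lt PTime.snd'))
      (h.comp (g := fun p : α × ℕ => (p.1, p.2 / G p.1)) (PTime.fst'.pair (PTime.snd'.div hG')))
  refine (FN.count h3 (hN.mul hG)).congr fun a => ?_
  rw [cnt_mul (N a) (G a) fun u c => c < f (a, u)]
  refine sum_congr rfl fun u hu => ?_
  rw [cnt_lt, min_eq_right ((h1 _).le.trans (h2 a u (mem_range.1 hu).le))]

theorem FN.ite {c : α → Prop} [∀ a, Decidable (c a)] {f g : α → ℕ} (hc : CH c) (hf : FN f)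
    (hg : FN g) : FN fun a => if c a then f a else g a := by
  obtain ⟨⟨M, hM, h1⟩, h2⟩ := hf
  obtain ⟨⟨N, hN, h3⟩, h4⟩ := hg
  have hc' : CH fun p : α × ℕ => c p.1 := hc.comp PTime.fst'
  refine ⟨⟨fun a => M a + N a, hM.add hN, fun a => ?_⟩,
    ((hc'.and h2).or (hc'.not.and h4)).congr fun p => ?_⟩
  · have := h1 a; have := h3 a
    simp only
    split_ifs <;> omega
  · by_cases h : c p.1 <;> simp [h]

/-- the least `u < N a` with `B (a, u)`, or `N a` -/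
theorem FN.find {B : α × ℕ → Prop} {N : α → ℕ} (h : CH B) (hN : PTime N) :
    ∃ f : α → ℕ, FN f ∧ ∀ a, f a ≤ N a ∧ (∀ u < f a, ¬ B (a, u)) ∧ (f a < N a → B (a, f a)) := by
  classical
  have h1 : CH fun p : α × ℕ => ∀ u < p.2 + 1, ¬ B (p.1, u) :=
    CH.all (B := fun q : (α × ℕ) × ℕ => ¬ B (q.1.1, q.2))
      (h.comp (f := fun q : (α × ℕ) × ℕ => (q.1.1, q.2)) (by fun_prop)).not (by fun_prop)
  refine ⟨_, FN.count h1 hN, fun a => ?_⟩
  have hex : ∃ m, m = N a ∨ B (a, m) := ⟨_, Or.inl rfl⟩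
  have h2 : Nat.find hex ≤ N a := Nat.find_min' hex (Or.inl rfl)
  have h3 : (cnt (N a) fun u => ∀ u' < u + 1, ¬ B (a, u')) = Nat.find hex := by
    rw [← min_eq_right h2, ← cnt_lt]
    refine cnt_congr fun u hu => ?_
    rw [Nat.lt_find_iff]
    exact ⟨fun h m hm h' => h'.elim (by omega) (h m (by omega)),
      fun h m hm h' => h m (by omega) (Or.inr h')⟩
  simp only [h3]
  exact ⟨h2, fun u hu h' => Nat.find_min hex hu (Or.inr h'),
    fun h' => (Nat.find_spec hex).resolve_left h'.ne⟩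

/-- the largest `u < N a` with `B (a, u)`, if there is one -/
theorem FN.findMax {B : α × ℕ → Prop} {N : α → ℕ} (h : CH B) (hN : PTime N) :
    ∃ f : α → ℕ, FN f ∧ ∀ a, (∃ u < N a, B (a, u)) →
      f a < N a ∧ B (a, f a) ∧ ∀ u, f a < u → u < N a → ¬ B (a, u) := by
  classical
  have h1 : CH fun p : α × ℕ => ∀ u < N p.1, p.2 < u → ¬ B (p.1, u) :=
    CH.all (B := fun q : (α × ℕ) × ℕ => q.1.2 < q.2 → ¬ B (q.1.1, q.2))
      ((CH.pt (by fun_prop)).imp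
        (h.comp (f := fun q : (α × ℕ) × ℕ => (q.1.1, q.2)) (by fun_prop)).not) (hN.comp PTime.fst')
  obtain ⟨f, hf, h2⟩ := FN.find (h.and h1) hN
  refine ⟨f, hf, fun a ⟨u, hu, hB⟩ => ?_⟩
  obtain ⟨h3, h4, h5⟩ := h2 a
  obtain ⟨m, hm, hm'⟩ := exists_max_image ((range (N a)).filter fun u => B (a, u)) id
    ⟨u, by simp [hu, hB]⟩
  simp only [mem_filter, mem_range, id] at hm hm'
  have h6 : f a < N a := by
    by_contra hc
    exact h4 m (by omega) ⟨hm.2, fun v hv hv' hb => by have := hm' v ⟨hv, hb⟩; simp only at hv'; omega⟩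
  exact ⟨h6, (h5 h6).1, fun v hv hv' => (h5 h6).2 v hv' hv⟩

theorem CH.prime {p : α → ℕ} (hp : PTime p) : CH fun a => (p a).Prime := by
  have hp' : PTime fun q : α × ℕ => p q.1 := hp.comp PTime.fst'
  refine ((CH.pt ((PTime.const 2).le hp)).and (CH.all (B := fun q : α × ℕ => 2 ≤ q.2 → p q.1 % q.2 ≠ 0)
    (CH.pt (((PTime.const 2).le PTime.snd').imp ((hp'.mod PTime.snd').ne (PTime.const 0)))) hp)).congr
    fun a => ?_
  rw [Nat.prime_def_lt']
  refine and_congr_right fun _ => forall_congr' fun m => ?_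
  rw [Nat.dvd_iff_mod_eq_zero]
  tauto

theorem FN.exists_gen {p : ℕ} (hp : p.Prime) :
    ∃ g < p, ∀ x < p, x ≠ 0 → ∃ e < p, g ^ e % p = x := by
  have := Fact.mk hp
  obtain ⟨g, hg⟩ := IsCyclic.exists_monoid_generator (α := (ZMod p)ˣ)
  refine ⟨(g : ZMod p).val, ZMod.val_lt _, fun x hx h0 => ?_⟩
  have h1 : (x : ZMod p) ≠ 0 := fun h =>
    h0 (Nat.eq_zero_of_dvd_of_lt ((ZMod.natCast_eq_zero_iff x p).1 h) hx)
  obtain ⟨n, hn⟩ := hg (Units.mk0 _ h1)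
  have h2 : orderOf g ≤ p - 1 := orderOf_le_card_univ.trans (ZMod.card_units p).le
  have h3 := Nat.mod_lt n (orderOf_pos g)
  refine ⟨n % orderOf g, by omega, ?_⟩
  rw [← Nat.mod_eq_of_lt hx, ← ZMod.natCast_eq_natCast_iff', Nat.cast_pow,
    ZMod.natCast_zmod_val, ← Units.val_pow_eq_pow_val, pow_mod_orderOf]
  exact congrArg Units.val hn

/-- exponentially long products modulo a prime, by discrete logarithms -/
theorem FN.prodMod {f : α × ℕ → ℕ} {N p : α → ℕ} (h : FN f) (hN : PTime N) (hp : PTime p) :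
    ∃ g : α → ℕ, FN g ∧ ∀ a, (p a).Prime → g a = (∏ u ∈ range (N a), f (a, u)) % p a := by
  classical
  have pm : PTime fun r : ℕ × ℕ × ℕ => if r.2.2 = 0 then 0 else r.1 ^ r.2.1 % r.2.2 :=
    pt_powMod (by fun_prop) (by fun_prop) (by fun_prop)
  have p1 : PTime fun q : α × ℕ => p q.1 := hp.comp PTime.fst'
  have p2 : PTime fun q : (α × ℕ) × ℕ => p q.1.1 := p1.comp PTime.fst'
  have p3 : PTime fun q : ((α × ℕ) × ℕ) × ℕ => p q.1.1.1 := p2.comp PTime.fst'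
  have h1 : CH fun q : (α × ℕ) × ℕ =>
      ∃ e < p q.1.1, (if p q.1.1 = 0 then 0 else q.1.2 ^ e % p q.1.1) = q.2 :=
    CH.ex (B := fun r : ((α × ℕ) × ℕ) × ℕ =>
      (if p r.1.1.1 = 0 then 0 else r.1.1.2 ^ r.2 % p r.1.1.1) = r.1.2)
      (CH.pt ((pt_powMod (by fun_prop) (by fun_prop) p3).eq (by fun_prop))) p2
  have h2 : CH fun q : α × ℕ => ∀ x < p q.1, x ≠ 0 →
      ∃ e < p q.1, (if p q.1 = 0 then 0 else q.2 ^ e % p q.1) = x :=
    CH.all (B := fun q : (α × ℕ) × ℕ => q.2 ≠ 0 →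
      ∃ e < p q.1.1, (if p q.1.1 = 0 then 0 else q.1.2 ^ e % p q.1.1) = q.2)
      ((CH.pt (by fun_prop)).imp h1) p1
  obtain ⟨g, hg, g1⟩ := FN.find h2 hp
  have p4 : PTime fun r : ((α × ℕ) × ℕ) × ℕ × ℕ => p r.1.1.1 := p2.comp PTime.fst'
  have h3 : CH fun q : (α × ℕ) × ℕ =>
      (if p q.1.1 = 0 then 0 else g q.1.1 ^ q.2 % p q.1.1) = f q.1 % p q.1.1 :=
    CH.subst₂ (P := fun r : ((α × ℕ) × ℕ) × ℕ × ℕ =>
      (if p r.1.1.1 = 0 then 0 else r.2.1 ^ r.1.2 % p r.1.1.1) = r.2.2 % p r.1.1.1)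
      (CH.pt ((pt_powMod (by fun_prop) (by fun_prop) p4).eq (PTime.snd'.snd.mod p4)))
      (hg.comp PTime.fst'.fst) (h.comp PTime.fst')
  obtain ⟨l, hl, l1⟩ := FN.find h3 p1
  have p5 : PTime fun r : α × ℕ × ℕ => p r.1 := hp.comp PTime.fst'
  have h4 := FN.map₂ (g := fun r : α × ℕ × ℕ => if p r.1 = 0 then 0 else r.2.1 ^ r.2.2 % p r.1)
    (pt_powMod (by fun_prop) (by fun_prop) p5) hg (hl.sum hN)
  have h5 : CH fun a => ∃ u < N a, f (a, u) % p a = 0 :=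
    CH.ex (B := fun q : α × ℕ => f q % p q.1 = 0)
      (CH.subst (P := fun r : (α × ℕ) × ℕ => r.2 % p r.1.1 = 0)
        (CH.pt ((PTime.snd'.mod p2).eq (PTime.const 0))) h) hN
  refine ⟨_, FN.ite h5 (FN.pt (PTime.const 0)) h4, fun a ha => ?_⟩
  have h0 : p a ≠ 0 := ha.ne_zero
  simp only [if_neg h0]
  split_ifs with hz
  · obtain ⟨u, hu, hz⟩ := hz
    exact (Nat.mod_eq_zero_of_dvd ((Nat.dvd_of_mod_eq_zero hz).trans
      (dvd_prod_of_mem (fun u => f (a, u)) (mem_range.2 hu)))).symm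
  · push Not at hz
    obtain ⟨g0, hg0, hg1⟩ := FN.exists_gen ha
    obtain ⟨-, g2, g3⟩ := g1 a
    simp only [if_neg h0] at g2 g3
    have g4 := g3 (by by_contra hc; exact g2 g0 (by omega) hg1)
    rw [← prod_pow_eq_pow_sum, prod_nat_mod, prod_nat_mod (f := fun u => f (a, u))]
    congr 1
    refine prod_congr rfl fun u hu => ?_
    obtain ⟨e, he, he'⟩ := g4 _ (Nat.mod_lt (f (a, u)) ha.pos) (hz u (mem_range.1 hu))
    obtain ⟨-, l2, l3⟩ := l1 (a, u)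
    simp only [if_neg h0] at l2 l3
    exact l3 (by by_contra hc; exact l2 e (by omega) he')

end Crest.Agent.R316
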