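import Crest.Agent.R316.PFX

/-! Row 316: approximate indicators. -/

set_option autoImplicit false

namespace Crest.Agent.R316

open Crest.Agent.PT Finset

namespace Ind

theorem prod_close {f g : ℕ → ℂ} {B ε : ℝ} (hB : 1 ≤ B) (hε : 0 ≤ ε) (N : ℕ)
    (hf : ∀ u < N, ‖f u‖ ≤ B) (hg : ∀ u < N, ‖g u‖ ≤ B) (h : ∀ u < N, ‖f u - g u‖ ≤ ε) :
    ‖∏ u ∈ range N, f u - ∏ u ∈ range N, g u‖ ≤ N * B ^ N * ε := by
  induction N with
  | zero => simp
  | succ N ih =>
    have ih := ih (fun u hu => hf u (by omega)) (fun u hu => hg u (by omega))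
      fun u hu => h u (by omega)
    have h1 : ‖∏ u ∈ range N, g u‖ ≤ B ^ N := by
      rw [norm_prod]
      calc ∏ u ∈ range N, ‖g u‖ ≤ ∏ _u ∈ range N, B :=
            Finset.prod_le_prod (fun _ _ => norm_nonneg _) fun u hu =>
              hg u (by have := Finset.mem_range.1 hu; omega)
        _ = B ^ N := by simp
    have e : ∏ u ∈ range (N + 1), f u - ∏ u ∈ range (N + 1), g u =
        (∏ u ∈ range N, f u - ∏ u ∈ range N, g u) * f N + (∏ u ∈ range N, g u) * (f N - g N) := by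
      rw [prod_range_succ, prod_range_succ]; ring
    have h0 : 0 ≤ B ^ N := by positivity
    have h2 := mul_le_mul ih (hf N (by omega)) (norm_nonneg _) (by positivity)
    have h3 := mul_le_mul h1 (h N (by omega)) (norm_nonneg _) h0
    have h4 : B ^ N * ε ≤ B ^ N * B * ε :=
      mul_le_mul_of_nonneg_right (le_mul_of_one_le_right h0 hB) hε
    rw [e]
    refine (norm_add_le _ _).trans ?_
    rw [norm_mul, norm_mul, pow_succ]
    push_cast
    linarith

theorem eps_le_one (K : ℕ) : (1 : ℝ) / 2 ^ K ≤ 1 := by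
  rw [div_le_one (by positivity)]; exact one_le_pow₀ one_le_two

theorem norm_ind_le (p : Prop) [Decidable p] : ‖(if p then 1 else 0 : ℂ)‖ ≤ 1 := by
  split_ifs <;> simp

theorem norm_le_two {z : ℂ} {p : Prop} [Decidable p] {K : ℕ}
    (h : ‖z - (if p then 1 else 0)‖ ≤ 1 / 2 ^ K) : ‖z‖ ≤ 2 := by
  have h1 := norm_add_le (z - (if p then 1 else 0)) (if p then 1 else 0)
  rw [sub_add_cancel] at h1
  linarith [norm_ind_le p, eps_le_one K]

theorem absorb {x : ℝ} {E : ℕ} (K : ℕ) (h : x ≤ 2 ^ E) : x * (1 / 2 ^ (K + E)) ≤ 1 / 2 ^ K := by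
  have : (2 : ℝ) ^ E * (1 / 2 ^ (K + E)) = 1 / 2 ^ K := by rw [pow_add]; field_simp
  rw [← this]
  exact mul_le_mul_of_nonneg_right h (by positivity)

theorem prod_int {M p q : ℕ} [Decidable (p = q)] (hp : p ≤ M) (hq : q ≤ M) :
    ∏ j ∈ range M, (1 - ((p : ℂ) - q) * ((p : ℂ) - q) * ((((j + 1) * (j + 1) : ℕ) : ℚ)⁻¹ : ℚ)) =
      if p = q then 1 else 0 := by
  split_ifs with h
  · simp [h]
  · obtain ⟨j, hj, e⟩ : ∃ j < M, ((p : ℂ) - q) * ((p : ℂ) - q) = ((j : ℂ) + 1) * (j + 1) := by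
      rcases Nat.lt_or_gt_of_ne h with h | h
      · obtain ⟨j, rfl⟩ := Nat.exists_eq_add_of_lt h
        exact ⟨j, by omega, by push_cast; ring⟩
      · obtain ⟨j, rfl⟩ := Nat.exists_eq_add_of_lt h
        exact ⟨j, by omega, by push_cast; ring⟩
    refine Finset.prod_eq_zero (Finset.mem_range.2 hj) ?_
    have : (j : ℂ) + 1 ≠ 0 := by exact_mod_cast Nat.succ_ne_zero j
    rw [e]
    push_cast
    field_simp
    ring

theorem zero_test {M p q K : ℕ} [Decidable (p = q)] (hp : p ≤ M) (hq : q ≤ M) {Δ : ℂ}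
    (h : ‖Δ - ((p : ℂ) - q)‖ ≤ 2 * M * (1 / 2 ^ (K + (M + 2) * (2 * M + 5)))) :
    ‖∏ j ∈ range M, (1 - Δ * Δ * ((((j + 1) * (j + 1) : ℕ) : ℚ)⁻¹ : ℚ)) -
      (if p = q then 1 else 0)‖ ≤ 1 / 2 ^ K := by
  rw [← prod_int hp hq]
  set c : ℂ := (p : ℂ) - q with hc
  set ε : ℝ := 1 / 2 ^ (K + (M + 2) * (2 * M + 5)) with hε
  have hε0 : 0 ≤ ε := by positivity
  set t : ℝ := 2 ^ (M + 2) with ht
  have ht1 : (M : ℝ) + 2 ≤ t := by
    have : M + 2 ≤ 2 ^ (M + 2) := Nat.lt_two_pow_self.le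
    rw [ht]; exact_mod_cast this
  have hM : (0 : ℝ) ≤ M := Nat.cast_nonneg M
  have ht0 : 1 ≤ t := by linarith
  have hE : t ^ (2 * M + 5) = 2 ^ ((M + 2) * (2 * M + 5)) := by rw [ht, ← pow_mul]
  have hcM : ‖c‖ ≤ M := by
    have : c = (((p : ℝ) - q : ℝ) : ℂ) := by rw [hc]; push_cast; rfl
    have h1 : (p : ℝ) ≤ M := by exact_mod_cast hp
    have h2 : (q : ℝ) ≤ M := by exact_mod_cast hq
    rw [this, Complex.norm_real, Real.norm_eq_abs, abs_le]
    constructor <;> linarith [Nat.cast_nonneg (α := ℝ) p, Nat.cast_nonneg (α := ℝ) q]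
  have h2M : 2 * (M : ℝ) + 1 ≤ t ^ 2 := by nlinarith
  have hη : ‖Δ - c‖ ≤ t ^ 2 * ε := h.trans (mul_le_mul_of_nonneg_right (by linarith) hε0)
  have hη1 : ‖Δ - c‖ ≤ 1 := hη.trans <| (absorb K (E := (M + 2) * (2 * M + 5))
    (by rw [← hE]; exact pow_le_pow_right₀ ht0 (by omega))).trans (eps_le_one K)
  have hΔ : ‖Δ‖ ≤ M + 1 := by
    have := norm_add_le (Δ - c) c
    rw [sub_add_cancel] at this
    linarith
  have hw : ∀ j : ℕ, ‖((((((j + 1) * (j + 1) : ℕ) : ℚ)⁻¹ : ℚ)) : ℂ)‖ ≤ 1 := by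
    intro j
    rw [Rat.cast_inv, Rat.cast_natCast, norm_inv, Complex.norm_natCast]
    exact inv_le_one_of_one_le₀ (by exact_mod_cast Nat.mul_pos j.succ_pos j.succ_pos)
  have hb : ∀ z : ℂ, ‖z‖ ≤ M + 1 → ∀ j : ℕ,
      ‖1 - z * z * ((((j + 1) * (j + 1) : ℕ) : ℚ)⁻¹ : ℚ)‖ ≤ t ^ 2 := by
    intro z hz j
    refine (norm_sub_le _ _).trans ?_
    rw [norm_mul, norm_mul, norm_one]
    have h1 := mul_le_mul hz hz (norm_nonneg _) (by linarith)
    have h2 := mul_le_mul h1 (hw j) (norm_nonneg _) (by positivity)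
    nlinarith
  refine (prod_close (B := t ^ 2) (ε := t ^ 2 * (t ^ 2 * ε)) (one_le_pow₀ ht0) (by positivity) M
    (fun j _ => hb Δ hΔ j) (fun j _ => hb c (by linarith) j) fun j _ => ?_).trans ?_
  · have e : ∀ w : ℂ, 1 - Δ * Δ * w - (1 - c * c * w) = -(w * ((Δ + c) * (Δ - c))) := by
      intro w; ring
    rw [e, norm_neg, norm_mul, norm_mul]
    have h1 : ‖Δ + c‖ ≤ t ^ 2 := (norm_add_le _ _).trans (by linarith)
    have h2 := mul_le_mul h1 hη (norm_nonneg _) (by positivity)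
    exact (mul_le_of_le_one_left (by positivity) (hw j)).trans h2
  · have e : (M : ℝ) * (t ^ 2) ^ M * (t ^ 2 * (t ^ 2 * ε)) = (M * t ^ (2 * M + 4)) * ε := by ring
    rw [e]
    refine absorb K ?_
    rw [← hE, pow_succ' t (2 * M + 4)]
    exact mul_le_mul_of_nonneg_right (by linarith) (by positivity)

end Ind

open Ind

variable {α β : Type} [Rp α] [Rp β]

theorem IND.mono {S P S' P' : α → Pt → Prop} (h : IND S P) (hS : ∀ a v, S' a v → S a v)
    (hP : ∀ a v, S' a v → (P' a v ↔ P a v)) : IND S' P' := by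
  obtain ⟨F, hF, h⟩ := h
  refine ⟨F, hF, fun a K v hv => ?_⟩
  rw [propext (hP a v hv)]
  exact h a K v (hS a v hv)

theorem IND.comp {S P : β → Pt → Prop} {g : α → β} (h : IND S P) (hg : PTime g) :
    IND (fun a => S (g a)) fun a => P (g a) := by
  obtain ⟨F, hF, h⟩ := h
  exact ⟨_, hF.comp (g := fun p : α × ℕ => (g p.1, p.2)) (by fun_prop),
    fun a K v hv => h (g a) K v hv⟩

theorem IND.bind {S P : α → Pt → Prop} {G : α × Un → Pt → ℂ} (h : IND S P) (hG : PF G) :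
    IND (fun a v => S a fun j => G (a, ⟨j⟩) v) fun a v => P a fun j => G (a, ⟨j⟩) v := by
  obtain ⟨F, hF, h⟩ := h
  exact ⟨_, hF.bind (hG.comp (g := fun p : (α × ℕ) × Un => (p.1.1, p.2)) (by fun_prop)),
    fun a K v hv => h a K _ hv⟩

theorem IND.ch {c : α → Prop} (S : α → Pt → Prop) (h : CH c) : IND S fun a _ => c a := by
  classical
  refine ⟨_, PF.ite (h.comp (f := fun p : α × ℕ => p.1) (by fun_prop)) PF.one PF.zero,
    fun a K v _ => ?_⟩
  dsimp only
  rw [sub_self, norm_zero]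
  positivity

theorem IND.not {S P : α → Pt → Prop} (h : IND S P) : IND S fun a v => ¬ P a v := by
  obtain ⟨F, hF, h⟩ := h
  refine ⟨_, PF.one.sub hF, fun a K v hv => ?_⟩
  refine le_trans (le_of_eq ?_) (h a K v hv)
  rw [← norm_neg]
  congr 1
  by_cases hp : P a v <;> simp [hp]

theorem IND.and {S P Q : α → Pt → Prop} (hP : IND S P) (hQ : IND S Q) :
    IND S fun a v => P a v ∧ Q a v := by
  classical
  obtain ⟨F, hF, h⟩ := hP
  obtain ⟨G, hG, h'⟩ := hQ
  refine ⟨_, (hF.mul hG).comp (g := fun p : α × ℕ => (p.1, p.2 + 2)) (by fun_prop),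
    fun a K v hv => ?_⟩
  have h1 := h a (K + 2) v hv
  have h2 := h' a (K + 2) v hv
  have h3 := norm_le_two h1
  have e : F (a, K + 2) v * G (a, K + 2) v - (if P a v ∧ Q a v then 1 else 0) =
      F (a, K + 2) v * (G (a, K + 2) v - if Q a v then 1 else 0) +
        (F (a, K + 2) v - if P a v then 1 else 0) * if Q a v then 1 else 0 := by
    by_cases hp : P a v <;> by_cases hq : Q a v <;> simp only [hp, hq, and_self, and_false,
      false_and, if_true, if_false] <;> ring_nf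
  have h4 := mul_le_mul h3 h2 (norm_nonneg _) zero_le_two
  have h5 := mul_le_mul h1 (norm_ind_le (Q a v)) (norm_nonneg _) (by positivity)
  have h6 := absorb (x := 3) (E := 2) K (by norm_num)
  refine le_trans (le_of_eq (by congr)) ((e ▸ norm_add_le _ _).trans ?_)
  rw [norm_mul, norm_mul]
  linarith

theorem IND.imp {S P Q : α → Pt → Prop} (hP : IND S P) (hQ : IND S Q) :
    IND S fun a v => P a v → Q a v :=
  (hP.and hQ.not).not.mono (fun _ _ h => h) fun _ _ _ => by tauto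

theorem IND.all {S P : α × ℕ → Pt → Prop} {N : α → ℕ} (h : IND S P) (hN : PTime N) :
    IND (fun a v => ∀ u < N a, S (a, u) v) fun a v => ∀ u < N a, P (a, u) v := by
  classical
  obtain ⟨F, hF, h⟩ := h
  refine ⟨_, PF.prod (N := fun p : α × ℕ => N p.1)
    (hF.comp (g := fun p : (α × ℕ) × ℕ => ((p.1.1, p.2), p.1.2 + (N p.1.1 + N p.1.1)))
      (by fun_prop)) (by fun_prop), fun a K v hv => ?_⟩
  have e : (if ∀ u < N a, P (a, u) v then 1 else 0 : ℂ) =
      ∏ u ∈ range (N a), if P (a, u) v then 1 else 0 := by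
    rw [Finset.prod_boole]
    simp only [Finset.mem_range]
  refine le_trans (le_of_eq (by congr)) (e ▸ (prod_close (B := 2) one_le_two (by positivity) (N a)
    (fun u hu => norm_le_two (h _ _ v (hv u hu))) (fun u _ => (norm_ind_le _).trans one_le_two)
    fun u hu => h (a, u) (K + (N a + N a)) v (hv u hu)).trans (absorb K ?_))
  rw [pow_add]
  exact mul_le_mul_of_nonneg_right (by exact_mod_cast Nat.lt_two_pow_self.le) (by positivity)

theorem IND.allU {S P : α × Un → Pt → Prop} {n : α → ℕ} (h : IND S P) (hn : PU n) :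
    IND (fun a v => ∀ u < n a, S (a, ⟨u⟩) v) fun a v => ∀ u < n a, P (a, ⟨u⟩) v :=
  ((h.comp (pt_un hn)).all hn.ptime).mono
    (fun a v hv u hu => by simpa only [min_eq_left hu.le] using hv u hu)
    fun a v _ => forall_congr' fun u => forall_congr' fun hu => by simp only [min_eq_left hu.le]

theorem IND.cnt_eq {n M : α → ℕ} {ξ : α → Pt → ℕ → Pt} {S P Q : α → Pt → Prop} (hF : Fam n M ξ)
    (hP : IND S P) (hQ : IND S Q) :
    IND (fun a v => ∀ i < M a, S a (glue (n a) (ξ a v i) v)) fun a v =>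
      (cnt (M a) fun i => P a (glue (n a) (ξ a v i) v)) =
        cnt (M a) fun i => Q a (glue (n a) (ξ a v i) v) := by
  classical
  obtain ⟨F, hF', h⟩ := hP
  obtain ⟨G, hG, h'⟩ := hQ
  have hM := hF.2.1
  have hD := hF.2.2 (α × ℕ) (fun p => p.1) _ _ (by fun_prop) pf_id
    ((hF'.sub hG).comp (g := fun p : α × ℕ => (p.1, p.2 + (M p.1 + 2) * (2 * M p.1 + 5)))
      (by fun_prop))
  have hD' := hD.comp (g := fun p : (α × ℕ) × ℕ => p.1) (by fun_prop)
  have hw := PF.const (QC.nat (f := fun p : (α × ℕ) × ℕ => (p.2 + 1) * (p.2 + 1))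
    (by fun_prop)).inv
  refine ⟨_, PF.prod (N := fun p : α × ℕ => M p.1) (PF.one.sub ((hD'.mul hD').mul hw))
    (by fun_prop), fun a K v hv => ?_⟩
  have key := @zero_test _ _ _ K (Classical.propDecidable _) (cnt_le (M a) fun i => P a (glue (n a) (ξ a v i) v))
    (cnt_le (M a) fun i => Q a (glue (n a) (ξ a v i) v))
    (∑ i ∈ range (M a), (F (a, K + (M a + 2) * (2 * M a + 5)) (glue (n a) (ξ a v i) v) -
      G (a, K + (M a + 2) * (2 * M a + 5)) (glue (n a) (ξ a v i) v))) ?_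
  · exact key
  rw [cnt_cast, cnt_cast, ← Finset.sum_sub_distrib, ← Finset.sum_sub_distrib]
  refine (norm_sum_le _ _).trans ?_
  refine (Finset.sum_le_card_nsmul _ _ (2 * (1 / 2 ^ (K + (M a + 2) * (2 * M a + 5))))
    fun i hi => ?_).trans (le_of_eq (by rw [Finset.card_range, nsmul_eq_mul]; ring))
  have h1 := h a (K + (M a + 2) * (2 * M a + 5)) _ (hv i (Finset.mem_range.1 hi))
  have h2 := h' a (K + (M a + 2) * (2 * M a + 5)) _ (hv i (Finset.mem_range.1 hi))
  rw [sub_sub_sub_comm]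
  exact (norm_sub_le _ _).trans (by linarith)

theorem IND.allFam {n M : α → ℕ} {ξ : α → Pt → ℕ → Pt} {S P : α → Pt → Prop} (hF : Fam n M ξ)
    (hP : IND S P) :
    IND (fun a v => ∀ i < M a, S a (glue (n a) (ξ a v i) v)) fun a v =>
      ∀ i < M a, P a (glue (n a) (ξ a v i) v) := by
  refine (IND.cnt_eq hF hP.not (IND.ch S (CH.pt (PTime.const False)))).mono (fun _ _ h => h)
    fun a v _ => ?_
  have e : (cnt (M a) fun _ => False) = 0 := Nat.eq_zero_of_not_pos fun h => by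
    simpa using cnt_pos.1 h
  rw [e, ← Nat.le_zero, ← not_lt, cnt_pos]
  simp

theorem IND.final {S P : α → Pt → Prop} (h : IND S P) :
    ∃ c : α → Prop, CH c ∧ ∀ a, S a 0 → (c a ↔ P a 0) := by
  obtain ⟨F, hF, h⟩ := h
  obtain ⟨X, hX, e⟩ := (hF.comp (g := fun a : α => (a, 2)) (by fun_prop)).val
  refine ⟨_, (hX.sub (QC.const (1 / 2))).pos, fun a ha => ?_⟩
  have h1 := h a 2 0 ha
  rw [← e a] at h1
  by_cases hp : P a 0
  · rw [if_pos hp] at h1
    have h2 : |(X a : ℝ) - 1| ≤ 1 / 2 ^ 2 := by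
      rw [← Real.norm_eq_abs, ← Complex.norm_real]; simpa using h1
    have h3 : ((1 / 2 : ℚ) : ℝ) < X a := by push_cast; linarith [(abs_le.1 h2).1]
    exact iff_of_true (sub_pos.2 (by exact_mod_cast h3)) hp
  · rw [if_neg hp] at h1
    have h2 : |(X a : ℝ)| ≤ 1 / 2 ^ 2 := by
      rw [← Real.norm_eq_abs, ← Complex.norm_real]; simpa using h1
    have h3 : (X a : ℝ) < ((1 / 2 : ℚ) : ℝ) := by push_cast; linarith [(abs_le.1 h2).2]
    exact iff_of_false (not_lt.2 (sub_nonpos.2 (by exact_mod_cast h3.le))) hp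

end Crest.Agent.R316
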