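import Crest.Agent.R316.PTB

/-! Row 316: polynomial functions and interpolation. -/

set_option autoImplicit false

namespace Crest.Agent.R316

open Finset

namespace Interp

/-- numerator of the Lagrange basis polynomial -/
noncomputable def numP (D j : ℕ) : Polynomial ℂ :=
  ∏ i ∈ (range (D + 1)).erase j, (Polynomial.X - Polynomial.C (i : ℂ))

theorem numP_coeff (D j k : ℕ) : (numP D j).coeff k = (lcZ D j k : ℂ) := by
  have : numP D j = (∏ i ∈ (range (D + 1)).erase j,
      (Polynomial.X - Polynomial.C (i : ℤ))).map (Int.castRingHom ℂ) := by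
    rw [numP, Polynomial.map_prod]
    refine prod_congr rfl fun i _ => ?_
    simp
  rw [this, Polynomial.coeff_map, lcZ]
  rfl

theorem numP_deg {D j : ℕ} (hj : j ≤ D) : (numP D j).natDegree < D + 1 := by
  refine lt_of_le_of_lt (Polynomial.natDegree_prod_le _ _) ?_
  simp only [Polynomial.natDegree_X_sub_C, sum_const, smul_eq_mul, mul_one]
  rw [card_erase_of_mem (mem_range.2 (by omega)), card_range]
  omega

theorem cons_update_zero (t s : ℂ) (w : Pt) : Function.update (cons t w) 0 s = cons s w := by
  funext i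
  cases i with
  | zero => simp
  | succ i => simp

theorem cons_update_succ (c t : ℂ) (w : Pt) (i : ℕ) :
    cons c (Function.update w i t) = Function.update (cons c w) (i + 1) t := by
  funext k
  cases k with
  | zero => simp
  | succ k =>
    by_cases h : k = i
    · subst h; simp
    · simp [Function.update_of_ne h, Function.update_of_ne (show k + 1 ≠ i + 1 by omega)]

theorem glue_succ (m : ℕ) (y v : Pt) :
    glue (m + 1) y v = cons (y 0) (glue m (fun i => y (i + 1)) v) := by
  funext i
  cases i with
  | zero => simp [glue]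
  | succ i =>
    rw [cons_succ]
    simp [glue]

theorem isP_cons {n D : ℕ} {f : Pt → ℂ} (h : IsP n D f) (c : ℂ) :
    IsP n D fun v => f (cons c v) := by
  refine ⟨fun v v' hv => h.1 _ _ fun i hi => ?_, fun i v => ?_⟩
  · cases i with
    | zero => simp
    | succ i => simpa using hv i (by omega)
  · obtain ⟨p, hp, hf⟩ := h.2 (i + 1) (cons c v)
    exact ⟨p, hp, fun t => by rw [← hf, ← cons_update_succ]⟩

theorem continuous_lag (D j : ℕ) : Continuous (lag D j) := by
  unfold lag
  exact continuous_finsetProd _ fun i _ => by fun_prop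

end Interp

open Interp

theorem lag_eq {D j : ℕ} (hj : j ≤ D) (t : ℂ) :
    lag D j t = ∑ k ∈ range (D + 1), (lagc D j k : ℂ) * t ^ k := by
  have h1 : (numP D j).eval t = ∏ i ∈ (range (D + 1)).erase j, (t - i) := by
    simp [numP, Polynomial.eval_prod]
  rw [lag, prod_div_distrib, ← h1, Polynomial.eval_eq_sum_range' (numP_deg hj), sum_div]
  refine sum_congr rfl fun k _ => ?_
  rw [numP_coeff, lagc]
  push_cast
  ring

theorem interp1 {D : ℕ} (p : Polynomial ℂ) (hp : p.natDegree ≤ D) (t : ℂ) :
    p.eval t = ∑ j ∈ range (D + 1), p.eval (j : ℂ) * lag D j t := by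
  have h := Lagrange.eq_interpolate (s := range (D + 1)) (v := fun i : ℕ => (i : ℂ)) (f := p)
    (fun a _ b _ hab => Nat.cast_injective (R := ℂ) hab)
    (by
      rw [card_range]
      exact lt_of_le_of_lt Polynomial.degree_le_natDegree (by exact_mod_cast Nat.lt_succ_of_le hp))
  conv_lhs => rw [h]
  rw [Lagrange.interpolate_apply, Polynomial.eval_finsetSum]
  refine sum_congr rfl fun j _ => ?_
  rw [Polynomial.eval_mul, Polynomial.eval_C, Lagrange.basis, Polynomial.eval_prod, lag]
  congr 1
  refine prod_congr rfl fun i _ => ?_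
  simp [Lagrange.basisDivisor, div_eq_inv_mul]

/-- the monomial `t ^ k` expanded in the Lagrange basis, coefficientwise -/
theorem sum_pow_lagc {D k l : ℕ} (hk : k ≤ D) (hl : l ≤ D) :
    ∑ j ∈ range (D + 1), (j : ℚ) ^ k * lagc D j l = if l = k then 1 else 0 := by
  have h : (Polynomial.X ^ k : Polynomial ℂ) = ∑ j ∈ range (D + 1), ∑ r ∈ range (D + 1),
      Polynomial.monomial r ((j : ℂ) ^ k * (lagc D j r : ℂ)) := by
    refine Polynomial.funext fun t => ?_
    rw [interp1 (D := D) _ (by simpa using hk), Polynomial.eval_finsetSum]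
    refine sum_congr rfl fun j hj => ?_
    rw [lag_eq (Nat.lt_succ_iff.1 (mem_range.1 hj)), Polynomial.eval_finsetSum, mul_sum]
    refine sum_congr rfl fun r _ => ?_
    simp [mul_assoc]
  have h2 := congrArg (fun p => Polynomial.coeff p l) h
  simp only [Polynomial.coeff_X_pow, Polynomial.finsetSum_coeff, Polynomial.coeff_monomial,
    sum_ite_eq', mem_range, Nat.lt_succ_of_le hl, if_true] at h2
  apply Rat.cast_injective (α := ℂ)
  push_cast
  rw [← h2]
  split_ifs <;> simp

theorem IsP.mono {n n' D D' : ℕ} {f : Pt → ℂ} (h : IsP n D f) (hn : n ≤ n') (hD : D ≤ D') :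
    IsP n' D' f := by
  refine ⟨fun v v' hv => h.1 v v' fun i hi => hv i (by omega), fun i v => ?_⟩
  obtain ⟨p, hp, hf⟩ := h.2 i v
  exact ⟨p, hp.trans hD, hf⟩

theorem IsP.const (c : ℂ) : IsP 0 0 fun _ => c :=
  ⟨fun _ _ _ => rfl, fun _ _ => ⟨Polynomial.C c, by simp, fun _ => by simp⟩⟩

theorem IsP.var (k : ℕ) : IsP (k + 1) 1 fun v => v k := by
  refine ⟨fun v v' hv => hv k (by omega), fun i v => ?_⟩
  by_cases h : k = i
  · subst h
    exact ⟨Polynomial.X, by simp, fun t => by simp⟩
  · exact ⟨Polynomial.C (v k), by simp, fun t => by simp [Function.update_of_ne h]⟩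

theorem IsP.add {n D : ℕ} {f g : Pt → ℂ} (hf : IsP n D f) (hg : IsP n D g) :
    IsP n D fun v => f v + g v := by
  refine ⟨fun v v' hv => by simp only [hf.1 v v' hv, hg.1 v v' hv], fun i v => ?_⟩
  obtain ⟨p, hp, h1⟩ := hf.2 i v
  obtain ⟨q, hq, h2⟩ := hg.2 i v
  exact ⟨p + q, (Polynomial.natDegree_add_le _ _).trans (max_le hp hq),
    fun t => by rw [Polynomial.eval_add, ← h1, ← h2]⟩

theorem IsP.mul {n D D' : ℕ} {f g : Pt → ℂ} (hf : IsP n D f) (hg : IsP n D' g) :
    IsP n (D + D') fun v => f v * g v := by
  refine ⟨fun v v' hv => by simp only [hf.1 v v' hv, hg.1 v v' hv], fun i v => ?_⟩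
  obtain ⟨p, hp, h1⟩ := hf.2 i v
  obtain ⟨q, hq, h2⟩ := hg.2 i v
  exact ⟨p * q, Polynomial.natDegree_mul_le.trans (add_le_add hp hq),
    fun t => by rw [Polynomial.eval_mul, ← h1, ← h2]⟩

theorem IsP.sum {ι : Type} {n D : ℕ} (s : Finset ι) {f : ι → Pt → ℂ} (h : ∀ i ∈ s, IsP n D (f i)) :
    IsP n D fun v => ∑ i ∈ s, f i v := by
  classical
  induction s using Finset.induction_on with
  | empty => simpa using (IsP.const 0).mono (Nat.zero_le n) (Nat.zero_le D)
  | insert a s ha ih =>
    simp only [sum_insert ha]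
    exact (h a (mem_insert_self _ _)).add (ih fun i hi => h i (mem_insert_of_mem hi))

theorem IsP.prod {ι : Type} {n D : ℕ} (s : Finset ι) {f : ι → Pt → ℂ} (h : ∀ i ∈ s, IsP n D (f i)) :
    IsP n (s.card * D) fun v => ∏ i ∈ s, f i v := by
  classical
  induction s using Finset.induction_on with
  | empty => simpa using (IsP.const 1).mono (Nat.zero_le n) le_rfl
  | insert a s ha ih =>
    simp only [prod_insert ha, card_insert_of_notMem ha]
    exact ((h a (mem_insert_self _ _)).mul (ih fun i hi => h i (mem_insert_of_mem hi))).mono le_rfl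
      (by rw [add_mul, one_mul, add_comm])

/-- interpolation in the first `m` coordinates -/
theorem IsP.interp_glue {n D : ℕ} {f : Pt → ℂ} (h : IsP n D f) (m : ℕ) (y v : Pt) :
    f (glue m y v) = ∑ u ∈ range ((D + 1) ^ m),
      f (glue m (dig (D + 1) u) v) * ∏ i ∈ range m, lag D (dg (D + 1) u i) (y i) := by
  induction m generalizing f y with
  | zero =>
    simp only [pow_zero, range_one, sum_singleton, range_zero, prod_empty, mul_one]
    exact congrArg f (glue_congr (fun i hi => absurd hi (Nat.not_lt_zero i)) v)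
  | succ m ih =>
    have h1 : ∀ (t : ℂ) (w : Pt),
        f (cons t w) = ∑ c ∈ range (D + 1), f (cons c w) * lag D c t := by
      intro t w
      obtain ⟨p, hp, hf⟩ := h.2 0 (cons t w)
      simp only [cons_update_zero] at hf
      simp only [hf]
      exact interp1 p hp t
    rw [glue_succ, h1, pow_succ, PTB.sum_range_mul, sum_comm]
    refine sum_congr rfl fun c hc => ?_
    have hc := mem_range.1 hc
    rw [ih (isP_cons h c), sum_mul]
    refine sum_congr rfl fun u _ => ?_
    rw [prod_range_succ', glue_succ, mul_assoc]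
    simp only [dig, PTB.dg_zero hc, PTB.dg_succ hc]
    rfl

theorem IsP.interp {n D : ℕ} {f : Pt → ℂ} (h : IsP n D f) (v : Pt) :
    f v = ∑ u ∈ range ((D + 1) ^ n),
      f (dig (D + 1) u) * ∏ i ∈ range n, lag D (dg (D + 1) u i) (v i) := by
  rw [h.1 v (glue n v v) fun i hi => (glue_lt hi _ _).symm, h.interp_glue]
  refine sum_congr rfl fun u _ => ?_
  rw [h.1 (glue n _ v) (dig (D + 1) u) fun i hi => glue_lt hi _ _]

theorem IsP.continuous {n D : ℕ} {f : Pt → ℂ} (h : IsP n D f) : Continuous f := by
  rw [funext h.interp]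
  exact continuous_finsetSum _ fun u _ => continuous_const.mul
    (continuous_finsetProd _ fun i _ => (continuous_lag _ _).comp (continuous_apply i))

/-- the polynomial in the first `m` coordinates -/
theorem IsP.exists_mv {n D : ℕ} {f : Pt → ℂ} (h : IsP n D f) (m : ℕ) (v : Pt) :
    ∃ P : MvPolynomial (Fin m) ℂ, P.totalDegree ≤ m * D ∧ (∀ k, P.degreeOf k ≤ D) ∧
      ∀ y : Fin m → ℂ, f (glue m (ext y) v) = MvPolynomial.eval y P := by
  classical
  let Q : Fin m → ℕ → MvPolynomial (Fin m) ℂ := fun i j =>
    ∑ k ∈ range (D + 1), MvPolynomial.C (lagc D j k : ℂ) * MvPolynomial.X i ^ k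
  have hQ1 : ∀ i j, (Q i j).totalDegree ≤ D := fun i j =>
    (MvPolynomial.totalDegree_finsetSum _ _).trans (Finset.sup_le fun k hk =>
      (MvPolynomial.totalDegree_mul _ _).trans (by
        rw [MvPolynomial.totalDegree_C, MvPolynomial.totalDegree_X_pow, zero_add]
        exact Nat.lt_succ_iff.1 (mem_range.1 hk)))
  have hQ2 : ∀ i j k, (Q i j).degreeOf k ≤ if i = k then D else 0 := fun i j k => by
    split_ifs with hik
    · exact (MvPolynomial.degreeOf_le_totalDegree _ _).trans (hQ1 i j)
    · exact (MvPolynomial.degreeOf_sum_le _ _ _).trans (Finset.sup_le fun r _ =>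
        (MvPolynomial.degreeOf_C_mul_le _ _ _).trans
          (MvPolynomial.degreeOf_X_pow_of_ne r (Ne.symm hik)).le)
  refine ⟨∑ u ∈ range ((D + 1) ^ m), MvPolynomial.C (f (glue m (dig (D + 1) u) v)) *
    ∏ i : Fin m, Q i (dg (D + 1) u i), ?_, fun k => ?_, fun y => ?_⟩
  · refine (MvPolynomial.totalDegree_finsetSum _ _).trans (Finset.sup_le fun u _ =>
      (MvPolynomial.totalDegree_mul _ _).trans ?_)
    rw [MvPolynomial.totalDegree_C, zero_add]
    refine (MvPolynomial.totalDegree_finsetProd _ _).trans ?_
    refine (sum_le_sum fun i _ => hQ1 i _).trans ?_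
    simp
  · refine (MvPolynomial.degreeOf_sum_le _ _ _).trans (Finset.sup_le fun u _ =>
      (MvPolynomial.degreeOf_C_mul_le _ _ _).trans ?_)
    refine (MvPolynomial.degreeOf_prod_le _ _ _).trans ?_
    refine (sum_le_sum fun i _ => hQ2 i _ k).trans ?_
    simp
  · rw [h.interp_glue, map_sum]
    refine sum_congr rfl fun u _ => ?_
    rw [map_mul, MvPolynomial.eval_C, map_prod, prod_range]
    congr 1
    refine prod_congr rfl fun i _ => ?_
    rw [lag_eq (Nat.lt_succ_iff.1 (dg_lt (Nat.succ_pos D) _ _)), ext_val]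
    simp [Q]

theorem continuous_ext {n : ℕ} : Continuous (ext : (Fin n → ℂ) → Pt) := by
  refine continuous_pi fun i => ?_
  unfold ext
  split_ifs with h
  · exact continuous_apply _
  · exact continuous_const

theorem continuous_rext {n : ℕ} : Continuous (rext : (Fin n → ℝ) → Pt) :=
  continuous_ext.comp (continuous_pi fun k => Complex.continuous_ofReal.comp (continuous_apply k))

theorem continuous_glue (m : ℕ) : Continuous fun p : Pt × Pt => glue m p.1 p.2 := by
  refine continuous_pi fun i => ?_
  unfold glue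
  split_ifs with h
  · exact (continuous_apply _).comp continuous_fst
  · exact (continuous_apply _).comp continuous_snd

/-- derivative along a coordinate -/
theorem hasDerivAt_eval {n : ℕ} (P : MvPolynomial (Fin n) ℂ) (y : Fin n → ℂ) (l : Fin n) (t : ℂ) :
    HasDerivAt (fun s => MvPolynomial.eval (Function.update y l s) P)
      (MvPolynomial.eval (Function.update y l t) (MvPolynomial.pderiv l P)) t := by
  induction P using MvPolynomial.induction_on with
  | C c => simpa using hasDerivAt_const t c
  | add p q hp hq =>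
    simp only [map_add]
    exact hp.add hq
  | mul_X p k hp =>
    simp only [map_mul, MvPolynomial.eval_X]
    by_cases hk : k = l
    · subst hk
      simp only [Function.update_self]
      refine (hp.mul (hasDerivAt_id t)).congr_deriv ?_
      simp
      ring
    · simp only [Function.update_of_ne hk]
      refine (hp.mul_const (y k)).congr_deriv ?_
      simp [Function.update_of_ne hk, MvPolynomial.pderiv_X_of_ne hk]
      ring

theorem glue_ext_update {m : ℕ} (y : Fin m → ℂ) (l : Fin m) (s : ℂ) (v : Pt) :
    Function.update (glue m (ext y) v) l s = glue m (ext (Function.update y l s)) v := by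
  funext i
  by_cases h : i = l
  · subst h
    rw [Function.update_self, glue_lt l.2, ext_val, Function.update_self]
  · rw [Function.update_of_ne h]
    unfold glue
    split_ifs with hi
    · have : (⟨i, hi⟩ : Fin m) ≠ l := fun h' => h (congrArg Fin.val h')
      simp [ext, hi, Function.update_of_ne this]
    · rfl

end Crest.Agent.R316
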