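import Crest.Agent.R316.Defs

/-! Row 316: penalty method. -/

set_option autoImplicit false

namespace Crest.Agent.R316

open Finset Filter Topology

theorem continuous_Gp {n : ℕ} (e : ℕ) : Continuous (Gp e : (Fin n → ℝ) → ℝ) := by
  unfold Gp
  fun_prop

theorem Gp_nonneg {n : ℕ} (e : ℕ) (y : Fin n → ℝ) : 0 ≤ Gp e y :=
  sum_nonneg fun _ _ => (even_two_mul e).pow_nonneg _

theorem isCompact_Gp_le {n e : ℕ} (he : 1 ≤ e) (B : ℝ) : IsCompact {y : Fin n → ℝ | Gp e y ≤ B} := by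
  refine (isCompact_closedBall (0 : Fin n → ℝ) (max 1 B)).of_isClosed_subset
    (isClosed_le (continuous_Gp e) continuous_const) fun y hy => ?_
  rw [mem_closedBall_zero_iff, pi_norm_le_iff_of_nonneg (zero_le_one.trans (le_max_left _ _))]
  intro k
  have h1 : y k ^ (2 * e) ≤ B :=
    (single_le_sum (f := fun k => y k ^ (2 * e)) (fun _ _ => (even_two_mul e).pow_nonneg _)
      (mem_univ k)).trans hy
  rw [Real.norm_eq_abs]
  rcases le_total |y k| 1 with h | h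
  · exact h.trans (le_max_left _ _)
  · refine le_trans ?_ (le_max_right _ _)
    rw [← (even_two_mul e).pow_abs] at h1
    exact (le_self_pow₀ h (by omega)).trans h1

theorem exists_min {n e : ℕ} (he : 1 ≤ e) (f : (Fin n → ℝ) → ℝ) (hf : Continuous f)
    (h0 : ∀ y, 0 ≤ f y) {κ : ℝ} (hκ : 0 ≤ κ) :
    ∃ y, ∀ y', κ * f y + Gp e y ≤ κ * f y' + Gp e y' := by
  have hm : (0 : Fin n → ℝ) ∈ {y : Fin n → ℝ | Gp e y ≤ κ * f 0 + Gp e (0 : Fin n → ℝ)} :=
    le_add_of_nonneg_left (mul_nonneg hκ (h0 0))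
  obtain ⟨y, -, hy⟩ := (isCompact_Gp_le he (κ * f 0 + Gp e (0 : Fin n → ℝ))).exists_isMinOn
    (f := fun y => κ * f y + Gp e y) ⟨0, hm⟩
    ((continuous_const.mul hf).add (continuous_Gp e)).continuousOn
  refine ⟨y, fun y' => ?_⟩
  rcases le_total (Gp e y') (κ * f 0 + Gp e (0 : Fin n → ℝ)) with h | h
  · exact hy h
  · exact (hy hm).trans (h.trans (le_add_of_nonneg_left (mul_nonneg hκ (h0 y'))))

/-- a clopen part of the zero set contains a limit of local minimisers -/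
theorem penalty {n e : ℕ} (he : 1 ≤ e) (f : (Fin n → ℝ) → ℝ) (hf : Continuous f)
    (h0 : ∀ y, 0 ≤ f y) (A : Set (Fin n → ℝ)) (hA : A.Nonempty) (hAZ : ∀ y ∈ A, f y = 0)
    (hc : IsClosed A) (hc' : IsClosed ({y | f y = 0} \ A)) :
    ∃ z ∈ A, ∃ (κ : ℕ → ℝ) (ξ : ℕ → Fin n → ℝ), Tendsto κ atTop atTop ∧
      Tendsto ξ atTop (𝓝 z) ∧ ∀ j, IsLocalMin (fun y => κ j * f y + Gp e y) (ξ j) := by
  obtain ⟨z₀, hz₀⟩ := hA
  obtain ⟨W, hW, hAW, hWc⟩ := normal_exists_closure_subset hc hc'.isOpen_compl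
    (fun y hy h => h.2 hy)
  set C : Set (Fin n → ℝ) := {y | Gp e y ≤ Gp e z₀ + 1} ∩ closure W with hC
  have hCc : IsCompact C := (isCompact_Gp_le he _).inter_right isClosed_closure
  have hz₀C : z₀ ∈ C := ⟨by simp, subset_closure (hAW hz₀)⟩
  have hmin : ∀ j : ℕ, ∃ x ∈ C, IsMinOn (fun y => ((j : ℝ) + 1) * f y + Gp e y) C x := fun j =>
    hCc.exists_isMinOn ⟨z₀, hz₀C⟩ ((continuous_const.mul hf).add (continuous_Gp e)).continuousOn
  choose ξ hξC hξ using hmin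
  have hle : ∀ j : ℕ, ((j : ℝ) + 1) * f (ξ j) + Gp e (ξ j) ≤ Gp e z₀ := fun j => by
    have := hξ j hz₀C
    simpa [hAZ z₀ hz₀] using this
  obtain ⟨z, hzC, φ, hφ, hlim⟩ := hCc.tendsto_subseq hξC
  have hκ : Tendsto (fun j => ((φ j : ℝ) + 1)) atTop atTop :=
    tendsto_atTop_add_const_right _ _ (tendsto_natCast_atTop_atTop.comp hφ.tendsto_atTop)
  have hfz : f z = 0 := by
    refine le_antisymm ?_ (h0 z)
    refine le_of_tendsto_of_tendsto' ((hf.tendsto z).comp hlim)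
      (tendsto_const_nhds (x := Gp e z₀).div_atTop hκ) fun j => ?_
    rw [le_div_iff₀ (by positivity), mul_comm]
    exact (le_add_of_nonneg_right (Gp_nonneg e _)).trans (hle (φ j))
  have hGz : Gp e z ≤ Gp e z₀ :=
    le_of_tendsto' (((continuous_Gp e).tendsto z).comp hlim) fun j =>
      (le_add_of_nonneg_left (mul_nonneg (by positivity) (h0 _))).trans (hle (φ j))
  have hzA : z ∈ A := by
    by_contra h
    exact hWc hzC.2 ⟨hfz, h⟩
  have hCz : C ∈ 𝓝 z := by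
    refine inter_mem ?_ (mem_of_superset (hW.mem_nhds (hAW hzA)) subset_closure)
    refine mem_of_superset ((isOpen_lt (continuous_Gp e) (continuous_const (y := Gp e z₀ + 1))).mem_nhds
      ?_) fun y hy => le_of_lt (a := Gp e y) hy
    exact hGz.trans_lt (lt_add_one _)
  obtain ⟨N, hN⟩ := eventually_atTop.1 (hlim.eventually (eventually_mem_nhds_iff.2 hCz))
  refine ⟨z, hzA, fun j => (φ (j + N) : ℝ) + 1, fun j => ξ (φ (j + N)),
    hκ.comp (tendsto_add_atTop_nat N), hlim.comp (tendsto_add_atTop_nat N), fun j => ?_⟩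
  exact (hξ _).isLocalMin (hN (j + N) (Nat.le_add_left _ _))

/-- limits of roots are roots of the leading coefficient -/
theorem elim (D : ℕ) (c : ℕ → ℕ → ℂ) {i₀ : ℕ} (hi : i₀ < D)
    (hz : ∀ i, i₀ < i → i < D → ∀ j < D, c i j = 0) (κ T : ℕ → ℝ) (t : ℝ)
    (hκ : Tendsto κ atTop atTop) (hT : Tendsto T atTop (𝓝 t))
    (h : ∀ m, ∑ i ∈ range D, ∑ j ∈ range D, c i j * (κ m : ℂ) ^ i * (T m : ℂ) ^ j = 0) :
    ∑ j ∈ range D, c i₀ j * (t : ℂ) ^ j = 0 := by
  have hT' : Tendsto (fun m => (T m : ℂ)) atTop (𝓝 t) := (Complex.continuous_ofReal.tendsto t).comp hT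
  have hk : ∀ i, i ≤ i₀ → Tendsto (fun m => (κ m : ℂ) ^ i / (κ m : ℂ) ^ i₀) atTop
      (𝓝 (if i = i₀ then 1 else 0)) := by
    intro i hi
    have hev : ∀ᶠ m in atTop, (((κ m)⁻¹ : ℝ) : ℂ) ^ (i₀ - i) = (κ m : ℂ) ^ i / (κ m : ℂ) ^ i₀ := by
      filter_upwards [hκ.eventually_gt_atTop 0] with m hm
      have : (κ m : ℂ) ≠ 0 := by exact_mod_cast hm.ne'
      obtain ⟨d, rfl⟩ := Nat.exists_eq_add_of_le hi
      rw [Nat.add_sub_cancel_left, pow_add]
      push_cast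
      rw [inv_pow]
      field_simp
    refine Tendsto.congr' hev ?_
    have := ((Complex.continuous_ofReal.tendsto 0).comp hκ.inv_tendsto_atTop).pow (i₀ - i)
    have h2 : ((0 : ℝ) : ℂ) ^ (i₀ - i) = if i = i₀ then 1 else 0 := by
      split_ifs with h
      · simp [h]
      · rw [Complex.ofReal_zero, zero_pow (by omega)]
    rw [h2] at this
    exact this
  have hl : Tendsto (fun m => ∑ i ∈ range D, ∑ j ∈ range D,
      c i j * ((κ m : ℂ) ^ i / (κ m : ℂ) ^ i₀) * (T m : ℂ) ^ j) atTop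
      (𝓝 (∑ i ∈ range D, ∑ j ∈ range D, c i j * (if i = i₀ then 1 else 0) * (t : ℂ) ^ j)) := by
    refine tendsto_finsetSum _ fun i hi' => tendsto_finsetSum _ fun j hj => ?_
    rcases le_or_gt i i₀ with h1 | h1
    · exact (tendsto_const_nhds.mul (hk i h1)).mul (hT'.pow j)
    · simp [hz i h1 (mem_range.1 hi') j (mem_range.1 hj)]
  have h0 : ∀ m, ∑ i ∈ range D, ∑ j ∈ range D,
      c i j * ((κ m : ℂ) ^ i / (κ m : ℂ) ^ i₀) * (T m : ℂ) ^ j = 0 := fun m => by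
    rw [← zero_div ((κ m : ℂ) ^ i₀), ← h m, sum_div]
    refine sum_congr rfl fun i _ => ?_
    rw [sum_div]
    exact sum_congr rfl fun j _ => by ring
  simp only [h0] at hl
  have h3 := tendsto_nhds_unique hl tendsto_const_nhds
  rw [sum_eq_single_of_mem i₀ (mem_range.2 hi)] at h3
  · simpa using h3
  · intro i _ hne
    simp [hne]

/-- a nonzero finite array has a lexicographically largest nonzero entry -/
theorem exists_lex (D : ℕ) (c : ℕ → ℕ → ℂ) (h : ∃ i < D, ∃ j < D, c i j ≠ 0) :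
    ∃ i₀ < D, ∃ j₀ < D, c i₀ j₀ ≠ 0 ∧
      ∀ i < D, ∀ j < D, (i₀ < i ∨ (i = i₀ ∧ j₀ < j)) → c i j = 0 := by
  classical
  obtain ⟨i, hi, j, hj, hc⟩ := h
  obtain ⟨p, hp, hmax⟩ := exists_max_image ((range D ×ˢ range D).filter fun p => c p.1 p.2 ≠ 0)
    (fun p => p.1 * D + p.2) ⟨(i, j), by simp [hi, hj, hc]⟩
  simp only [mem_filter, mem_product, mem_range] at hp hmax
  refine ⟨p.1, hp.1.1, p.2, hp.1.2, hp.2, fun a ha b hb hab => ?_⟩
  by_contra hne
  have := hmax (a, b) ⟨⟨ha, hb⟩, hne⟩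
  dsimp only at this
  rcases hab with hab | ⟨rfl, hab⟩
  · have := Nat.mul_le_mul_right D (Nat.succ_le_of_lt hab)
    rw [Nat.succ_mul] at this
    omega
  · omega

end Crest.Agent.R316
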