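import Crest.Agent.R316.PhamFam
import Crest.Agent.R316.Pen

/-! Row 316: grids from leading coefficients. -/

set_option autoImplicit false

namespace Crest.Agent.R316

open Crest.Agent.PT Finset

variable {α β : Type} [Rp α] [Rp β]

open Filter Topology

theorem monic_grid {D : α → ℕ} {c : α × ℕ → ℚ} (hD : PTime D) (hc : QC c) :
    ∃ (M : α → ℕ) (z : α → ℕ → ℂ), GF M z ∧ ∀ a (t : ℂ),
      t ^ (D a + 1) = ∑ k ∈ range (D a + 1), (c (a, k) : ℂ) * t ^ k → InG (M a) (z a) t := by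
  have hD1 : PTime fun a => D a + 1 := by fun_prop
  have h1 : PF fun (q : (α × Un) × ℕ) (v : Pt) => (c (q.1.1, q.2) : ℂ) * v 0 ^ q.2 :=
    (PF.const (hc.comp (g := fun q : (α × Un) × ℕ => (q.1.1, q.2)) (by fun_prop))).mul
      ((PF.var (k := fun _ => 0) (PU.const 0)).pow PTime.snd')
  have hg : PF fun (p : α × Un) (v : Pt) =>
      ∑ k ∈ range (D p.1 + 1), (c (p.1, k) : ℂ) * v 0 ^ k :=
    h1.sum (N := fun p : α × Un => D p.1 + 1) (hD1.comp PTime.fst')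
  obtain ⟨ξ, hξ, h⟩ := pham_fam (n := fun _ : α => 1) (d := fun a => D a + 1) (PU.const 1) hD1
    (fun a => Nat.le_add_left 1 _) hg (fun a v k _ => by
      refine ⟨∑ k ∈ range (D a + 1), MvPolynomial.C (c (a, k) : ℂ) * MvPolynomial.X 0 ^ k,
        Nat.lt_succ_of_le (MvPolynomial.totalDegree_finsetSum_le fun k hk => ?_), fun y => ?_⟩
      · refine (MvPolynomial.totalDegree_mul _ _).trans ?_
        rw [MvPolynomial.totalDegree_C, zero_add, MvPolynomial.totalDegree_X_pow]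
        exact Nat.lt_succ_iff.1 (mem_range.1 hk)
      · have e : glue 1 (ext y) v 0 = y 0 := by
          rw [glue_lt Nat.one_pos]
          exact ext_val y 0
        simp only [e, map_sum, map_mul, map_pow, MvPolynomial.eval_C, MvPolynomial.eval_X])
  refine ⟨_, _, GF.ofFam hξ, fun a t ht => ?_⟩
  obtain ⟨i, hi, e⟩ := h a 0 (fun _ => t) fun k _ => by
    rw [glue_lt Nat.one_pos]
    exact ht
  exact ⟨i, hi, (e 0 Nat.one_pos).symm⟩

namespace Lead

/-- normalising a polynomial equation to a fixed degree -/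
theorem monic_of (D j₀ : ℕ) (Y : ℕ → ℂ) (t : ℂ) (hj : j₀ < D) (h0 : Y j₀ ≠ 0)
    (hz : ∀ j, j₀ < j → j < D → Y j = 0) (h : ∑ j ∈ range D, Y j * t ^ j = 0) :
    t ^ (D + 1) = ∑ k ∈ range (D + 1),
      (if D + 1 - j₀ ≤ k then -Y (k - (D + 1 - j₀)) / Y j₀ else 0) * t ^ k := by
  have h1 : ∑ j ∈ range D, Y j * t ^ j = ∑ j ∈ range (j₀ + 1), Y j * t ^ j := by
    refine (sum_subset (range_subset_range.2 hj) fun j hj1 hj2 => ?_).symm
    rw [hz j (by simpa using hj2) (mem_range.1 hj1), zero_mul]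
  rw [h1, sum_range_succ] at h
  obtain ⟨s, hs⟩ : ∃ s, D + 1 = s + j₀ := ⟨D + 1 - j₀, by omega⟩
  rw [hs, Nat.add_sub_cancel, sum_range_add,
    sum_eq_zero fun k hk => by rw [if_neg (not_le.2 (mem_range.1 hk)), zero_mul], zero_add]
  have h2 : ∀ j ∈ range j₀, (if s ≤ s + j then -Y (s + j - s) / Y j₀ else 0) * t ^ (s + j) =
      -(t ^ s / Y j₀) * (Y j * t ^ j) := fun j _ => by
    rw [if_pos (Nat.le_add_right _ _), Nat.add_sub_cancel_left, pow_add]
    ring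
  rw [sum_congr rfl h2, ← mul_sum, eq_neg_of_add_eq_zero_left h, pow_add]
  field_simp

end Lead

theorem lead_grid {N : α → Pt → ℂ} (hN : PF N)
    (h0 : ∀ a, ∃ T κ : ℂ, N a (cons T (cons κ 0)) ≠ 0) :
    ∃ (M : α → ℕ) (z : α → ℕ → ℂ), GF M z ∧ ∀ a (κ T : ℕ → ℝ) (t : ℝ),
      Tendsto κ atTop atTop → Tendsto T atTop (𝓝 t) →
      (∀ m, N a (cons (T m) (cons (κ m) 0)) = 0) → InG (M a) (z a) t := by
  obtain ⟨D, C, hD, hC, hN⟩ := hN.expand2
  obtain ⟨X, hX, hXC⟩ := hC.val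
  have hD' : PTime fun p : α × ℕ => D p.1 := hD.comp PTime.fst'
  have b1 : CH fun p : α × ℕ => ∃ j < D p.1, ¬ X (p.1, p.2, j) = 0 :=
    CH.ex (B := fun q : (α × ℕ) × ℕ => ¬ X (q.1.1, q.1.2, q.2) = 0)
      (hX.comp (g := fun q : (α × ℕ) × ℕ => (q.1.1, q.1.2, q.2)) (by fun_prop)).eq_zero.not hD'
  obtain ⟨i₀, hi₀, hi⟩ := FN.findMax b1 hD
  have hY : QC fun p : α × ℕ => X (p.1, i₀ p.1, p.2) :=
    QC.subst (X := fun q : (α × ℕ) × ℕ => X (q.1.1, q.2, q.1.2))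
      (hX.comp (g := fun q : (α × ℕ) × ℕ => (q.1.1, q.2, q.1.2)) (by fun_prop))
      (hi₀.comp PTime.fst')
  obtain ⟨j₀, hj₀, hj⟩ := FN.findMax hY.eq_zero.not hD
  have hD'' : PTime fun q : (α × ℕ) × ℕ => D q.1.1 := hD'.comp PTime.fst'
  have c1 : QC fun q : (α × ℕ) × ℕ => if D q.1.1 + 1 - q.2 ≤ q.1.2 then
      -X (q.1.1, i₀ q.1.1, q.1.2 - (D q.1.1 + 1 - q.2)) / X (q.1.1, i₀ q.1.1, q.2) else 0 :=
    QC.ite (CH.pt (by fun_prop))
      ((hY.comp (g := fun q : (α × ℕ) × ℕ => (q.1.1, q.1.2 - (D q.1.1 + 1 - q.2)))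
        (by fun_prop)).neg.div
        (hY.comp (g := fun q : (α × ℕ) × ℕ => (q.1.1, q.2)) (by fun_prop))) (QC.const 0)
  obtain ⟨M, z, hG, hM⟩ := monic_grid hD (c1.subst (hj₀.comp PTime.fst'))
  refine ⟨M, z, hG, fun a κ T t hκ hT h => hM a t ?_⟩
  have hex : ∃ i < D a, ∃ j < D a, ¬ X (a, i, j) = 0 := by
    obtain ⟨T₀, κ₀, h0⟩ := h0 a
    by_contra hne
    apply h0
    rw [hN]
    refine sum_eq_zero fun i hi => sum_eq_zero fun j hj => ?_
    have : X (a, i, j) = 0 := by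
      by_contra h'
      exact hne ⟨i, mem_range.1 hi, j, mem_range.1 hj, h'⟩
    rw [← hXC, this]
    simp
  obtain ⟨k1, k2, k3⟩ := hi a hex
  obtain ⟨l1, l2, l3⟩ := hj a k2
  have he := elim (D a) (fun i j => (X (a, i, j) : ℂ)) k1 (fun i h1 h2 j h3 => by
    have : X (a, i, j) = 0 := by
      by_contra h'
      exact k3 i h1 h2 ⟨j, h3, h'⟩
    simp [this]) κ T t hκ hT fun m => by
      have := h m
      rw [hN] at this
      simpa only [hXC] using this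
  rw [Lead.monic_of (D a) (j₀ a) (fun j => (X (a, i₀ a, j) : ℂ)) t l1 (by exact_mod_cast l2)
    (fun j h1 h2 => by simpa using l3 j h1 h2) he]
  refine sum_congr rfl fun k _ => ?_
  dsimp only
  split_ifs
  · push_cast
    rfl
  · simp

end Crest.Agent.R316
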