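import Crest.Agent.R316.QC
import Crest.Agent.R316.Interp

/-! Row 316: families of polynomial functions. -/

set_option autoImplicit false

namespace Crest.Agent.R316

open Crest.Agent.PT Finset

variable {α β : Type} [Rp α] [Rp β]

theorem PF.congr {F G : α → Pt → ℂ} (h : PF F) (e : ∀ a v, G a v = F a v) : PF G := by
  obtain rfl : G = F := funext fun a => funext (e a)
  exact h

theorem PF.const {X : α → ℚ} (h : QC X) : PF fun a _ => (X a : ℂ) := by
  exact ⟨⟨fun _ => 0, fun _ => 0, PU.const 0, PTime.const 0, fun a => IsP.const _⟩,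
    fun p => X p.1, h.comp PTime.fst', fun _ _ _ => rfl⟩

theorem PF.nat {f : α → ℕ} (h : PTime f) : PF fun a _ => (f a : ℂ) := by
  exact (PF.const (QC.nat h)).congr fun a v => by simp

theorem PF.zero : PF fun (_ : α) _ => 0 := by
  exact (PF.const (QC.const 0)).congr fun a v => by simp

theorem PF.one : PF fun (_ : α) _ => 1 := by
  exact (PF.const (QC.const 1)).congr fun a v => by simp

theorem PF.var {k : α → ℕ} (hk : PU k) : PF fun a v => v (k a) := by
  refine ⟨⟨fun a => k a + 1, fun _ => 1, hk.add (PU.const 1), PTime.const 1, fun a => IsP.var _⟩,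
    fun p => (dg p.2.1 p.2.2 (k p.1) : ℚ), QC.nat (pt_dg (by fun_prop) (by fun_prop)
      (hk.comp PTime.fst').ptime), fun a B u => ?_⟩
  simp [dig]

theorem pf_id : PF fun (p : α × Un) v => v p.2.val := by
  exact PF.var (PU.val PTime.snd')

theorem PF.comp {F : β → Pt → ℂ} {g : α → β} (h : PF F) (hg : PTime g) : PF fun a => F (g a) := by
  obtain ⟨⟨n, D, hn, hD, hP⟩, X, hX, e⟩ := h
  exact ⟨⟨fun a => n (g a), fun a => D (g a), hn.comp hg, hD.comp hg, fun a => hP _⟩,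
    fun p => X (g p.1, p.2), hX.comp (by fun_prop), fun a B u => e _ _ _⟩

theorem PF.subst {F : α × ℕ → Pt → ℂ} {f : α → ℕ} (h : PF F) (hf : FN f) :
    PF fun a => F (a, f a) := by
  obtain ⟨⟨n, D, hn, hD, hP⟩, X, hX, e⟩ := h
  obtain ⟨N, hN, hlt⟩ := hf.1
  obtain ⟨n', hn', h1⟩ := pu_bdd hn hN
  obtain ⟨D', hD', h2⟩ := pt_bdd hD hN
  refine ⟨⟨n', D', hn', hD', fun a => (hP _).mono (h1 a _ (hlt a).le) (h2 a _ (hlt a).le)⟩,
    fun p => X ((p.1, f p.1), p.2), ?_, fun a B u => e _ _ _⟩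
  exact QC.subst (X := fun q : (α × ℕ × ℕ) × ℕ => X ((q.1.1, q.2), q.1.2))
    (f := fun p => f p.1) (hX.comp (by fun_prop)) (hf.comp PTime.fst')

theorem PF.mul {F G : α → Pt → ℂ} (hF : PF F) (hG : PF G) : PF fun a v => F a v * G a v := by
  obtain ⟨⟨n, D, hn, hD, hP⟩, X, hX, e⟩ := hF
  obtain ⟨⟨n', D', hn', hD', hP'⟩, X', hX', e'⟩ := hG
  refine ⟨⟨fun a => n a + n' a, fun a => D a + D' a, hn.add hn', hD.add hD', fun a =>
    ((hP a).mono (Nat.le_add_right _ _) le_rfl).mul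
      ((hP' a).mono (Nat.le_add_left _ _) le_rfl)⟩, _, hX.mul hX', fun a B u => ?_⟩
  push_cast
  rw [e, e']

theorem PF.neg {F : α → Pt → ℂ} (h : PF F) : PF fun a v => -F a v := by
  exact ((PF.const (QC.const (-1))).mul h).congr fun a v => by simp

theorem PF.add {F G : α → Pt → ℂ} (hF : PF F) (hG : PF G) : PF fun a v => F a v + G a v := by
  obtain ⟨⟨n, D, hn, hD, hP⟩, X, hX, e⟩ := hF
  obtain ⟨⟨n', D', hn', hD', hP'⟩, X', hX', e'⟩ := hG
  refine ⟨⟨fun a => n a + n' a, fun a => D a + D' a, hn.add hn', hD.add hD', fun a =>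
    ((hP a).mono (Nat.le_add_right _ _) (Nat.le_add_right _ _)).add
      ((hP' a).mono (Nat.le_add_left _ _) (Nat.le_add_left _ _))⟩, _, hX.add hX', fun a B u => ?_⟩
  push_cast
  rw [e, e']

theorem PF.sub {F G : α → Pt → ℂ} (hF : PF F) (hG : PF G) : PF fun a v => F a v - G a v := by
  exact (hF.add hG.neg).congr fun a v => sub_eq_add_neg _ _

theorem PF.sum {F : α × ℕ → Pt → ℂ} {N : α → ℕ} (h : PF F) (hN : PTime N) :
    PF fun a v => ∑ u ∈ range (N a), F (a, u) v := by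
  obtain ⟨⟨n, D, hn, hD, hP⟩, X, hX, e⟩ := h
  obtain ⟨n', hn', h1⟩ := pu_bdd hn hN
  obtain ⟨D', hD', h2⟩ := pt_bdd hD hN
  refine ⟨⟨n', D', hn', hD', fun a => IsP.sum _ fun u hu => (hP _).mono
    (h1 a _ (mem_range.1 hu).le) (h2 a _ (mem_range.1 hu).le)⟩, _,
    QC.sum (X := fun q : (α × ℕ × ℕ) × ℕ => X ((q.1.1, q.2), q.1.2)) (N := fun p => N p.1)
      (hX.comp (by fun_prop)) (hN.comp PTime.fst'), fun a B u => ?_⟩
  push_cast
  exact sum_congr rfl fun i _ => e _ _ _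

theorem PF.prod {F : α × ℕ → Pt → ℂ} {N : α → ℕ} (h : PF F) (hN : PTime N) :
    PF fun a v => ∏ u ∈ range (N a), F (a, u) v := by
  obtain ⟨⟨n, D, hn, hD, hP⟩, X, hX, e⟩ := h
  obtain ⟨n', hn', h1⟩ := pu_bdd hn hN
  obtain ⟨D', hD', h2⟩ := pt_bdd hD hN
  refine ⟨⟨n', fun a => N a * D' a, hn', hN.mul hD', fun a => (IsP.prod _ fun u hu => (hP _).mono
    (h1 a _ (mem_range.1 hu).le) (h2 a _ (mem_range.1 hu).le)).mono le_rfl (by simp)⟩, _,
    QC.prod (X := fun q : (α × ℕ × ℕ) × ℕ => X ((q.1.1, q.2), q.1.2)) (N := fun p => N p.1)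
      (hX.comp (by fun_prop)) (hN.comp PTime.fst'), fun a B u => ?_⟩
  push_cast
  exact prod_congr rfl fun i _ => e _ _ _

theorem PF.sumU {F : α × Un → Pt → ℂ} {n : α → ℕ} (h : PF F) (hn : PU n) :
    PF fun a v => ∑ u ∈ range (n a), F (a, ⟨u⟩) v := by
  refine ((h.comp (pt_un hn)).sum hn.ptime).congr fun a v => sum_congr rfl fun u hu => ?_
  simp only [min_eq_left (mem_range.1 hu).le]

theorem PF.prodU {F : α × Un → Pt → ℂ} {n : α → ℕ} (h : PF F) (hn : PU n) :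
    PF fun a v => ∏ u ∈ range (n a), F (a, ⟨u⟩) v := by
  refine ((h.comp (pt_un hn)).prod hn.ptime).congr fun a v => prod_congr rfl fun u hu => ?_
  simp only [min_eq_left (mem_range.1 hu).le]

theorem PF.pow {F : α → Pt → ℂ} {k : α → ℕ} (h : PF F) (hk : PTime k) :
    PF fun a v => F a v ^ k a := by
  exact ((h.comp (g := fun p : α × ℕ => p.1) PTime.fst').prod hk).congr fun a v => by simp

theorem PF.ite {c : α → Prop} [∀ a, Decidable (c a)] {F G : α → Pt → ℂ} (hc : CH c) (hF : PF F)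
    (hG : PF G) : PF fun a v => if c a then F a v else G a v := by
  obtain ⟨⟨n, D, hn, hD, hP⟩, X, hX, e⟩ := hF
  obtain ⟨⟨n', D', hn', hD', hP'⟩, X', hX', e'⟩ := hG
  refine ⟨⟨fun a => n a + n' a, fun a => D a + D' a, hn.add hn', hD.add hD', fun a => ?_⟩, _,
    QC.ite (c := fun p : α × ℕ × ℕ => c p.1) (hc.comp PTime.fst') hX hX', fun a B u => ?_⟩
  · by_cases h : c a
    · simp only [if_pos h]
      exact (hP a).mono (Nat.le_add_right _ _) (Nat.le_add_right _ _)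
    · simp only [if_neg h]
      exact (hP' a).mono (Nat.le_add_left _ _) (Nat.le_add_left _ _)
  · by_cases h : c a
    · simp only [if_pos h, e]
    · simp only [if_neg h, e']

theorem PF.lag {F : α → Pt → ℂ} {D j : α → ℕ} (h : PF F) (hD : PTime D) (hj : PTime j) :
    PF fun a v => lag (D a) (j a) (F a v) := by
  have h1 : PF fun (p : α × ℕ) v => if p.2 = j p.1 then 1 else
      (F p.1 v - (p.2 : ℂ)) * (((((j p.1 : ℕ) : ℚ) - ((p.2 : ℕ) : ℚ))⁻¹ : ℚ) : ℂ) :=
    PF.ite (CH.pt (PTime.snd'.eq (hj.comp PTime.fst'))) PF.one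
      (((h.comp PTime.fst').sub (PF.nat PTime.snd')).mul
        (PF.const ((QC.nat (hj.comp PTime.fst')).sub (QC.nat PTime.snd')).inv))
  refine (h1.prod (hD.add (PTime.const 1))).congr fun a v => ?_
  rw [← prod_erase (a := j a) _ (by simp)]
  refine prod_congr rfl fun i hi => ?_
  rw [if_neg (ne_of_mem_erase hi), div_eq_mul_inv]
  push_cast
  rfl

theorem PF.isP {F : α → Pt → ℂ} (h : PF F) :
    ∃ n D : α → ℕ, PU n ∧ PTime D ∧ ∀ a, IsP (n a) (D a) (F a) := h.1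

theorem PF.bind {F : α → Pt → ℂ} {G : α × Un → Pt → ℂ} (hF : PF F) (hG : PF G) :
    PF fun a v => F a fun j => G (a, ⟨j⟩) v := by
  obtain ⟨⟨n, D, hn, hD, hP⟩, X, hX, e⟩ := hF
  have h1 : PF fun (q : (α × ℕ) × Un) v =>
      R316.lag (D q.1.1) (dg (D q.1.1 + 1) q.1.2 q.2.val) (G (q.1.1, q.2) v) :=
    PF.lag (hG.comp (by fun_prop)) (by fun_prop)
      (pt_dg (by fun_prop) (by fun_prop) (PU.val PTime.snd').ptime)
  have h2 := (PF.const (hX.comp (g := fun p : α × ℕ => (p.1, D p.1 + 1, p.2)) (by fun_prop))).mul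
    (h1.prodU (hn.comp PTime.fst'))
  refine (h2.sum ((hD.add (PTime.const 1)).pow hn)).congr fun a v => ?_
  rw [(hP a).interp]
  simp only [e]

theorem PF.shift {F : α → Pt → ℂ} {m : α → ℕ} (hF : PF F) (hm : PU m) :
    PF fun a v => F a fun j => v (j + m a) := by
  exact hF.bind (G := fun p v => v (p.2.val + m p.1))
    (PF.var ((PU.val PTime.snd').add (hm.comp PTime.fst')))

/-- the family version of `PF.glue`: the glued point as a substitution -/
theorem pf_glue {m : α → ℕ} {Y W : α × Un → Pt → ℂ} (hm : PU m) (hY : PF Y) (hW : PF W) :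
    PF fun (p : α × Un) v =>
      glue (m p.1) (fun j => Y (p.1, ⟨j⟩) v) (fun j => W (p.1, ⟨j⟩) v) p.2.val := by
  exact PF.ite (c := fun p : α × Un => p.2.val < m p.1)
    (CH.pt ((PU.val PTime.snd').ptime.lt (hm.comp PTime.fst').ptime)) hY
    (hW.comp (g := fun p : α × Un => (p.1, ⟨p.2.val - m p.1⟩))
      (by fun_prop))

theorem PF.glue {F : α → Pt → ℂ} {m : α → ℕ} {Y W : α × Un → Pt → ℂ} (hF : PF F) (hm : PU m)
    (hY : PF Y) (hW : PF W) :
    PF fun a v => F a (glue (m a) (fun j => Y (a, ⟨j⟩) v) fun j => W (a, ⟨j⟩) v) := by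
  exact hF.bind (pf_glue hm hY hW)

theorem PF.trunc {F : α → Pt → ℂ} {m : α → ℕ} (hF : PF F) (hm : PU m) :
    PF fun a v => F a (R316.glue (m a) v 0) := by
  exact hF.glue hm pf_id PF.zero

theorem PF.cons {F T : α → Pt → ℂ} (hF : PF F) (hT : PF T) :
    PF fun a v => F a (cons (T a v) v) := by
  exact hF.glue (m := fun _ => 1) (Y := fun p v => T p.1 v) (PU.const 1) (hT.comp PTime.fst') pf_id

theorem PF.val {F : α → Pt → ℂ} (h : PF F) : ∃ X : α → ℚ, QC X ∧ ∀ a, (X a : ℂ) = F a 0 := by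
  obtain ⟨-, X, hX, e⟩ := h
  refine ⟨fun a => X (a, 1, 0), hX.comp (by fun_prop), fun a => ?_⟩
  rw [e]
  congr 1
  funext i
  simp [dig, dg]

theorem PF.real {F : α → Pt → ℂ} (h : PF F) (a : α) (v : Pt) (hv : ∀ i, (v i).im = 0) :
    (F a v).im = 0 := by
  obtain ⟨⟨n, D, -, -, hP⟩, X, -, e⟩ := h
  have hv' : ∀ i, (starRingEnd ℂ) (v i) = v i := fun i => Complex.conj_eq_iff_im.2 (hv i)
  rw [← Complex.conj_eq_iff_im, (hP a).interp]
  simp only [← e, R316.lag, map_sum, map_mul, map_prod, map_div₀, map_sub, map_natCast,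
    map_ratCast, hv']

theorem PF.continuous {F : α → Pt → ℂ} (h : PF F) (a : α) : Continuous (F a) := by
  obtain ⟨n, D, -, -, hP⟩ := h.1
  exact (hP a).continuous

end Crest.Agent.R316
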