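import Crest.Agent.R316.PF

/-! Row 316: linear functionals on polynomial families, grids. -/

set_option autoImplicit false

namespace Crest.Agent.R316

open Crest.Agent.PT Finset

variable {α β : Type} [Rp α] [Rp β]

namespace PFX

theorem sum_prod_dg_fin (B m : ℕ) (f : Fin m → ℕ → ℂ) :
    ∑ u ∈ range (B ^ m), ∏ k : Fin m, f k (dg B u k) = ∏ k : Fin m, ∑ j ∈ range B, f k j := by
  have := sum_dg B m fun s => ∏ k : Fin m, f k (s k)
  simp only [sum_range (n := B)]
  rw [this, Fintype.prod_sum]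

theorem pf_at {F : α → Pt → ℂ} {m B : α → ℕ} (hF : PF F) (hm : PU m) (hB : PTime B) :
    PF fun (p : α × ℕ) v => F p.1 (glue (m p.1) (dig (B p.1) p.2) v) := by
  have hY : PF fun (q : (α × ℕ) × Un) (_ : Pt) => (dg (B q.1.1) q.1.2 q.2.val : ℂ) :=
    PF.nat (by fun_prop)
  exact PF.glue (hF.comp (g := fun p : α × ℕ => p.1) PTime.fst') (hm.comp PTime.fst') hY pf_id

theorem sum_ite_lt {D E : ℕ} (h : D ≤ E) (f : ℕ → ℂ) :
    ∑ i ∈ range E, (if i < D then f i else 0) = ∑ i ∈ range D, f i := by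
  rw [← sum_filter]
  congr 1
  ext i
  simp only [mem_filter, mem_range]
  omega

end PFX

open PFX

/-- a product functional in the first `m` variables; `l (a, i, k)` is its value on `t ^ k` in
variable `i` -/
theorem PF.lin {F : α → Pt → ℂ} {m : α → ℕ} {l : α × ℕ × ℕ → ℚ} (hF : PF F) (hm : PU m)
    (hl : QC l) : ∃ G : α → Pt → ℂ, PF G ∧ ∀ a v (P : MvPolynomial (Fin (m a)) ℂ),
      (∀ y, F a (R316.glue (m a) (ext y) v) = MvPolynomial.eval y P) →
        G a v = ∑ e ∈ P.support, P.coeff e * ∏ i : Fin (m a), (l (a, i.val, e i) : ℂ) := by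
  obtain ⟨n, D, -, hD, hP⟩ := hF.isP
  have hw : QC fun q : α × ℕ × ℕ =>
      ∑ k ∈ range (D q.1 + 1), lagc (D q.1) q.2.2 k * l (q.1, q.2.1, k) := by
    have h1 : QC fun r : (α × ℕ × ℕ) × ℕ => lagc (D r.1.1) r.1.2.2 r.2 * l (r.1.1, r.1.2.1, r.2) :=
      (QC.lagc (by fun_prop) (by fun_prop) (by fun_prop)).mul
        (hl.comp (g := fun r : (α × ℕ × ℕ) × ℕ => (r.1.1, r.1.2.1, r.2)) (by fun_prop))
    exact h1.sum (N := fun q : α × ℕ × ℕ => D q.1 + 1) (by fun_prop)
  have hW : QC fun p : α × ℕ => ∏ i ∈ range (m p.1),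
      ∑ k ∈ range (D p.1 + 1), lagc (D p.1) (dg (D p.1 + 1) p.2 i) k * l (p.1, i, k) :=
    (hw.comp (g := fun r : (α × ℕ) × ℕ => (r.1.1, r.2, dg (D r.1.1 + 1) r.1.2 r.2))
      (by fun_prop)).prod (N := fun p : α × ℕ => m p.1) (hm.comp PTime.fst').ptime
  refine ⟨_, ((pf_at (B := fun a => D a + 1) hF hm (by fun_prop)).mul (PF.const hW)).sum
    (N := fun a => (D a + 1) ^ m a) (PTime.pow (by fun_prop) hm), fun a v P h => ?_⟩
  obtain ⟨P₀, -, hdeg, h₀⟩ := (hP a).exists_mv (m a) v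
  obtain rfl : P = P₀ := MvPolynomial.funext fun y => by rw [← h, h₀]
  dsimp only
  have h1 : ∀ u, F a (R316.glue (m a) (dig (D a + 1) u) v) =
      ∑ e ∈ P.support, P.coeff e * ∏ i : Fin (m a), (dg (D a + 1) u i : ℂ) ^ e i := fun u => by
    rw [← glue_ext, h, MvPolynomial.eval_eq']
    rfl
  simp only [h1, sum_mul]
  rw [sum_comm]
  refine sum_congr rfl fun e he => ?_
  push_cast
  simp only [mul_assoc, ← mul_sum, prod_range, ← prod_mul_distrib]
  congr 1
  rw [sum_prod_dg_fin (D a + 1) (m a) fun i j => (j : ℂ) ^ e i *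
    ∑ k ∈ range (D a + 1), (lagc (D a) j k : ℂ) * (l (a, i.val, k) : ℂ)]
  refine prod_congr rfl fun i _ => ?_
  have hi : e i ≤ D a := (MvPolynomial.monomial_le_degreeOf i he).trans (hdeg i)
  simp only [mul_sum]
  rw [sum_comm, sum_eq_single (e i)]
  · simp only [← mul_assoc, ← sum_mul]
    have := congrArg (Rat.cast : ℚ → ℂ) (sum_pow_lagc hi hi)
    push_cast at this
    rw [this, if_pos rfl, Rat.cast_one, one_mul]
  · intro k hk hne
    simp only [← mul_assoc, ← sum_mul]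
    have := congrArg (Rat.cast : ℚ → ℂ) (sum_pow_lagc hi (Nat.lt_succ_iff.1 (mem_range.1 hk)))
    push_cast at this
    rw [this, if_neg hne, Rat.cast_zero, zero_mul]
  · intro hk
    exact absurd (mem_range.2 (Nat.lt_succ_of_le hi)) hk

theorem PF.coef {F : α → Pt → ℂ} {m : α → ℕ} {e : α × ℕ → ℕ} (hF : PF F) (hm : PU m)
    (he : PTime e) : ∃ G : α → Pt → ℂ, PF G ∧ ∀ a v (P : MvPolynomial (Fin (m a)) ℂ),
      (∀ y, F a (R316.glue (m a) (ext y) v) = MvPolynomial.eval y P) →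
        G a v = P.coeff (Finsupp.equivFunOnFinite.symm fun i : Fin (m a) => e (a, i.val)) := by
  have hl : QC fun q : α × ℕ × ℕ => if q.2.2 = e (q.1, q.2.1) then (1 : ℚ) else 0 :=
    QC.ite (CH.pt (PTime.eq (by fun_prop)
      (he.comp (f := fun q : α × ℕ × ℕ => (q.1, q.2.1)) (by fun_prop)))) (QC.const 1) (QC.const 0)
  obtain ⟨G, hG, h⟩ := hF.lin hm hl
  refine ⟨G, hG, fun a v P hP => ?_⟩
  rw [h a v P hP, sum_eq_single (Finsupp.equivFunOnFinite.symm fun i : Fin (m a) => e (a, i.val))]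
  · simp
  · intro d _ hne
    obtain ⟨i, hi⟩ : ∃ i : Fin (m a), d i ≠ e (a, i.val) := by
      by_contra hc
      push Not at hc
      exact hne (Finsupp.ext fun i => by simpa using hc i)
    rw [prod_eq_zero (mem_univ i) (by simp [hi]), mul_zero]
  · intro hn
    rw [MvPolynomial.notMem_support_iff.1 hn, zero_mul]

theorem PF.expand1 {F : α → Pt → ℂ} (hF : PF F) :
    ∃ (D : α → ℕ) (C : α × ℕ → Pt → ℂ), PTime D ∧ PF C ∧
      ∀ a t v, F a (R316.cons t v) = ∑ k ∈ range (D a), C (a, k) v * t ^ k := by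
  obtain ⟨n, D, -, hD, hP⟩ := hF.isP
  have h1 : PF fun (r : (α × ℕ) × ℕ) v =>
      F r.1.1 (R316.cons (r.2 : ℂ) v) * (lagc (D r.1.1) r.2 r.1.2 : ℂ) :=
    ((hF.comp (g := fun r : (α × ℕ) × ℕ => r.1.1) (by fun_prop)).cons (PF.nat PTime.snd')).mul
      (PF.const (QC.lagc (by fun_prop) (by fun_prop) (by fun_prop)))
  refine ⟨fun a => D a + 1, _, by fun_prop, h1.sum (N := fun p : α × ℕ => D p.1 + 1) (by fun_prop),
    fun a t v => ?_⟩
  obtain ⟨p, hp, hf⟩ := (hP a).2 0 (R316.cons t v)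
  simp only [Interp.cons_update_zero] at hf
  simp only [hf, sum_mul]
  rw [interp1 p hp t, sum_comm]
  refine sum_congr rfl fun j hj => ?_
  rw [lag_eq (Nat.lt_succ_iff.1 (mem_range.1 hj)), mul_sum]
  exact sum_congr rfl fun k _ => (mul_assoc _ _ _).symm

/-- a single coefficient in the first variable -/
theorem PF.coef1 {F : α → Pt → ℂ} {k : α → ℕ} (hF : PF F) (hk : PTime k) :
    ∃ G : α → Pt → ℂ, PF G ∧ ∀ a v (p : Polynomial ℂ),
      (∀ t, F a (R316.cons t v) = p.eval t) → G a v = p.coeff (k a) := by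
  obtain ⟨D, C, hD, hC, h⟩ := hF.expand1
  refine ⟨fun a v => if k a < D a then C (a, k a) v else 0, PF.ite (CH.pt (hk.lt hD))
    (hC.comp (g := fun a => (a, k a)) (by fun_prop)) PF.zero, fun a v p hp => ?_⟩
  have h1 : p = ∑ j ∈ range (D a), Polynomial.monomial j (C (a, j) v) :=
    Polynomial.funext fun t => by
      rw [← hp, h, Polynomial.eval_finsetSum]
      simp
  rw [h1]
  simp [Polynomial.coeff_monomial]

theorem PF.expand2 {F : α → Pt → ℂ} (hF : PF F) :
    ∃ (D : α → ℕ) (C : α × ℕ × ℕ → Pt → ℂ), PTime D ∧ PF C ∧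
      ∀ a T κ v, F a (R316.cons T (R316.cons κ v)) =
        ∑ i ∈ range (D a), ∑ j ∈ range (D a), C (a, i, j) v * κ ^ i * T ^ j := by
  obtain ⟨D, C, hD, hC, h⟩ := hF.expand1
  obtain ⟨D', C', hD', hC', h'⟩ := hC.expand1
  obtain ⟨g, hg, hle⟩ := pt_bdd hD' hD
  refine ⟨fun a => D a + g a, fun q v => if q.2.2 < D q.1 ∧ q.2.1 < D' (q.1, q.2.2) then
    C' ((q.1, q.2.2), q.2.1) v else 0, hD.add hg, PF.ite (CH.pt (PTime.and (by fun_prop)
      (PTime.lt (by fun_prop) (hD'.comp (f := fun q : α × ℕ × ℕ => (q.1, q.2.2)) (by fun_prop)))))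
    (hC'.comp (g := fun q : α × ℕ × ℕ => ((q.1, q.2.2), q.2.1)) (by fun_prop)) PF.zero,
    fun a T κ v => ?_⟩
  rw [h, sum_comm, ← sum_ite_lt (Nat.le_add_right (D a) (g a))]
  refine sum_congr rfl fun j _ => ?_
  dsimp only
  split_ifs with hj
  · rw [h', sum_mul, ← sum_ite_lt ((hle a j hj.le).trans (Nat.le_add_left (g a) (D a)))]
    refine sum_congr rfl fun i _ => ?_
    simp only [hj, true_and]
    split_ifs <;> simp
  · simp [hj]

theorem PF.deriv {F : α → Pt → ℂ} {l : α → ℕ} (hF : PF F) (hl : PU l) :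
    PF fun a v => deriv (fun t => F a (Function.update v (l a) t)) (v (l a)) := by
  have hG : PF fun (q : α × Un) (v : Pt) => if q.2.val = l q.1 then v 0 else v (q.2.val + 1) :=
    PF.ite (CH.pt (PTime.eq (by fun_prop) (hl.comp PTime.fst').ptime))
      (PF.var (k := fun _ => 0) (PU.const 0))
      (PF.var (k := fun q : α × Un => q.2.val + 1) (by fun_prop))
  obtain ⟨D, C, hD, hC, h⟩ := (hF.bind hG).expand1
  have h1 : PF fun (p : α × ℕ) v => C p v * ((p.2 : ℂ) * v (l p.1) ^ (p.2 - 1)) :=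
    hC.mul ((PF.nat PTime.snd').mul ((PF.var (hl.comp PTime.fst')).pow (by fun_prop)))
  refine (h1.sum hD).congr fun a v => ?_
  have h2 : (fun t => F a (Function.update v (l a) t)) =
      fun t => ∑ k ∈ range (D a), C (a, k) v * t ^ k := by
    funext t
    rw [← h]
    congr 1
    funext j
    simp [Function.update_apply]
  rw [h2]
  exact (HasDerivAt.fun_sum fun k _ => (hasDerivAt_pow k (v (l a))).const_mul (C (a, k) v)).deriv

theorem GF.fam {D m : α → ℕ} {z : α → ℕ → ℂ} (hG : GF D z) (hm : PU m) :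
    Fam m (fun a => D a ^ m a) fun a _ u k => z a (dg (D a) u k) := by
  obtain ⟨hD, X, hX, h⟩ := hG
  refine ⟨hm, hD.pow hm, fun β _ g _ F hg _ hF => ?_⟩
  obtain ⟨G, hG, h'⟩ := hF.lin (m := fun b => m (g b)) (hm.comp hg)
    (hX.comp (g := fun q : β × ℕ × ℕ => (g q.1, q.2.2)) (by fun_prop))
  refine hG.congr fun b v => ?_
  obtain ⟨n, D', -, -, hP⟩ := hF.isP
  obtain ⟨P, -, -, h₀⟩ := (hP b).exists_mv (m (g b)) v
  rw [h' b v P h₀]
  have h1 : ∀ u, F b (R316.glue (m (g b)) (fun k => z (g b) (dg (D (g b)) u k)) v) =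
      ∑ e ∈ P.support, P.coeff e * ∏ i : Fin (m (g b)), z (g b) (dg (D (g b)) u i) ^ e i :=
    fun u => by rw [← glue_ext, h₀, MvPolynomial.eval_eq']
  simp only [h1, h]
  rw [sum_comm]
  refine sum_congr rfl fun e _ => ?_
  rw [← mul_sum, sum_prod_dg_fin (D (g b)) (m (g b)) fun i j => z (g b) j ^ e i]

theorem GF.ofFam {M : α → ℕ} {ξ : α → Pt → ℕ → Pt} (h : Fam (fun _ => 1) M ξ) :
    GF M fun a i => ξ a 0 i 0 := by
  obtain ⟨-, hM, h⟩ := h
  have h1 : PF fun (p : α × ℕ) (v : Pt) => v 0 ^ p.2 :=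
    (PF.var (k := fun _ => 0) (PU.const 0)).pow PTime.snd'
  obtain ⟨X, hX, h2⟩ := (h (α × ℕ) Prod.fst _ _ PTime.fst' PF.zero h1).val
  exact ⟨hM, X, hX, fun a k => h2 (a, k)⟩

theorem GF.comp {D : β → ℕ} {z : β → ℕ → ℂ} {g : α → β} (h : GF D z) (hg : PTime g) :
    GF (fun a => D (g a)) fun a => z (g a) := by
  obtain ⟨hD, X, hX, h⟩ := h
  exact ⟨hD.comp hg, fun p => X (g p.1, p.2),
    hX.comp (g := fun p : α × ℕ => (g p.1, p.2)) (by fun_prop), fun a k => h _ _⟩

theorem GF.union {D D' : α → ℕ} {z z' : α → ℕ → ℂ} (h : GF D z) (h' : GF D' z') :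
    GF (fun a => D a + D' a) fun a i => if i < D a then z a i else z' a (i - D a) := by
  obtain ⟨hD, X, hX, h⟩ := h
  obtain ⟨hD', X', hX', h'⟩ := h'
  refine ⟨hD.add hD', fun p => X p + X' p, hX.add hX', fun a k => ?_⟩
  push_cast
  rw [h, h', sum_range_add]
  congr 1
  · exact sum_congr rfl fun i hi => by rw [if_pos (mem_range.1 hi)]
  · exact sum_congr rfl fun i _ => by rw [if_neg (by omega), Nat.add_sub_cancel_left]

theorem inG_union {D D' : ℕ} {z z' : ℕ → ℂ} {t : ℂ} :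
    InG (D + D') (fun i => if i < D then z i else z' (i - D)) t ↔ InG D z t ∨ InG D' z' t := by
  constructor
  · rintro ⟨i, hi, rfl⟩
    dsimp only
    split_ifs with h
    · exact Or.inl ⟨i, h, rfl⟩
    · exact Or.inr ⟨i - D, by omega, rfl⟩
  · rintro (⟨i, hi, rfl⟩ | ⟨i, hi, rfl⟩)
    · exact ⟨i, by omega, by simp only [if_pos hi]⟩
    · exact ⟨D + i, by omega, by simp⟩

theorem gf_zero : GF (fun _ : α => 1) fun _ _ => 0 :=
  ⟨PTime.const 1, fun p => 0 ^ p.2, (QC.const 0).pow PTime.snd', fun a k => by simp⟩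

theorem gf_ii : GF (fun _ : α => 2) fun _ i => if i = 0 then Complex.I else -Complex.I := by
  refine ⟨PTime.const 2, fun p => if p.2 % 2 = 0 then 2 * (-1) ^ (p.2 / 2) else 0,
    QC.ite (CH.pt (by fun_prop)) ((QC.const 2).mul ((QC.const (-1)).pow (by fun_prop)))
      (QC.const 0), fun a k => ?_⟩
  obtain ⟨j, rfl | rfl⟩ := Nat.even_or_odd' k
  · simp [pow_mul]
  · have h1 : (2 * j + 1) % 2 ≠ 0 := by omega
    simp [sum_range_succ, pow_succ, pow_mul]

theorem GF.conj {D : α → ℕ} {z : α → ℕ → ℂ} (h : GF D z) (a : α) (φ : ℂ → Prop) :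
    (cnt (D a) fun j => φ ((starRingEnd ℂ) (z a j))) = cnt (D a) fun j => φ (z a j) := by
  classical
  obtain ⟨-, X, -, h⟩ := h
  let S : Finset ℂ := (range (D a)).image (z a) ∪
    (range (D a)).image fun j => (starRingEnd ℂ) (z a j)
  let p : Polynomial ℂ := Lagrange.interpolate S id fun t => if φ t then 1 else 0
  have hp : ∀ t ∈ S, p.eval t = if φ t then 1 else 0 := fun t ht =>
    Lagrange.eval_interpolate_at_node (v := id) _ (Function.injective_id.injOn) ht
  have h1 : ∀ k, ∑ j ∈ range (D a), (starRingEnd ℂ) (z a j) ^ k = ∑ j ∈ range (D a), z a j ^ k :=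
    fun k => by
      simp only [← map_pow]
      rw [← map_sum, ← h, map_ratCast]
  have h2 : ∑ j ∈ range (D a), p.eval ((starRingEnd ℂ) (z a j)) =
      ∑ j ∈ range (D a), p.eval (z a j) := by
    simp only [Polynomial.eval_eq_sum_range]
    rw [sum_comm, sum_comm (s := range (D a))]
    refine sum_congr rfl fun k _ => ?_
    rw [← mul_sum, ← mul_sum, h1]
  apply Nat.cast_injective (R := ℂ)
  rw [cnt_cast, cnt_cast]
  refine Eq.trans (sum_congr rfl fun j hj => ?_) (h2.trans (sum_congr rfl fun j hj => ?_))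
  · rw [hp _ (mem_union_right _ (mem_image_of_mem _ hj))]
  · rw [hp _ (mem_union_left _ (mem_image_of_mem _ hj))]

/-- grid points are exactly the digit points -/
theorem onG_iff {D m : ℕ} {z : ℕ → ℂ} {v : Pt} :
    OnG D z m v ↔ ∃ u < D ^ m, ∀ k < m, v k = z (dg D u k) := by
  constructor
  · intro h
    choose! s hs hv using h
    obtain ⟨u, hu, h⟩ := exists_dg s hs
    exact ⟨u, hu, fun k hk => by rw [h k hk, hv k hk]⟩
  · rintro ⟨u, hu, h⟩ k hk
    exact ⟨_, dg_lt_of_lt hu hk, h k hk⟩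

end Crest.Agent.R316
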