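import Crest.Agent.R316.Defs

/-! Row 316: polynomial-time tools. -/

set_option autoImplicit false

namespace Crest.Agent.R316

open Crest.Agent.PT Finset

variable {α β : Type} [Rp α] [Rp β]

namespace PTB

theorem pu_sz : PU fun a : α => PT.sz a := by
  classical
  have key : ∀ S : Finset (Rp.I α), PU fun a : α => ∑ i ∈ S, (Rp.w a i).length := by
    intro S
    induction S using Finset.induction_on with
    | empty => simpa using PU.const 0
    | insert i S hi ih =>
      simp only [sum_insert hi]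
      exact (PU.length (PTime.word_iff.2 (PTw.var i))).add ih
  exact key univ

theorem pu_eval (q : Polynomial ℕ) {n : α → ℕ} (hn : PU n) : PU fun a => q.eval (n a) := by
  induction q using Polynomial.induction_on' with
  | add p q hp hq => simpa only [Polynomial.eval_add] using hp.add hq
  | monomial k c =>
      simp only [Polynomial.eval_monomial]
      exact (PU.const c).mul (hn.pow_const k)

theorem pb_bdd {f : α × ℕ → ℕ} {N : α → ℕ} (hf : PB f) (hN : PTime N) :
    ∃ g : α → ℕ, PU g ∧ ∀ a u, u ≤ N a → f (a, u) ≤ g a := by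
  obtain ⟨q, hq⟩ := hf
  refine ⟨fun a => q.eval (PT.sz a + (N a).size), pu_eval q (pu_sz.add (PU.size hN)),
    fun a u hu => (hq _).trans (eval_mono q ?_)⟩
  rw [sz_prod, sz_nat]
  exact Nat.add_le_add_left (Nat.size_le_size hu) _

theorem pb_bddU {f : α × Un → ℕ} {n : α → ℕ} (hf : PB f) (hn : PU n) :
    ∃ g : α → ℕ, PU g ∧ ∀ a u, u ≤ n a → f (a, ⟨u⟩) ≤ g a := by
  obtain ⟨q, hq⟩ := hf
  refine ⟨fun a => q.eval (PT.sz a + n a), pu_eval q (pu_sz.add hn),
    fun a u hu => (hq _).trans (eval_mono q ?_)⟩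
  rw [sz_prod, sz_un]
  exact Nat.add_le_add_left hu _

theorem dg_zero {B c u : ℕ} (hc : c < B) : dg B (u * B + c) 0 = c := by
  rw [dg, pow_zero, Nat.div_one, add_comm, Nat.add_mul_mod_self_right, Nat.mod_eq_of_lt hc]

theorem dg_succ {B c u : ℕ} (hc : c < B) (i : ℕ) : dg B (u * B + c) (i + 1) = dg B u i := by
  rw [dg, dg, pow_succ', ← Nat.div_div_eq_div_mul, add_comm,
    Nat.add_mul_div_right _ _ (by omega), Nat.div_eq_of_lt hc, zero_add]

theorem sum_range_mul {M : Type} [AddCommMonoid M] (m n : ℕ) (f : ℕ → M) :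
    ∑ w ∈ range (m * n), f w = ∑ u ∈ range m, ∑ c ∈ range n, f (u * n + c) := by
  induction m with
  | zero => simp
  | succ m ih => rw [add_mul, one_mul, sum_range_add, ih, sum_range_succ]

end PTB

open PTB

theorem pt_bdd {f : α × ℕ → ℕ} {N : α → ℕ} (hf : PTime f) (hN : PTime N) :
    ∃ g : α → ℕ, PTime g ∧ ∀ a u, u ≤ N a → f (a, u) ≤ g a := by
  obtain ⟨g, hg, h⟩ := pb_bdd hf.sz hN
  exact ⟨fun a => 2 ^ g a, (PTime.const 2).pow hg, fun a u hu => (sz_nat_le.1 (h a u hu)).le⟩

theorem pu_bdd {f : α × ℕ → ℕ} {N : α → ℕ} (hf : PU f) (hN : PTime N) :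
    ∃ g : α → ℕ, PU g ∧ ∀ a u, u ≤ N a → f (a, u) ≤ g a := by
  exact pb_bdd hf.pb hN

theorem pt_bddU {f : α × Un → ℕ} {n : α → ℕ} (hf : PTime f) (hn : PU n) :
    ∃ g : α → ℕ, PTime g ∧ ∀ a u, u ≤ n a → f (a, ⟨u⟩) ≤ g a := by
  obtain ⟨g, hg, h⟩ := pb_bddU hf.sz hn
  exact ⟨fun a => 2 ^ g a, (PTime.const 2).pow hg, fun a u hu => (sz_nat_le.1 (h a u hu)).le⟩

theorem pu_bddU {f : α × Un → ℕ} {n : α → ℕ} (hf : PU f) (hn : PU n) :
    ∃ g : α → ℕ, PU g ∧ ∀ a u, u ≤ n a → f (a, ⟨u⟩) ≤ g a := by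
  exact pb_bddU hf.pb hn

@[fun_prop] theorem pt_dg {B u i : α → ℕ} (hB : PTime B) (hu : PTime u) (hi : PTime i) :
    PTime fun a => dg (B a) (u a) (i a) := by
  have h1 : PTime fun a => B a ^ min (i a) ((u a).size + 1) :=
    hB.pow (PU.min_right hi ((PU.size hu).add (PU.const 1)))
  refine ((hu.div h1).mod hB).congr fun a => ?_
  rw [dg]
  rcases le_total (i a) ((u a).size + 1) with h | h
  · rw [min_eq_left h]
  · rw [min_eq_right h]
    rcases Nat.lt_or_ge (B a) 2 with h2 | h2
    · interval_cases B a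
      · rw [zero_pow (by omega), zero_pow (by omega)]
      · simp
    · have h3 : u a < B a ^ ((u a).size + 1) :=
        (Nat.lt_size_self _).trans_le ((Nat.pow_le_pow_left h2 _).trans
          (Nat.pow_le_pow_right (by omega) (by omega)))
      rw [Nat.div_eq_of_lt h3, Nat.div_eq_of_lt (h3.trans_le (Nat.pow_le_pow_right (by omega) h))]

theorem pt_powMod {g e p : α → ℕ} (hg : PTime g) (he : PTime e) (hp : PTime p) :
    PTime fun a => if p a = 0 then 0 else g a ^ e a % p a := by
  have := PTime.loop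
    (fun a k => if p a = 0 then 0 else g a ^ PT.shr (e a) ((e a).size - k) % p a)
    (fun a s k => if (PT.shr (e a) ((e a).size - (k + 1))).bodd = true then s * s * g a % p a
      else s * s % p a) (PU.size he)
    (PTime.congr (f := fun a => if p a = 0 then 0 else 1 % p a) (by fun_prop)
      fun a => by simp [shr_size]) (by fun_prop)
    (fun a k hk => by
      rw [shr_hi (e a) hk]
      simp only [bodd_iff]
      generalize PT.shr (e a) _ = u
      have := Nat.div_add_mod u 2
      have h1 := (Nat.mod_modEq (g a ^ (u / 2)) (p a)).mul (Nat.mod_modEq (g a ^ (u / 2)) (p a))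
      split_ifs with h0 h h
      · simp
      · simp
      · rw [h1.mul_right (g a), ← pow_add, ← pow_succ]
        congr 2; omega
      · rw [h1, ← pow_add]
        congr 2; omega)
    hp.sz
    (fun a k _ => sz_nat_mono (by
      split_ifs with h
      · exact Nat.zero_le _
      · exact (Nat.mod_lt _ (Nat.pos_of_ne_zero h)).le))
  simpa using this

/-- a binary index below a unary bound is unary -/
theorem pt_un {n : α → ℕ} (hn : PU n) : PTime fun p : α × ℕ => (p.1, Un.mk (min p.2 (n p.1))) := by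
  exact PTime.pair PTime.fst' (PU.min_right PTime.snd' (hn.comp PTime.fst'))

theorem cnt_le (N : ℕ) (B : ℕ → Prop) : cnt N B ≤ N := by
  classical
  exact (card_filter_le _ _).trans (card_range N).le

theorem cnt_congr {N : ℕ} {B B' : ℕ → Prop} (h : ∀ u < N, B u ↔ B' u) : cnt N B = cnt N B' := by
  classical
  unfold cnt
  congr 1
  ext u
  simp only [mem_filter, mem_range]
  exact and_congr_right (h u)

theorem cnt_pos {N : ℕ} {B : ℕ → Prop} : 0 < cnt N B ↔ ∃ u < N, B u := by
  classical
  simp [cnt, card_pos, Finset.Nonempty]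

theorem cnt_add_not (N : ℕ) (B : ℕ → Prop) : cnt N B + cnt N (fun u => ¬ B u) = N := by
  classical
  have := card_filter_add_card_filter_not (s := range N) B
  rw [card_range] at this
  unfold cnt
  convert this

theorem cnt_add (M N : ℕ) (B : ℕ → Prop) :
    cnt (M + N) B = cnt M B + cnt N fun u => B (M + u) := by
  classical
  simp only [cnt, card_filter, sum_range_add]

theorem cnt_mul (M N : ℕ) (B : ℕ → ℕ → Prop) :
    cnt (M * N) (fun w => B (w / N) (w % N)) = ∑ u ∈ range M, cnt N (B u) := by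
  classical
  simp only [cnt, card_filter, sum_range_mul]
  refine sum_congr rfl fun u _ => sum_congr rfl fun c hc => ?_
  have hc := mem_range.1 hc
  refine if_congr ?_ rfl rfl
  rw [add_comm, Nat.add_mul_div_right _ _ (by omega), Nat.div_eq_of_lt hc, zero_add,
    Nat.add_mul_mod_self_right, Nat.mod_eq_of_lt hc]

theorem cnt_lt (N t : ℕ) : cnt N (fun u => u < t) = min N t := by
  classical
  rw [← card_range (min N t), cnt]
  congr 1
  ext u
  simp

open Classical in
theorem cnt_cast (N : ℕ) (B : ℕ → Prop) :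
    (cnt N B : ℂ) = ∑ u ∈ range N, if B u then 1 else 0 := by
  rw [cnt, sum_boole]

theorem dg_lt {B : ℕ} (hB : 0 < B) (u i : ℕ) : dg B u i < B := Nat.mod_lt _ hB

theorem exists_dg {B m : ℕ} (s : ℕ → ℕ) (hs : ∀ k < m, s k < B) :
    ∃ u < B ^ m, ∀ k < m, dg B u k = s k := by
  induction m generalizing s with
  | zero => exact ⟨0, by simp, by simp⟩
  | succ m ih =>
    obtain ⟨u, h1, h2⟩ := ih (fun i => s (i + 1)) fun i hi => hs _ (by omega)
    have h0 := hs 0 (by omega)
    refine ⟨u * B + s 0, by rw [pow_succ]; nlinarith, fun i hi => ?_⟩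
    cases i with
    | zero => exact dg_zero h0
    | succ i => rw [dg_succ h0, h2 i (by omega)]

theorem dg_lt_of_lt {B m u k : ℕ} (hu : u < B ^ m) (hk : k < m) : dg B u k < B := by
  refine dg_lt (Nat.pos_of_ne_zero ?_) _ _
  rintro rfl
  rw [zero_pow (by omega)] at hu
  omega

/-- sums over digit vectors -/
theorem sum_dg {M : Type} [AddCommMonoid M] (B m : ℕ) (f : (Fin m → ℕ) → M) :
    ∑ u ∈ range (B ^ m), f (fun k => dg B u k) = ∑ s : Fin m → Fin B, f fun k => (s k).val := by
  rw [sum_range, ← finFunctionFinEquiv.sum_comp]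
  refine sum_congr rfl fun s _ => congrArg f (funext fun k => ?_)
  conv_rhs => rw [← finFunctionFinEquiv.symm_apply_apply s, finFunctionFinEquiv_symm_apply_val]
  rfl

theorem sum_prod_dg {R : Type} [CommSemiring R] (B m : ℕ) (f : ℕ → ℕ → R) :
    ∑ u ∈ range (B ^ m), ∏ k ∈ range m, f k (dg B u k) = ∏ k ∈ range m, ∑ j ∈ range B, f k j := by
  have := sum_dg B m fun s => ∏ k : Fin m, f k (s k)
  simp only [prod_range, sum_range (n := B)]
  rw [this, Fintype.prod_sum]

end Crest.Agent.R316
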