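import Crest.Agent.R316.Defs

/-! Row 316: the trace formula for the systems `X k ^ d = g k`. -/

set_option autoImplicit false

namespace Crest.Agent.R316

open Finset Filter Topology

namespace PhamA

open MvPolynomial

section Bd
variable {n : ℕ} {A : Type} [CommRing A]

/-- all monomials have degree `< e` -/
def Bd (e : ℕ) (p : MvPolynomial (Fin n) A) : Prop :=
  ∀ m : Fin n →₀ ℕ, e ≤ m.degree → coeff m p = 0

theorem Bd.mono {e e' : ℕ} {p : MvPolynomial (Fin n) A} (h : Bd e p) (he : e ≤ e') : Bd e' p :=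
  fun m hm => h m (he.trans hm)

theorem Bd.zero (e : ℕ) : Bd e (0 : MvPolynomial (Fin n) A) := fun _ _ => rfl

theorem Bd.add {e : ℕ} {p q : MvPolynomial (Fin n) A} (h : Bd e p) (h' : Bd e q) : Bd e (p + q) :=
  fun m hm => by rw [coeff_add, h m hm, h' m hm, add_zero]

theorem Bd.neg {e : ℕ} {p : MvPolynomial (Fin n) A} (h : Bd e p) : Bd e (-p) :=
  fun m hm => by rw [coeff_neg, h m hm, neg_zero]

theorem Bd.sub {e : ℕ} {p q : MvPolynomial (Fin n) A} (h : Bd e p) (h' : Bd e q) : Bd e (p - q) :=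
  fun m hm => by rw [coeff_sub, h m hm, h' m hm, sub_zero]

theorem Bd.sum {ι : Type} {e : ℕ} {s : Finset ι} {p : ι → MvPolynomial (Fin n) A}
    (h : ∀ i ∈ s, Bd e (p i)) : Bd e (∑ i ∈ s, p i) :=
  fun m hm => by rw [coeff_sum]; exact sum_eq_zero fun i hi => h i hi m hm

theorem Bd.mul {e e' : ℕ} {p q : MvPolynomial (Fin n) A} (h : Bd e p) (h' : Bd (e' + 1) q) :
    Bd (e + e') (p * q) := by
  intro m hm
  rw [coeff_mul]
  refine sum_eq_zero fun x hx => ?_
  have := congrArg Finsupp.degree (mem_antidiagonal.1 hx)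
  rw [map_add] at this
  by_cases h1 : e ≤ x.1.degree
  · rw [h _ h1, zero_mul]
  · rw [h' _ (by omega), mul_zero]

theorem Bd.monomial {e : ℕ} {m : Fin n →₀ ℕ} (hm : m.degree < e) (a : A) :
    Bd e (monomial m a) := by
  intro m' hm'
  rw [coeff_monomial, if_neg]
  rintro rfl
  omega

theorem Bd.C (a : A) : Bd 1 (C a : MvPolynomial (Fin n) A) := Bd.monomial (by simp) a

theorem Bd.X_pow (k : Fin n) (a : ℕ) : Bd (a + 1) (X k ^ a : MvPolynomial (Fin n) A) := by
  rw [X_pow_eq_monomial]
  exact Bd.monomial (by simp) _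

theorem Bd.of_deg {e : ℕ} {p : MvPolynomial (Fin n) A} (h : p.totalDegree < e) : Bd e p := by
  intro m hm
  by_contra h0
  have : m.degree ≤ p.totalDegree := le_totalDegree (mem_support_iff.2 h0)
  omega

theorem Bd.pderiv {e : ℕ} {p : MvPolynomial (Fin n) A} (h : Bd (e + 1) p) (j : Fin n) :
    Bd e (pderiv j p) := by
  intro m hm
  rw [coeff_pderiv, h _ (by simpa using hm), zero_mul]

theorem Bd.prod {ι : Type} (s : Finset ι) {e : ι → ℕ} {p : ι → MvPolynomial (Fin n) A}
    (h : ∀ i, Bd (e i + 1) (p i)) : Bd (∑ i ∈ s, e i + 1) (∏ i ∈ s, p i) := by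
  classical
  induction s using Finset.induction_on with
  | empty => simpa using Bd.C (n := n) (1 : A)
  | insert i s hi ih =>
      rw [prod_insert hi, sum_insert hi]
      exact ((h i).mul ih).mono (by omega)

theorem Bd.pow {e : ℕ} {p : MvPolynomial (Fin n) A} (h : Bd (e + 1) p) (a : ℕ) :
    Bd (a * e + 1) (p ^ a) := by
  simpa using Bd.prod (range a) (e := fun _ => e) (p := fun _ => p) fun _ => h

theorem Bd.prod_sub {ι : Type} (s : Finset ι) {e : ℕ} {p q : ι → MvPolynomial (Fin n) A}
    (hq : ∀ i, Bd (e + 1) (q i)) (h : ∀ i, Bd e (p i - q i)) :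
    Bd (s.card * e) (∏ i ∈ s, p i - ∏ i ∈ s, q i) := by
  classical
  induction s using Finset.induction_on with
  | empty => simpa using Bd.zero 0
  | insert i s hi ih =>
      rw [prod_insert hi, prod_insert hi, card_insert_of_notMem hi]
      have hp : Bd (e + 1) (p i) := by
        simpa using ((h i).mono (Nat.le_succ e)).add (hq i)
      have h1 := ih.mul hp
      have h2 := (h i).mul (Bd.prod s (e := fun _ => e) hq)
      rw [sum_const, smul_eq_mul] at h2
      have h3 := (h1.mono (e' := (s.card + 1) * e) (by rw [add_mul]; omega)).add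
        (h2.mono (by rw [add_mul]; omega))
      convert h3 using 1
      ring

/-- the exponent vectors of the residue -/
noncomputable def ex (e : ℕ) (κ : Fin n → ℕ) : Fin n →₀ ℕ :=
  Finsupp.equivFunOnFinite.symm fun k => κ k * (e + 1) + e

theorem ex_apply (e : ℕ) (κ : Fin n → ℕ) (k : Fin n) : ex e κ k = κ k * (e + 1) + e := rfl

theorem degree_ex (e : ℕ) (κ : Fin n → ℕ) :
    (ex e κ).degree = (∑ k, κ k) * e + ∑ k, κ k + n * e := by
  simp only [Finsupp.degree_eq_sum, ex_apply, sum_add_distrib, mul_add, mul_one, sum_mul]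
  simp

theorem det_top {e : ℕ} (c : A) (M : Matrix (Fin n) (Fin n) (MvPolynomial (Fin n) A))
    (hM : ∀ k j, Bd e (M k j - if k = j then C c * X k ^ e else 0)) :
    Bd (n * e + 1) M.det ∧ coeff (ex e 0) M.det = c ^ n := by
  set D : Matrix (Fin n) (Fin n) (MvPolynomial (Fin n) A) :=
    Matrix.diagonal fun k => C c * X k ^ e with hD
  have hD1 : ∀ k j, Bd (e + 1) (D k j) := by
    intro k j
    rw [hD, Matrix.diagonal_apply]
    split_ifs
    · exact ((Bd.C c).mul (Bd.X_pow k e)).mono (by omega)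
    · exact Bd.zero _
  have h1 : Bd (n * e) (M.det - D.det) := by
    rw [Matrix.det_apply', Matrix.det_apply', ← sum_sub_distrib]
    refine Bd.sum fun σ _ => ?_
    rw [← mul_sub, mul_comm (_ : MvPolynomial (Fin n) A)]
    have := Bd.prod_sub univ (p := fun i => M (σ i) i) (q := fun i => D (σ i) i)
      (fun i => hD1 _ _) (fun i => hM _ _)
    rw [card_univ, Fintype.card_fin] at this
    exact this.mul (e' := 0) (by simpa using Bd.C (n := n) ((Equiv.Perm.sign σ : ℤ) : A))
  have h2 : D.det = monomial (ex e 0) (c ^ n) := by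
    rw [hD, Matrix.det_diagonal, prod_mul_distrib, prod_const, card_univ, Fintype.card_fin,
      ← map_pow, monomial_eq, Finsupp.prod_fintype _ _ (by simp)]
    simp [ex_apply]
  have h3 : M.det = (M.det - D.det) + monomial (ex e 0) (c ^ n) := by rw [← h2]; ring
  have h4 : (ex e (0 : Fin n → ℕ)).degree = n * e := by simp [degree_ex]
  constructor
  · rw [h3]
    exact (h1.mono (Nat.le_succ _)).add (Bd.monomial (by omega) _)
  · rw [h3, coeff_add, h1 _ h4.ge, coeff_monomial, if_pos rfl, zero_add]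

end Bd

section Rho
variable {n e : ℕ} (g : Fin n → MvPolynomial (Fin n) ℂ)

/-- one term of the residue -/
noncomputable def T (e : ℕ) (κ : Fin n → ℕ) (u : MvPolynomial (Fin n) ℂ) : ℂ :=
  coeff (ex e κ) (u * ∏ k, g k ^ κ k)

variable {g}

theorem T_eq_zero (hg : ∀ k, Bd (e + 1) (g k)) {D : ℕ} {u : MvPolynomial (Fin n) ℂ} (hu : Bd D u)
    {κ : Fin n → ℕ} (hκ : D ≤ ∑ k, κ k + n * e) : T g e κ u = 0 := by
  refine hu.mul (Bd.prod univ (e := fun k => κ k * e) fun k => (hg k).pow _) _ ?_
  rw [degree_ex, ← sum_mul]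
  omega

theorem T_fin (hg : ∀ k, Bd (e + 1) (g k)) (u : MvPolynomial (Fin n) ℂ) :
    (Function.support fun κ => T g e κ u).Finite := by
  refine (Fintype.piFinset fun _ : Fin n => range (u.totalDegree + 1)).finite_toSet.subset ?_
  intro κ hκ
  rw [mem_coe, Fintype.mem_piFinset]
  intro k
  rw [mem_range]
  by_contra h
  refine hκ (T_eq_zero hg (Bd.of_deg (Nat.lt_succ_self _)) ?_)
  have := single_le_sum (f := κ) (fun _ _ => Nat.zero_le _) (mem_univ k)
  omega

/-- the global residue -/
noncomputable def rho (hg : ∀ k, Bd (e + 1) (g k)) : MvPolynomial (Fin n) ℂ →ₗ[ℂ] ℂ where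
  toFun u := ∑ᶠ κ, T g e κ u
  map_add' u v := by
    rw [← finsum_add_distrib (T_fin hg u) (T_fin hg v)]
    simp only [T, add_mul, coeff_add]
  map_smul' a u := by
    rw [RingHom.id_apply, smul_finsum' a (T_fin hg u)]
    simp only [T, smul_mul_assoc, coeff_smul]

theorem rho_apply (hg : ∀ k, Bd (e + 1) (g k)) (u : MvPolynomial (Fin n) ℂ) :
    rho hg u = ∑ᶠ κ, T g e κ u := rfl

theorem rho_low (hg : ∀ k, Bd (e + 1) (g k)) {u : MvPolynomial (Fin n) ℂ}
    (hu : Bd (n * e + 1) u) : rho hg u = coeff (ex e 0) u := by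
  rw [rho_apply, finsum_eq_single _ 0]
  · simp [T]
  · intro κ hκ
    refine T_eq_zero hg hu ?_
    obtain ⟨k, hk⟩ := Function.ne_iff.1 hκ
    have := single_le_sum (f := κ) (fun _ _ => Nat.zero_le _) (mem_univ k)
    have hk : κ k ≠ 0 := hk
    omega

theorem rho_F (hg : ∀ k, Bd (e + 1) (g k)) (u : MvPolynomial (Fin n) ℂ) (k : Fin n) :
    rho hg (u * (X k ^ (e + 1) - g k)) = 0 := by
  rw [mul_sub, map_sub, sub_eq_zero, rho_apply, rho_apply]
  have hinj : Function.Injective fun κ : Fin n → ℕ => κ + Pi.single k 1 :=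
    add_left_injective _
  have h1 : ∀ κ : Fin n → ℕ,
      T g e κ (u * g k) = T g e (κ + Pi.single k 1) (u * X k ^ (e + 1)) := by
    intro κ
    have e1 : ex e (κ + Pi.single k 1) = ex e κ + Finsupp.single k (e + 1) := by
      ext j
      by_cases hj : j = k
      · subst hj; simp [ex_apply]; ring
      · simp [ex_apply, hj]
    have e2 : ∏ j, g j ^ (κ + Pi.single k 1 : Fin n → ℕ) j = g k * ∏ j, g j ^ κ j := by
      simp only [Pi.add_apply, pow_add, prod_mul_distrib]
      rw [mul_comm, Finset.prod_eq_single k (fun j _ hj => by simp [hj]) (by simp)]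
      simp
    rw [T, T, e1, e2, mul_right_comm u (X k ^ (e + 1)), X_pow_eq_monomial, coeff_mul_monomial,
      mul_one, mul_assoc]
  simp only [h1]
  rw [← finsum_mem_range (f := fun κ => T g e κ (u * X k ^ (e + 1))) hinj, finsum_mem_def,
    Set.indicator_eq_self.2]
  intro κ hκ
  by_cases h0 : κ k = 0
  · refine absurd (?_ : T g e κ _ = 0) hκ
    rw [T, mul_right_comm, X_pow_eq_monomial, coeff_mul_monomial', if_neg]
    rw [Finsupp.single_le_iff, ex_apply, h0]
    omega
  · refine ⟨κ - Pi.single k 1, ?_⟩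
    funext j
    by_cases hj : j = k
    · subst hj; simp; omega
    · simp [hj]

theorem rho_res (hg : ∀ k, Bd (e + 1) (g k)) {K : ℕ} {u : MvPolynomial (Fin n) ℂ}
    (hu : Bd (K + 1 + n * e) u) : rho hg u = res (e + 1) g K u := by
  rw [rho_apply, finsum_eq_sum_of_support_subset (s := univ.image
    fun (κ : Fin n → Fin (K + 1)) (k : Fin n) => (κ k).val), sum_image]
  · refine sum_congr rfl fun κ _ => ?_
    rw [T, ex]
    congr 2
    funext k
    rw [add_mul, one_mul, ← add_assoc, Nat.add_sub_cancel]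
  · intro κ _ κ' _ h
    funext k
    exact Fin.ext (congrFun h k)
  · intro κ hκ
    have : ∀ k, κ k < K + 1 := by
      intro k
      by_contra h
      refine hκ (T_eq_zero hg hu ?_)
      have := single_le_sum (f := κ) (fun _ _ => Nat.zero_le _) (mem_univ k)
      omega
    exact mem_coe.2 (mem_image.2 ⟨fun k => ⟨κ k, this k⟩, mem_univ _, rfl⟩)

end Rho

section Bez
variable {n : ℕ} {B : Type} [CommRing B] [Algebra ℂ B] (x : Fin n → B)

/-- divided differences -/
def DD (e : ℕ) (f : MvPolynomial (Fin n) ℂ) : Prop :=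
  ∃ θ : Fin n → MvPolynomial (Fin n) B,
    MvPolynomial.map (algebraMap ℂ B) f - C (aeval x f) = ∑ j, θ j * (X j - C (x j)) ∧
      (∀ j, Bd e (θ j)) ∧ ∀ j, eval x (θ j) = aeval x (pderiv j f)

theorem DD.C (e : ℕ) (c : ℂ) : DD x e (C c) := ⟨0, by simp, fun _ => Bd.zero _, by simp⟩

theorem DD.add {e : ℕ} {f f' : MvPolynomial (Fin n) ℂ} (h : DD x e f) (h' : DD x e f') :
    DD x e (f + f') := by
  obtain ⟨θ, h1, h2, h3⟩ := h
  obtain ⟨θ', h1', h2', h3'⟩ := h'
  refine ⟨θ + θ', ?_, fun j => (h2 j).add (h2' j), fun j => by simp [h3, h3']⟩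
  simp only [Pi.add_apply, add_mul, sum_add_distrib, ← h1, ← h1', map_add]
  ring

theorem DD.X_mul {e : ℕ} {f : MvPolynomial (Fin n) ℂ} (h : DD x e f) (i : Fin n) :
    DD x (e + 1) (X i * f) := by
  obtain ⟨θ, h1, h2, h3⟩ := h
  refine ⟨fun j => θ j * X i + if j = i then MvPolynomial.C (aeval x f) else 0, ?_, fun j => ?_,
    fun j => ?_⟩
  · simp only [add_mul, sum_add_distrib, ite_mul, zero_mul, sum_ite_eq', mem_univ, if_true,
      mul_right_comm _ (X i), ← sum_mul, ← h1, map_mul, map_X, aeval_X]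
    ring
  · refine ((h2 j).mul (by simpa using Bd.X_pow i 1)).add ?_
    split_ifs
    · exact (Bd.C _).mono (by omega)
    · exact Bd.zero _
  · by_cases hj : j = i
    · subst hj
      beta_reduce
      rw [if_pos rfl, map_add, eval_C]
      simp [h3, mul_comm, add_comm]
    · simp [h3, hj, pderiv_X_of_ne (Ne.symm hj), mul_comm]

theorem DD.monomial (e : ℕ) : ∀ m : Fin n →₀ ℕ, m.degree ≤ e → ∀ c : ℂ,
    DD x e (monomial m c) := by
  induction e with
  | zero =>
      intro m hm c
      have : m = 0 := (Finsupp.degree_eq_zero_iff m).1 (by omega)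
      subst this
      exact DD.C x _ c
  | succ e ih =>
      intro m hm c
      by_cases h0 : m = 0
      · subst h0; exact DD.C x _ c
      · obtain ⟨i, hi⟩ := Finsupp.ne_iff.1 h0
        have hi : m i ≠ 0 := hi
        have e1 : m = Finsupp.single i 1 + (m - Finsupp.single i 1) :=
          (add_tsub_cancel_of_le (Finsupp.single_le_iff.2 (by omega))).symm
        have e2 := congrArg Finsupp.degree e1
        rw [map_add, Finsupp.degree_single] at e2
        have := (ih (m - Finsupp.single i 1) (by omega) c).X_mul x i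
        rwa [X, monomial_mul, one_mul, ← e1] at this

theorem DD.of_bd {e : ℕ} {f : MvPolynomial (Fin n) ℂ} (h : Bd (e + 1) f) : DD x e f := by
  rw [f.as_sum]
  refine sum_induction _ (DD x e) (fun _ _ => DD.add x) (by simpa using DD.C x e 0) fun m hm => ?_
  refine DD.monomial x e m ?_ _
  by_contra h1
  exact mem_support_iff.1 hm (h m (by omega))

theorem bezout {e : ℕ} {g : Fin n → MvPolynomial (Fin n) ℂ} (hg : ∀ k, Bd (e + 1) (g k))
    (hx : ∀ k, aeval x (X k ^ (e + 1) - g k) = 0) :
    ∃ (s : Finset (Fin n →₀ ℕ)) (a : (Fin n →₀ ℕ) → B),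
      (∀ u, aeval x u = ∑ β ∈ s, rho hg (monomial β 1 * u) • a β) ∧
        ∑ β ∈ s, aeval x (monomial β (1 : ℂ)) * a β = aeval x (jac (e + 1) g) := by
  let ρ : MvPolynomial (Fin n) B →ₗ[B] B :=
    (basisMonomials (Fin n) B).constr B fun m => algebraMap ℂ B (rho hg (monomial m 1))
  have r1 : ∀ m, ρ (monomial m 1) = algebraMap ℂ B (rho hg (monomial m 1)) := fun m =>
    (basisMonomials (Fin n) B).constr_basis B _ m
  have r2 : ∀ u, ρ (MvPolynomial.map (algebraMap ℂ B) u) = algebraMap ℂ B (rho hg u) := by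
    intro u
    induction u using MvPolynomial.induction_on' with
    | add p q hp hq => simp only [map_add, hp, hq]
    | monomial m c =>
        rw [map_monomial, ← mul_one (algebraMap ℂ B c), ← smul_eq_mul, ← smul_monomial, map_smul,
          r1, smul_eq_mul, ← map_mul, ← smul_eq_mul, ← map_smul, smul_monomial, smul_eq_mul,
          mul_one]
  have r3 : ∀ (w : MvPolynomial (Fin n) B) u, ρ (w * MvPolynomial.map (algebraMap ℂ B) u) =
      ∑ β ∈ w.support, rho hg (monomial β 1 * u) • coeff β w := by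
    intro w u
    conv_lhs => rw [w.as_sum, sum_mul, map_sum]
    refine sum_congr rfl fun β _ => ?_
    rw [Algebra.smul_def, ← r2, map_mul (MvPolynomial.map (algebraMap ℂ B)), map_monomial, map_one,
      mul_comm _ (coeff β w),
      ← smul_eq_mul (coeff β w), ← map_smul, ← smul_mul_assoc, smul_monomial, smul_eq_mul, mul_one]
  have r4 : ∀ (w : MvPolynomial (Fin n) B) k,
      ρ (w * MvPolynomial.map (algebraMap ℂ B) (X k ^ (e + 1) - g k)) = 0 := by
    intro w k
    simp only [r3, rho_F, zero_smul, sum_const_zero]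
  have r5 : ∀ w : MvPolynomial (Fin n) B, Bd (n * e + 1) w → ρ w = coeff (ex e 0) w := by
    intro w hw
    have := r3 w 1
    rw [map_one, mul_one] at this
    rw [this]
    conv_rhs => rw [w.as_sum, coeff_sum]
    refine sum_congr rfl fun β hβ => ?_
    have hβ' : β.degree < n * e + 1 := by
      by_contra h1
      exact mem_support_iff.1 hβ (hw β (by omega))
    rw [mul_one, rho_low hg (Bd.monomial hβ' _), coeff_monomial, coeff_monomial]
    split_ifs <;> simp
  choose θ h1 h2 h3 using fun k => DD.of_bd x (hg k)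
  let M : Matrix (Fin n) (Fin n) (MvPolynomial (Fin n) B) := Matrix.of fun k j =>
    (if k = j then ∑ a ∈ range (e + 1), X k ^ a * C (x k) ^ (e + 1 - 1 - a) else 0) - θ k j
  have m1 : ∀ k, ∑ j, M k j * (X j - C (x j)) = MvPolynomial.map (algebraMap ℂ B) (X k ^ (e + 1) - g k) := by
    intro k
    have := congrArg (C : B → MvPolynomial (Fin n) B) (hx k)
    simp only [map_sub, map_pow, aeval_X, map_zero] at this
    simp only [M, Matrix.of_apply, sub_mul, sum_sub_distrib, ite_mul, zero_mul, sum_ite_eq,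
      mem_univ, if_true, ← h1, geom_sum₂_mul, map_sub, map_pow, map_X]
    linear_combination (-1 : MvPolynomial (Fin n) B) * this
  have m2 := det_top (e := e) (1 : B) M (by
    intro k j
    simp only [M, Matrix.of_apply]
    split_ifs
    · rw [sum_range_succ, map_one, one_mul]
      have : Bd e (∑ a ∈ range e, (X k ^ a * C (x k) ^ (e + 1 - 1 - a) :
          MvPolynomial (Fin n) B)) := by
        refine Bd.sum fun a ha => ?_
        rw [← map_pow]
        exact ((Bd.X_pow k a).mul (e' := 0) (Bd.C _)).mono (mem_range.1 ha)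
      convert this.sub (h2 k j) using 1
      simp only [Nat.add_sub_cancel, Nat.sub_self, pow_zero]
      ring
    · simpa using (h2 k j).neg)
  have m3 : ∀ (w : MvPolynomial (Fin n) B) j, ρ (w * M.det * (X j - C (x j))) = 0 := by
    intro w j
    have e1 : M.mulVec (fun j => X j - C (x j)) =
        fun k => MvPolynomial.map (algebraMap ℂ B) (X k ^ (e + 1) - g k) := funext m1
    have e2 := congrFun (congrArg M.adjugate.mulVec e1) j
    rw [Matrix.mulVec_mulVec, Matrix.adjugate_mul, Matrix.smul_mulVec, Matrix.one_mulVec] at e2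
    have e3 : M.det * (X j - C (x j)) =
        ∑ k, M.adjugate j k * MvPolynomial.map (algebraMap ℂ B) (X k ^ (e + 1) - g k) := e2
    rw [mul_assoc, e3, mul_sum, map_sum]
    exact sum_eq_zero fun k _ => by rw [← mul_assoc, r4]
  refine ⟨M.det.support, fun β => coeff β M.det, fun u => ?_, ?_⟩
  · obtain ⟨η, k1, -, -⟩ := DD.of_bd x (Bd.of_deg (Nat.lt_succ_self u.totalDegree))
    rw [← r3, eq_add_of_sub_eq k1, mul_add, map_add, mul_sum, map_sum,
      sum_eq_zero fun j _ => by rw [← mul_assoc, mul_comm M.det, m3], zero_add, mul_comm,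
      ← smul_eq_C_mul, map_smul, r5 _ m2.1, m2.2, one_pow, smul_eq_mul, mul_one]
  · have e1 : eval x M.det = aeval x (jac (e + 1) g) := by
      rw [jac, RingHom.map_det, AlgHom.map_det]
      congr 1
      ext k j
      simp only [M, RingHom.mapMatrix_apply, AlgHom.mapMatrix_apply, Matrix.map_apply,
        Matrix.of_apply, map_sub, h3]
      congr 1
      split_ifs with h
      · subst h
        simp only [map_sum, map_mul, map_pow, eval_X, eval_C, geom_sum₂_self]
        simp
      · simp [pderiv_X_of_ne h]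
    rw [← e1]
    conv_rhs => rw [M.det.as_sum, map_sum]
    refine sum_congr rfl fun β _ => ?_
    rw [aeval_monomial, eval_monomial, map_one, one_mul, mul_comm]

end Bez

theorem jac_top {n e : ℕ} {g : Fin n → MvPolynomial (Fin n) ℂ} (hg : ∀ k, Bd (e + 1) (g k)) :
    Bd (n * e + 1) (jac (e + 1) g) ∧ coeff (ex e 0) (jac (e + 1) g) = ((e + 1 : ℕ) : ℂ) ^ n := by
  refine det_top _ _ fun k j => ?_
  convert ((hg k).pderiv j).neg using 1
  rw [Matrix.of_apply, map_sub]
  split_ifs with h
  · subst h; simp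
  · simp [pderiv_X_of_ne h]

end PhamA

open PhamA in
theorem pham_trace {n d : ℕ} (hd : 1 ≤ d) (g : Fin n → MvPolynomial (Fin n) ℂ)
    (hg : ∀ k, (g k).totalDegree < d) (I : Ideal (MvPolynomial (Fin n) ℂ))
    (hI : I = Ideal.span (Set.range fun k => MvPolynomial.X k ^ d - g k)) :
    FiniteDimensional ℂ (MvPolynomial (Fin n) ℂ ⧸ I) ∧
      Module.finrank ℂ (MvPolynomial (Fin n) ℂ ⧸ I) = d ^ n ∧
      ∀ (h : MvPolynomial (Fin n) ℂ) (K : ℕ), h.totalDegree + n * d ≤ K →
        LinearMap.trace ℂ _ (LinearMap.mulLeft ℂ (Ideal.Quotient.mk I h)) =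
          res d g K (h * jac d g) := by
  obtain ⟨e, rfl⟩ : ∃ e, d = e + 1 := ⟨d - 1, by omega⟩
  have hg' : ∀ k, Bd (e + 1) (g k) := fun k => Bd.of_deg (hg k)
  have hx : ∀ u, MvPolynomial.aeval (fun k => Ideal.Quotient.mk I (MvPolynomial.X k)) u =
      Ideal.Quotient.mk I u := fun u =>
    AlgHom.congr_fun (MvPolynomial.algHom_ext (g := Ideal.Quotient.mkₐ ℂ I) (by simp)) u
  obtain ⟨s, a, h1, h2⟩ := bezout (fun k => Ideal.Quotient.mk I (MvPolynomial.X k)) hg' (by
    intro k
    rw [hx, Ideal.Quotient.eq_zero_iff_mem, hI]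
    exact Ideal.subset_span ⟨k, rfl⟩)
  simp only [hx] at h1 h2
  have hker : ∀ u ∈ I, rho hg' u = 0 := by
    intro u hu
    rw [hI] at hu
    obtain ⟨c, rfl⟩ := Ideal.mem_span_range_iff_exists_fun.1 hu
    rw [map_sum]
    exact sum_eq_zero fun k _ => rho_F hg' _ k
  let ρ : (MvPolynomial (Fin n) ℂ ⧸ I) →ₗ[ℂ] ℂ :=
    (I.restrictScalars ℂ).liftQ (rho hg') hker
  have hρ : ∀ u, ρ (Ideal.Quotient.mk I u) = rho hg' u := fun _ => rfl
  have hfin : FiniteDimensional ℂ (MvPolynomial (Fin n) ℂ ⧸ I) := by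
    classical
    refine ⟨⟨s.image a, eq_top_iff.2 fun b _ => ?_⟩⟩
    obtain ⟨u, rfl⟩ := Ideal.Quotient.mk_surjective b
    rw [h1]
    exact Submodule.sum_mem _ fun β hβ => Submodule.smul_mem _ _
      (Submodule.subset_span (mem_coe.2 (mem_image_of_mem a hβ)))
  have htr : ∀ h, LinearMap.trace ℂ _ (LinearMap.mulLeft ℂ (Ideal.Quotient.mk I h)) =
      rho hg' (h * jac (e + 1) g) := by
    intro h
    have e1 : LinearMap.mulLeft ℂ (Ideal.Quotient.mk I h) = ∑ β ∈ s,
        (ρ ∘ₗ LinearMap.mulLeft ℂ (Ideal.Quotient.mk I (MvPolynomial.monomial β 1 * h))).smulRight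
          (a β) := by
      refine LinearMap.ext fun b => ?_
      obtain ⟨u, rfl⟩ := Ideal.Quotient.mk_surjective b
      rw [LinearMap.mulLeft_apply, ← map_mul, h1, LinearMap.sum_apply]
      refine sum_congr rfl fun β _ => ?_
      rw [LinearMap.smulRight_apply, LinearMap.comp_apply, LinearMap.mulLeft_apply, ← map_mul, hρ,
        mul_assoc]
    rw [e1, map_sum, ← hρ, map_mul, ← h2, mul_sum, map_sum]
    refine sum_congr rfl fun β _ => ?_
    rw [LinearMap.trace_smulRight, LinearMap.comp_apply, LinearMap.mulLeft_apply,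
      map_mul (Ideal.Quotient.mk I)]
    congr 1
    ring
  refine ⟨hfin, ?_, fun h K hK => ?_⟩
  · have := htr 1
    rw [map_one, LinearMap.mulLeft_one, LinearMap.trace_id, one_mul, rho_low hg' (jac_top hg').1,
      (jac_top hg').2] at this
    exact_mod_cast this
  · rw [htr]
    exact rho_res hg' (((Bd.of_deg (Nat.lt_succ_self _)).mul (jac_top hg').1).mono (by omega))

end Crest.Agent.R316
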