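import Crest.Agent.R316.PTB

/-! Row 316: traces on finite algebras are sums over points. -/

set_option autoImplicit false

namespace Crest.Agent.R316

open Finset Filter Topology

namespace PhamB

variable {V : Type} [CommRing V] [Algebra ℂ V]

theorem mem_gen (a : V) (c : ℂ) (w : V) :
    w ∈ Module.End.maxGenEigenspace (LinearMap.mulLeft ℂ a) c ↔
      ∃ k : ℕ, (a - algebraMap ℂ V c) ^ k * w = 0 := by
  have : (LinearMap.mulLeft ℂ a : Module.End ℂ V) - c • (1 : Module.End ℂ V) =
      LinearMap.mulLeft ℂ (a - algebraMap ℂ V c) := by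
    ext v
    simp [sub_mul, Algebra.smul_def]
  rw [Module.End.mem_maxGenEigenspace, this]
  simp only [LinearMap.pow_mulLeft, LinearMap.mulLeft_apply]

theorem comm (a b : V) :
    Commute (LinearMap.mulLeft ℂ a : Module.End ℂ V) (LinearMap.mulLeft ℂ b) := by
  ext v
  simp [mul_left_comm]

variable {n : ℕ} (φ : MvPolynomial (Fin n) ℂ →ₐ[ℂ] V)

/-- The joint generalized eigenspace. -/
noncomputable def W (χ : Fin n → ℂ) : Submodule ℂ V :=
  ⨅ k, Module.End.maxGenEigenspace (LinearMap.mulLeft ℂ (φ (MvPolynomial.X k))) (χ k)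

theorem W_le (χ : Fin n → ℂ) (h : MvPolynomial (Fin n) ℂ) :
    W φ χ ≤ Module.End.maxGenEigenspace (LinearMap.mulLeft ℂ (φ h)) (MvPolynomial.eval χ h) := by
  intro w hw
  have key : ∀ a : V, a ∈ (Submodule.span V {w}).annihilator.radical ↔ ∃ k : ℕ, a ^ k * w = 0 := by
    intro a
    simp only [Ideal.mem_radical_iff, Submodule.mem_annihilator_span_singleton, smul_eq_mul]
  rw [mem_gen, ← key]
  induction h using MvPolynomial.induction_on with
  | C a => simp
  | add p q hp hq =>
    have := add_mem hp hq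
    rw [map_add, map_add, map_add]
    convert this using 1
    ring
  | mul_X p k hp =>
    have hk := (key _).2 ((mem_gen _ _ _).1 ((Submodule.mem_iInf _).1 hw k))
    have := add_mem (Ideal.mul_mem_right (φ (MvPolynomial.X k)) _ hp)
      (Ideal.mul_mem_left _ (algebraMap ℂ V (MvPolynomial.eval χ p)) hk)
    rw [map_mul, map_mul, map_mul, MvPolynomial.eval_X]
    convert this using 1
    ring

theorem W_maps (χ : Fin n → ℂ) (a : V) :
    Set.MapsTo (LinearMap.mulLeft ℂ a) (W φ χ) (W φ χ) := fun _ hw =>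
  (Submodule.mem_iInf _).2 fun k =>
    Module.End.mapsTo_maxGenEigenspace_of_comm (comm _ _) _ ((Submodule.mem_iInf _).1 hw k)

variable [FiniteDimensional ℂ V]

theorem trace_W (χ : Fin n → ℂ) (h : MvPolynomial (Fin n) ℂ) :
    LinearMap.trace ℂ (W φ χ) ((LinearMap.mulLeft ℂ (φ h)).restrict (W_maps φ χ _)) =
      Module.finrank ℂ (W φ χ) * MvPolynomial.eval χ h := by
  set c := MvPolynomial.eval χ h
  have hm : Set.MapsTo ((LinearMap.mulLeft ℂ (φ h) : Module.End ℂ V) -
      algebraMap ℂ (Module.End ℂ V) c) (W φ χ) (W φ χ) := fun w hw =>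
    sub_mem (W_maps φ χ _ hw) (Submodule.smul_mem _ c hw)
  have hn := Module.End.isNilpotent_restrict_of_le (hp := hm) (W_le φ χ h)
    (Module.End.isNilpotent_restrict_maxGenEigenspace_sub_algebraMap _ c)
  have h0 := (LinearMap.isNilpotent_trace_of_isNilpotent hn).eq_zero
  have he : (LinearMap.mulLeft ℂ (φ h)).restrict (W_maps φ χ _) =
      LinearMap.restrict _ hm + c • LinearMap.id := by
    ext w
    simp [LinearMap.restrict_apply]
  rw [he, map_add, h0, map_smul, LinearMap.trace_id, zero_add, smul_eq_mul, mul_comm]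

theorem W_top : ⨆ χ, W φ χ = ⊤ :=
  Module.End.iSup_iInf_maxGenEigenspace_eq_top_of_iSup_maxGenEigenspace_eq_top_of_commute _
    (fun _ _ _ => comm _ _) fun _ => Module.End.iSup_maxGenEigenspace_eq_top _

omit [FiniteDimensional ℂ V] in
theorem W_indep : iSupIndep (W φ) :=
  Module.End.independent_iInf_maxGenEigenspace_of_forall_mapsTo _ fun _ _ _ =>
    Module.End.mapsTo_maxGenEigenspace_of_comm (comm _ _) _

theorem points : ∃ L : List (Fin n → ℂ), L.length = Module.finrank ℂ V ∧
    (∀ (y : Fin n → ℂ) (ev : V →ₐ[ℂ] ℂ), (∀ k, ev (φ (MvPolynomial.X k)) = y k) → y ∈ L) ∧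
    ∀ h, LinearMap.trace ℂ V (LinearMap.mulLeft ℂ (φ h)) =
      (L.map fun ξ => MvPolynomial.eval ξ h).sum := by
  classical
  have hfin : {χ | W φ χ ≠ ⊥}.Finite := WellFoundedGT.finite_ne_bot_of_iSupIndep (W_indep φ)
  have hint := DirectSum.isInternal_submodule_of_iSupIndep_of_iSup_eq_top (W_indep φ) (W_top φ)
  set M : Multiset (Fin n → ℂ) :=
    ∑ χ ∈ hfin.toFinset, Multiset.replicate (Module.finrank ℂ (W φ χ)) χ with hM
  have htr : ∀ h, LinearMap.trace ℂ V (LinearMap.mulLeft ℂ (φ h)) =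
      (M.toList.map fun ξ => MvPolynomial.eval ξ h).sum := by
    intro h
    rw [LinearMap.trace_eq_sum_trace_restrict' hint hfin fun χ => W_maps φ χ _,
      Multiset.sum_map_toList, hM, ← Multiset.coe_mapAddMonoidHom, map_sum, Multiset.sum_sum]
    refine sum_congr rfl fun χ _ => ?_
    rw [trace_W, Multiset.coe_mapAddMonoidHom, Multiset.map_replicate, Multiset.sum_replicate,
      nsmul_eq_mul]
  refine ⟨M.toList, ?_, fun y ev hev => ?_, htr⟩
  · have := htr 1
    rw [map_one, LinearMap.mulLeft_one, LinearMap.trace_id] at this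
    simp only [map_one, List.map_const', List.sum_replicate, nsmul_eq_mul, mul_one] at this
    exact_mod_cast this.symm
  · by_contra hy
    have hbot : W φ y = ⊥ := by
      by_contra hne
      refine hy (Multiset.mem_toList.2 (Multiset.mem_sum.2 ⟨y, hfin.mem_toFinset.2 hne, ?_⟩))
      exact Multiset.mem_replicate.2 ⟨fun h0 => hne (Submodule.finrank_eq_zero.1 h0), rfl⟩
    have hle : ⨆ χ, W φ χ ≤ LinearMap.ker ev.toLinearMap := by
      refine iSup_le fun χ w hw => ?_
      by_cases hχ : χ = y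
      · rw [hχ, hbot, Submodule.mem_bot] at hw
        rw [hw]
        exact zero_mem _
      · obtain ⟨k, hk⟩ := Function.ne_iff.1 hχ
        obtain ⟨j, hj⟩ := (mem_gen _ _ _).1 ((Submodule.mem_iInf _).1 hw k)
        have := congrArg ev hj
        rw [map_mul, map_pow, map_sub, hev, AlgHom.commutes, map_zero] at this
        exact (mul_eq_zero.1 this).resolve_left (pow_ne_zero _ (sub_ne_zero.2 hk.symm))
    rw [W_top] at hle
    have h1 : ev 1 = 0 := hle (Submodule.mem_top (x := (1 : V)))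
    rw [map_one] at h1
    exact one_ne_zero h1

theorem sum_getD {α : Type} (L : List α) (d : α) (F : α → ℂ) :
    (L.map F).sum = ∑ i ∈ range L.length, F (L.getD i d) := by
  induction L with
  | nil => simp
  | cons a L ih => rw [List.length_cons, sum_range_succ', List.map_cons, List.sum_cons, ih, add_comm]; rfl

/-- The sign of a vector. -/
def sg (s : Fin n → ℕ) : ℤ :=
  ∏ l, ∏ k, if k < l then (if s k < s l then 1 else if s k = s l then 0 else -1) else 1

theorem sg_zero {s : Fin n → ℕ} (h : ¬ Function.Injective s) : sg s = 0 := by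
  have key : ∀ k l : Fin n, k < l → s k = s l → sg s = 0 := fun k l hkl he =>
    prod_eq_zero (mem_univ l) (prod_eq_zero (mem_univ k) (by simp [hkl, he]))
  simp only [Function.Injective, not_forall] at h
  obtain ⟨a, b, hab, hne⟩ := h
  rcases lt_or_gt_of_ne hne with h | h
  · exact key a b h hab
  · exact key b a h hab.symm

theorem sg_perm (σ : Equiv.Perm (Fin n)) : (sg fun k => (σ k).val) = ((Equiv.Perm.sign σ : ℤˣ) : ℤ) := by
  rw [Equiv.Perm.sign_eq_prod_prod_Iio, Units.coe_prod, sg]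
  refine prod_congr rfl fun l _ => ?_
  rw [Units.coe_prod, ← prod_filter]
  refine prod_congr (by ext k; simp) fun k hk => ?_
  have hne : (σ k).val ≠ (σ l).val := fun h => (mem_Iio.1 hk).ne (σ.injective (Fin.ext h))
  by_cases h : σ k < σ l
  · rw [if_pos h, if_pos (Fin.lt_def.1 h), Units.val_one]
  · rw [if_neg h, if_neg (mt Fin.lt_def.2 h), if_neg hne, Units.val_neg, Units.val_one]

end PhamB

theorem trace_points {n : ℕ} (I : Ideal (MvPolynomial (Fin n) ℂ))
    [FiniteDimensional ℂ (MvPolynomial (Fin n) ℂ ⧸ I)] :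
    ∃ ξ : ℕ → Fin n → ℂ,
      (∀ y, (∀ f ∈ I, MvPolynomial.eval y f = 0) →
        ∃ i < Module.finrank ℂ (MvPolynomial (Fin n) ℂ ⧸ I), ξ i = y) ∧
      ∀ h : MvPolynomial (Fin n) ℂ,
        LinearMap.trace ℂ _ (LinearMap.mulLeft ℂ (Ideal.Quotient.mk I h)) =
          ∑ i ∈ range (Module.finrank ℂ (MvPolynomial (Fin n) ℂ ⧸ I)),
            MvPolynomial.eval (ξ i) h := by
  obtain ⟨L, h1, h2, h3⟩ := PhamB.points (Ideal.Quotient.mkₐ ℂ I)
  refine ⟨fun i => L.getD i 0, fun y hy => ?_, fun h => ?_⟩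
  · have hy' : ∀ f ∈ I, MvPolynomial.aeval y f = 0 := fun f hf => by
      rw [MvPolynomial.aeval_eq_eval]
      exact hy f hf
    obtain ⟨i, hi, rfl⟩ := List.getElem_of_mem (h2 y (Ideal.Quotient.liftₐ I (MvPolynomial.aeval y) hy')
      fun k => by simp)
    exact ⟨i, h1 ▸ hi, List.getD_eq_getElem _ _ hi⟩
  · rw [← h1, ← PhamB.sum_getD L 0 fun ξ => MvPolynomial.eval ξ h]
    exact h3 h

/-- the sign of a digit vector (`0` if two digits agree) -/
def sgn (n u : ℕ) : ℤ :=
  ∏ l ∈ range n, ∏ k ∈ range n,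
    if k < l then (if dg n u k < dg n u l then 1 else if dg n u k = dg n u l then 0 else -1) else 1

theorem det_eq_sum_dg {R : Type} [CommRing R] (n : ℕ) (A : ℕ → ℕ → R) :
    Matrix.det (Matrix.of fun k l : Fin n => A k l) =
      ∑ u ∈ range (n ^ n), (sgn n u : R) * ∏ k ∈ range n, A k (dg n u k) := by
  have h1 : ∀ u, (sgn n u : R) * ∏ k ∈ range n, A k (dg n u k) =
      (fun s : Fin n → ℕ => (PhamB.sg s : R) * ∏ k : Fin n, A k (s k)) fun k => dg n u k := by
    intro u
    simp only [sgn, PhamB.sg, prod_range, Fin.lt_def]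
  rw [sum_congr rfl fun u _ => h1 u,
    sum_dg n n fun s : Fin n → ℕ => (PhamB.sg s : R) * ∏ k : Fin n, A k (s k),
    ← Matrix.det_transpose, Matrix.det_apply']
  refine sum_of_injOn (fun σ : Equiv.Perm (Fin n) => (σ : Fin n → Fin n))
    (fun _ _ _ _ h => DFunLike.coe_injective h) (fun _ _ => mem_univ _) (fun s _ hs => ?_)
    fun σ _ => ?_
  · rw [PhamB.sg_zero, Int.cast_zero, zero_mul]
    intro hinj
    have hb : Function.Bijective s :=
      Finite.injective_iff_bijective.1 fun a b hab => hinj (congrArg Fin.val hab)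
    exact hs ⟨Equiv.ofBijective s hb, by simp, rfl⟩
  · rw [PhamB.sg_perm]
    simp

end Crest.Agent.R316
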