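import Crest.Agent.R316.PFX
import Crest.Agent.R316.PhamA
import Crest.Agent.R316.PhamB

/-! Row 316: the solutions of the systems `y k ^ d = g k` form a family. -/

set_option autoImplicit false

namespace Crest.Agent.R316

open Crest.Agent.PT Finset

variable {α β : Type} [Rp α] [Rp β]

namespace PhamFam

open MvPolynomial

/-- the solutions of one system, with multiplicities -/
theorem exists_pts {n d : ℕ} (hd : 1 ≤ d) (P : Fin n → MvPolynomial (Fin n) ℂ)
    (hP : ∀ k, (P k).totalDegree < d) : ∃ ξ : ℕ → Fin n → ℂ,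
      (∀ y : Fin n → ℂ, (∀ k, y k ^ d = eval y (P k)) → ∃ i < d ^ n, ξ i = y) ∧
      ∀ (h : MvPolynomial (Fin n) ℂ) (K : ℕ), h.totalDegree + n * d ≤ K →
        ∑ i ∈ range (d ^ n), eval (ξ i) h = res d P K (h * jac d P) := by
  obtain ⟨hfd, hrk, htr⟩ := pham_trace hd P hP _ rfl
  obtain ⟨ξ, h1, h2⟩ := trace_points (Ideal.span (Set.range fun k => X k ^ d - P k))
  rw [hrk] at h1 h2
  refine ⟨ξ, fun y hy => h1 y fun f hf => ?_, fun h K hK => by rw [← h2, htr h K hK]⟩
  have hle : Ideal.span (Set.range fun k => X k ^ d - P k) ≤ RingHom.ker (eval y) := by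
    rw [Ideal.span_le]
    rintro _ ⟨k, rfl⟩
    simp [hy k]
  exact hle hf

theorem qc_sgn {n : β → ℕ} (hn : PU n) : QC fun q : β × ℕ => (sgn (n q.1) q.2 : ℚ) := by
  have hn' := hn.ptime
  have h0 : QC fun r : ((β × ℕ) × ℕ) × ℕ =>
      if r.2 < r.1.2 then
        (if dg (n r.1.1.1) r.1.1.2 r.2 < dg (n r.1.1.1) r.1.1.2 r.1.2 then (1 : ℚ)
          else if dg (n r.1.1.1) r.1.1.2 r.2 = dg (n r.1.1.1) r.1.1.2 r.1.2 then 0 else -1)
      else 1 :=
    QC.ite (CH.pt (by fun_prop)) (QC.ite (CH.pt (by fun_prop)) (QC.const 1)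
      (QC.ite (CH.pt (by fun_prop)) (QC.const 0) (QC.const (-1)))) (QC.const 1)
  have h1 := h0.prod (N := fun r : (β × ℕ) × ℕ => n r.1.1) (by fun_prop)
  have h2 := h1.prod (N := fun r : β × ℕ => n r.1) (by fun_prop)
  refine h2.congr fun q => ?_
  simp only [sgn]
  push_cast
  rfl

/-- the Jacobian determinant as a polynomial family -/
theorem pf_jac {n d : β → ℕ} {gt : β × Un → Pt → ℂ} (hn : PU n) (hd : PTime d) (hgt : PF gt) :
    ∃ J : β → Pt → ℂ, PF J ∧ ∀ b v (P : Fin (n b) → MvPolynomial (Fin (n b)) ℂ),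
      (∀ (k : Fin (n b)) y, gt (b, ⟨k⟩) (glue (n b) (ext y) v) = eval y (P k)) →
        ∀ y, J b (glue (n b) (ext y) v) = eval y (jac (d b) P) := by
  have hn' := hn.ptime
  have hF : PF fun (q : β × Un) p => p q.2.val ^ d q.1 - gt q p :=
    (pf_id.pow (k := fun q : β × Un => d q.1) (by fun_prop)).sub hgt
  have hl : PU fun r : (β × ℕ) × Un => min (dg (n r.1.1) r.1.2 r.2.val) (n r.1.1) :=
    PU.min_right (by fun_prop) (by fun_prop)
  have hA := (hF.comp (g := fun r : (β × ℕ) × Un => (r.1.1, r.2)) (by fun_prop)).deriv hl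
  have hPr := hA.prodU (n := fun q : β × ℕ => n q.1) (by fun_prop)
  have hS := ((PF.const (qc_sgn hn)).mul hPr).sum (N := fun b => n b ^ n b) (hn'.pow hn)
  refine ⟨_, hS, fun b v P hP y => ?_⟩
  have hdet := det_eq_sum_dg (n b) fun k l =>
    deriv (fun t => Function.update (glue (n b) (ext y) v) (min l (n b)) t k ^ d b -
      gt (b, ⟨k⟩) (Function.update (glue (n b) (ext y) v) (min l (n b)) t))
      (glue (n b) (ext y) v (min l (n b)))
  simp only [Rat.cast_intCast]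
  rw [← hdet, jac, RingHom.map_det]
  congr 1
  ext k l
  have e1 : min (l : ℕ) (n b) = l := min_eq_left l.2.le
  have e2 : glue (n b) (ext y) v l = y l := by rw [glue_lt l.2, ext_val]
  simp only [Matrix.of_apply, RingHom.mapMatrix_apply, Matrix.map_apply, e1, e2]
  have e3 : (fun t => Function.update (glue (n b) (ext y) v) l t k ^ d b -
      gt (b, ⟨k⟩) (Function.update (glue (n b) (ext y) v) l t)) =
      fun t => eval (Function.update y l t) (X k ^ d b - P k) := by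
    funext t
    rw [glue_ext_update, hP, glue_lt k.2, ext_val]
    simp
  rw [e3, (hasDerivAt_eval _ y l (y l)).deriv, Function.update_eq_self]

/-- the residue as a polynomial family -/
theorem pf_res {n d : β → ℕ} {gt : β × Un → Pt → ℂ} {F : β → Pt → ℂ} (hn : PU n) (hd : PTime d)
    (hgt : PF gt) (hF : PF F) :
    ∃ R : β → Pt → ℂ, PF R ∧ ∀ b v (P : Fin (n b) → MvPolynomial (Fin (n b)) ℂ),
      (∀ (k : Fin (n b)) y, gt (b, ⟨k⟩) (glue (n b) (ext y) v) = eval y (P k)) →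
        ∃ (h : MvPolynomial (Fin (n b)) ℂ) (K : ℕ), h.totalDegree + n b * d b ≤ K ∧
          (∀ y, F b (glue (n b) (ext y) v) = eval y h) ∧
          R b v = res (d b) P K (h * jac (d b) P) := by
  have hn' := hn.ptime
  obtain ⟨J, hJ, hJe⟩ := pf_jac hn hd hgt
  obtain ⟨nF, DF, -, hDF, hFP⟩ := hF.isP
  set K : β → ℕ := fun b => n b * DF b + n b * d b with hKdef
  have hK : PTime K := by rw [hKdef]; fun_prop
  have h1 : PF fun (r : (β × ℕ) × Un) p => gt (r.1.1, r.2) p ^ dg (K r.1.1 + 1) r.1.2 r.2.val :=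
    (hgt.comp (g := fun r : (β × ℕ) × Un => (r.1.1, r.2)) (by fun_prop)).pow (by fun_prop)
  have h2 := h1.prodU (n := fun q : β × ℕ => n q.1) (by fun_prop)
  have hU := (((hF.mul hJ).comp (g := fun q : β × ℕ => q.1) (by fun_prop))).mul h2
  obtain ⟨C, hC, hCe⟩ := hU.coef (m := fun q : β × ℕ => n q.1)
    (e := fun r : (β × ℕ) × ℕ => (dg (K r.1.1 + 1) r.1.2 r.2 + 1) * d r.1.1 - 1)
    (by fun_prop) (by fun_prop)
  refine ⟨_, hC.sum (N := fun b => (K b + 1) ^ n b) ((hK.add (PTime.const 1)).pow hn),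
    fun b v P hP => ?_⟩
  obtain ⟨h, hh1, -, hh2⟩ := (hFP b).exists_mv (n b) v
  refine ⟨h, K b, Nat.add_le_add_right hh1 _, hh2, ?_⟩
  have hs := sum_dg (K b + 1) (n b) fun s =>
    coeff (Finsupp.equivFunOnFinite.symm fun k => (s k + 1) * d b - 1)
      (h * jac (d b) P * ∏ k, P k ^ s k)
  rw [res, ← hs]
  refine sum_congr rfl fun κ _ => hCe (b, κ) v _ fun y => ?_
  simp only [map_mul, map_prod, map_pow]
  rw [hh2, hJe b v P hP, prod_range]
  simp only [hP]

end PhamFam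

theorem pham_fam {n d : α → ℕ} {g : α × Un → Pt → ℂ} (hn : PU n) (hd : PTime d)
    (hd1 : ∀ a, 1 ≤ d a) (hg : PF g)
    (hdeg : ∀ a v, ∀ k < n a, ∃ P : MvPolynomial (Fin (n a)) ℂ, P.totalDegree < d a ∧
      ∀ y, g (a, ⟨k⟩) (glue (n a) (ext y) v) = MvPolynomial.eval y P) :
    ∃ ξ : α → Pt → ℕ → Pt, Fam n (fun a => d a ^ n a) ξ ∧
      ∀ a v (y : Pt), (∀ k < n a, y k ^ d a = g (a, ⟨k⟩) (glue (n a) y v)) →
        ∃ i < d a ^ n a, ∀ k < n a, ξ a v i k = y k := by
  choose P hP1 hP2 using fun a v (k : Fin (n a)) => hdeg a v k k.2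
  choose ξ hξ1 hξ2 using fun a v => PhamFam.exists_pts (hd1 a) (P a v) (hP1 a v)
  refine ⟨fun a v i => ext (ξ a v i), ⟨hn, hd.pow hn, ?_⟩, fun a v y hy => ?_⟩
  · intro β _ g0 G F hg0 hG hF
    have hn0 : PU fun b => n (g0 b) := hn.comp hg0
    have hW : PF fun (r : (β × Un) × Un) v =>
        G (r.1.1, r.2) fun i => v (i + n (g0 r.1.1)) :=
      (hG.comp (g := fun r : (β × Un) × Un => (r.1.1, r.2)) (by fun_prop)).shift (by fun_prop)
    have hgt := (hg.comp (g := fun q : β × Un => (g0 q.1, q.2)) (by fun_prop)).glue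
      (m := fun q : β × Un => n (g0 q.1)) (by fun_prop) pf_id hW
    obtain ⟨R, hR, hRe⟩ := PhamFam.pf_res hn0 (hd.comp hg0) hgt hF
    refine hR.congr fun b v => ?_
    obtain ⟨h, K, hK, h1, h2⟩ := hRe b v (P (g0 b) fun j => G (b, ⟨j⟩) v) fun k y => by
      simp only [glue_add]
      rw [← hP2]
      exact congrArg _ (glue_congr (fun i hi => glue_lt hi _ _) _)
    rw [h2, ← hξ2 _ _ h K hK]
    exact sum_congr rfl fun i _ => h1 _
  · obtain ⟨i, hi, e⟩ := hξ1 a v (fun k => y k) fun k => by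
      rw [← hP2, glue_ext]
      exact hy k k.2
    refine ⟨i, hi, fun k hk => ?_⟩
    simp only [e]
    exact ext_val (fun k : Fin (n a) => y k) ⟨k, hk⟩

end Crest.Agent.R316
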