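import Crest.Agent.R316.FN
import Crest.Agent.R290.Real

/-! Row 316: the sign of an integer given by residues. -/

set_option autoImplicit false

namespace Crest.Agent.R316

open Crest.Agent.PT Finset

namespace Sign

/-- the sign test on fractional parts -/
theorem sign_logic (τ : ℝ) (Q K : ℕ) (A : ℕ → ℕ) (hQ : 0 < Q) (h0 : |τ| ≤ 1 / 4)
    (hK : 0 < τ → 1 ≤ 2 ^ K * τ) (hA : ∀ k, A k < Q)
    (h : ∀ k, ∃ (δ : ℝ) (z : ℤ), 0 ≤ δ ∧ 64 * δ ≤ Q ∧ (A k : ℝ) = Q * (2 ^ k * τ) - δ + Q * z) :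
    0 < τ ↔ ∃ k < K + 1, (∀ k' < k, 16 * A k' < Q ∨ 15 * Q ≤ 16 * A k') ∧
      Q ≤ 16 * A k ∧ 2 * A k < Q := by
  have hQ' : (0 : ℝ) < Q := by exact_mod_cast hQ
  have key : ∀ k, |2 ^ k * τ| ≤ 1 / 4 → ∃ ε a : ℝ, 0 ≤ ε ∧ ε ≤ 1 / 64 ∧ (A k : ℝ) = Q * a ∧
      0 ≤ a ∧ a < 1 ∧ (a = 2 ^ k * τ - ε ∨ a = 2 ^ k * τ - ε + 1) := by
    intro k hk
    obtain ⟨δ, z, h1, h2, h3⟩ := h k
    have hε : δ / Q ≤ 1 / 64 := by rw [div_le_iff₀ hQ']; linarith
    have hε0 : 0 ≤ δ / Q := by positivity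
    have e : (A k : ℝ) = Q * (2 ^ k * τ - δ / Q + z) := by rw [h3]; field_simp
    have a0 : 0 ≤ 2 ^ k * τ - δ / Q + z := by
      have : (0 : ℝ) ≤ Q * (2 ^ k * τ - δ / Q + z) := e ▸ Nat.cast_nonneg _
      by_contra hn
      push Not at hn
      nlinarith
    have a1 : 2 ^ k * τ - δ / Q + z < 1 := by
      have : (Q : ℝ) * (2 ^ k * τ - δ / Q + z) < Q := e ▸ (by exact_mod_cast hA k)
      nlinarith
    obtain ⟨l, u⟩ := abs_le.1 hk
    have z0 : (-1 : ℤ) < z := by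
      have : ((-1 : ℤ) : ℝ) < z := by push_cast; linarith
      exact_mod_cast this
    have z1 : z < 2 := by
      have : (z : ℝ) < ((2 : ℤ) : ℝ) := by push_cast; linarith
      exact_mod_cast this
    refine ⟨δ / Q, _, hε0, hε, e, a0, a1, ?_⟩
    obtain rfl | rfl : z = 0 ∨ z = 1 := by omega
    · left; simp
    · right; simp
  have small : ∀ k, (∀ k' < k, 16 * A k' < Q ∨ 15 * Q ≤ 16 * A k') → |2 ^ k * τ| ≤ 1 / 4 := by
    intro k
    induction k with
    | zero => intro _; simpa using h0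
    | succ k ih =>
      intro hn
      have hk := ih fun k' hk' => hn k' (by omega)
      obtain ⟨ε, a, e0, e1, e2, a0, a1, ha⟩ := key k hk
      obtain ⟨l, u⟩ := abs_le.1 hk
      have hn' : 16 * a < 1 ∨ 15 ≤ 16 * a := by
        rcases hn k (by omega) with h1 | h1
        · left
          have : (16 : ℝ) * A k < Q := by exact_mod_cast h1
          rw [e2] at this
          nlinarith
        · right
          have : (15 : ℝ) * Q ≤ 16 * A k := by exact_mod_cast h1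
          rw [e2] at this
          nlinarith
      rw [pow_succ, abs_le]
      rcases ha with ha | ha <;> rcases hn' with h1 | h1 <;> constructor <;> linarith
  constructor
  · intro hτ
    have hex : ∃ k, ¬ (16 * A k < Q ∨ 15 * Q ≤ 16 * A k) := by
      by_contra hn
      push Not at hn
      have h1 := small K fun k' _ => by have := hn k'; omega
      have h2 := hK hτ
      have := (abs_le.1 h1).2
      linarith
    classical
    have hmin : ∀ k' < Nat.find hex, 16 * A k' < Q ∨ 15 * Q ≤ 16 * A k' := fun k' hk' =>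
      not_not.1 (Nat.find_min hex hk')
    have hk := small _ hmin
    have hs := Nat.find_spec hex
    refine ⟨Nat.find hex, ?_, hmin, by omega, ?_⟩
    · by_contra hn
      have h1 := small K fun k' hk' => hmin k' (by omega)
      have h2 := hK hτ
      have := (abs_le.1 h1).2
      linarith
    · obtain ⟨ε, a, e0, e1, e2, a0, a1, ha⟩ := key _ hk
      have hp : 0 < 2 ^ Nat.find hex * τ := by positivity
      have h1 : (16 : ℝ) * A (Nat.find hex) < 15 * Q := by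
        exact_mod_cast (show 16 * A (Nat.find hex) < 15 * Q by omega)
      have u := (abs_le.1 hk).2
      rw [e2] at h1
      have h2 : 16 * a < 15 := by nlinarith
      have h3 : 2 * a < 1 := by rcases ha with ha | ha <;> linarith
      have : (2 : ℝ) * A (Nat.find hex) < Q := by rw [e2]; nlinarith
      exact_mod_cast this
  · rintro ⟨k, -, hn, h1, h2⟩
    have hk := small k hn
    obtain ⟨ε, a, e0, e1, e2, a0, a1, ha⟩ := key k hk
    have h1' : (Q : ℝ) ≤ 16 * A k := by exact_mod_cast h1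
    have h2' : (2 : ℝ) * A k < Q := by exact_mod_cast h2
    rw [e2] at h1' h2'
    have h3 : 1 ≤ 16 * a := by nlinarith
    have h4 : 2 * a < 1 := by nlinarith
    have l := (abs_le.1 hk).1
    have : 0 < 2 ^ k * τ := by rcases ha with ha | ha <;> linarith
    by_contra hn
    push Not at hn
    have : 2 ^ k * τ ≤ 0 := mul_nonpos_of_nonneg_of_nonpos (by positivity) hn
    linarith

/-- Chinese remaindering -/
theorem crt (S : Finset ℕ) (hS : ∀ p ∈ S, p.Prime) (Y : ℤ) (c : ℕ → ℕ)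
    (hc : ∀ p ∈ S, ((c p : ℤ) * ∏ q ∈ S.erase p, (q : ℤ)) ≡ Y [ZMOD p]) :
    ∃ z : ℤ, ∑ p ∈ S, (c p : ℝ) / p = Y / (∏ p ∈ S, (p : ℝ)) + z := by
  have hd : (∏ p ∈ S, (p : ℤ)) ∣ (∑ p ∈ S, (c p : ℤ) * ∏ q ∈ S.erase p, (q : ℤ)) - Y := by
    refine Finset.prod_dvd_of_coprime (fun p hp q hq hne => ?_) fun p hp => ?_
    · exact Nat.isCoprime_iff_coprime.2 ((Nat.coprime_primes (hS p hp) (hS q hq)).2 hne)
    · rw [← Finset.add_sum_erase S _ hp, add_sub_right_comm]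
      refine dvd_add (hc p hp).symm.dvd (Finset.dvd_sum fun q hq => Dvd.dvd.mul_left ?_ _)
      rw [Finset.mem_erase] at hq
      exact Finset.dvd_prod_of_mem _ (Finset.mem_erase.2 ⟨hq.1.symm, hp⟩)
  obtain ⟨z, hz⟩ := hd
  have hM : (0 : ℝ) < ∏ p ∈ S, (p : ℝ) :=
    Finset.prod_pos fun p hp => by exact_mod_cast (hS p hp).pos
  refine ⟨z, ?_⟩
  have hz' : (∑ p ∈ S, (c p : ℝ) * ∏ q ∈ S.erase p, (q : ℝ)) - Y = (∏ p ∈ S, (p : ℝ)) * z := by
    have := congrArg (Int.cast : ℤ → ℝ) hz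
    simpa using this
  have e : ∑ p ∈ S, (c p : ℝ) / p =
      (∑ p ∈ S, (c p : ℝ) * ∏ q ∈ S.erase p, (q : ℝ)) / ∏ p ∈ S, (p : ℝ) := by
    rw [Finset.sum_div]
    refine Finset.sum_congr rfl fun p hp => ?_
    have hp0 : (p : ℝ) ≠ 0 := by exact_mod_cast (hS p hp).ne_zero
    rw [div_eq_div_iff hp0 hM.ne', ← Finset.mul_prod_erase S _ hp]
    ring
  rw [e, eq_add_of_sub_eq hz']
  field_simp
  ring

theorem floor_sum (S : Finset ℕ) (hS : ∀ p ∈ S, 0 < p) (Q : ℕ) (c : ℕ → ℕ) :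
    ∃ δ : ℝ, 0 ≤ δ ∧ δ ≤ S.card ∧
      ((∑ p ∈ S, Q * c p / p : ℕ) : ℝ) = Q * ∑ p ∈ S, (c p : ℝ) / p - δ := by
  refine ⟨∑ p ∈ S, ((Q * c p % p : ℕ) : ℝ) / p, Finset.sum_nonneg fun p _ => by positivity, ?_, ?_⟩
  · rw [Finset.card_eq_sum_ones, Nat.cast_sum]
    refine Finset.sum_le_sum fun p hp => ?_
    have hp0 : (0 : ℝ) < p := by exact_mod_cast hS p hp
    rw [div_le_iff₀ hp0]
    exact_mod_cast (by simpa using (Nat.mod_lt _ (hS p hp)).le)
  · rw [Nat.cast_sum, Finset.mul_sum, ← Finset.sum_sub_distrib]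
    refine Finset.sum_congr rfl fun p hp => ?_
    have hp0 : (p : ℝ) ≠ 0 := by exact_mod_cast (hS p hp).ne'
    have h1 : ((p * (Q * c p / p) + Q * c p % p : ℕ) : ℝ) = (Q * c p : ℕ) := by
      rw [Nat.div_add_mod]
    push_cast at h1
    field_simp
    linarith

/-- the primes in `[t, W)` -/
def PS (t W : ℕ) : Finset ℕ := (range W).filter fun p => p.Prime ∧ t ≤ p

theorem card_PS (t n : ℕ) : n ≤ (PS t ((4 * (t + n) + 8) * (4 * (t + n) + 8) + 1)).card := by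
  have hm := Nat.nth_strictMono Nat.infinite_setOfPred_prime
  conv_lhs => rw [← Finset.card_range n]
  refine Finset.card_le_card_of_injOn (fun i => Nat.nth Nat.Prime (t + i)) (fun i hi => ?_)
    fun i _ j _ h => by have := hm.injective h; omega
  simp only [PS, Finset.coe_filter, Finset.mem_range, Set.mem_ofPred_eq, Finset.coe_range,
    Set.mem_Iio] at hi ⊢
  exact ⟨(hm.monotone (by omega)).trans_lt (R290.RealAux.nth_prime_lt (t + n)), Nat.prime_nth_prime _,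
    (Nat.le_add_right t i).trans hm.le_apply⟩

theorem main (X : ℤ) (b t W : ℕ) (hX : |X| ≤ 2 ^ b) (hW : b + 2 ≤ (PS t W).card)
    (c : ℕ → ℕ → ℕ)
    (hc : ∀ k, ∀ p ∈ PS t W, ((c k p : ℤ) * ∏ q ∈ (PS t W).erase p, (q : ℤ)) ≡ 2 ^ k * X [ZMOD p])
    (A : ℕ → ℕ) (hA : ∀ k, A k = (∑ p ∈ PS t W, 64 * W * c k p / p) % (64 * W)) :
    0 < X ↔ ∃ k < W * W + 1, (∀ k' < k, 16 * A k' < 64 * W ∨ 15 * (64 * W) ≤ 16 * A k') ∧
      64 * W ≤ 16 * A k ∧ 2 * A k < 64 * W := by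
  have hS : ∀ p ∈ PS t W, p.Prime := fun p hp => (Finset.mem_filter.1 hp).2.1
  have hcard : (PS t W).card ≤ W := (Finset.card_filter_le _ _).trans (Finset.card_range W).le
  have hW0 : 0 < W := by omega
  set M : ℝ := ∏ p ∈ PS t W, (p : ℝ) with hM
  have hM0 : 0 < M := Finset.prod_pos fun p hp => by exact_mod_cast (hS p hp).pos
  have hM1 : (2 : ℝ) ^ (b + 2) ≤ M := by
    refine (pow_le_pow_right₀ one_le_two hW).trans ?_
    rw [← Finset.prod_const]
    exact Finset.prod_le_prod (fun _ _ => zero_le_two) fun p hp => by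
      exact_mod_cast (hS p hp).two_le
  have hM2 : M ≤ 2 ^ (W * W) := by
    have h1 : M ≤ ∏ _p ∈ PS t W, (2 : ℝ) ^ W :=
      Finset.prod_le_prod (fun _ _ => Nat.cast_nonneg _) fun p hp => by
        have : p < W := Finset.mem_range.1 (Finset.mem_filter.1 hp).1
        exact_mod_cast (this.trans Nat.lt_two_pow_self).le
    rw [Finset.prod_const, ← pow_mul] at h1
    exact h1.trans (pow_le_pow_right₀ one_le_two (Nat.mul_le_mul_left _ hcard))
  have hX' : |(X : ℝ)| ≤ 2 ^ b := by exact_mod_cast hX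
  have e0 : 0 < X ↔ 0 < (X : ℝ) / M := by
    rw [div_pos_iff_of_pos_right hM0, Int.cast_pos]
  rw [e0]
  refine sign_logic _ _ _ A (by omega) ?_ (fun h => ?_) (fun k => ?_) fun k => ?_
  · rw [abs_div, abs_of_pos hM0, div_le_iff₀ hM0]
    rw [pow_add] at hM1
    linarith
  · have h1 : (1 : ℝ) ≤ X := by exact_mod_cast e0.2 h
    rw [← mul_div_assoc, le_div_iff₀ hM0]
    nlinarith
  · rw [hA]; exact Nat.mod_lt _ (by omega)
  · obtain ⟨z, hz⟩ := crt _ hS _ (c k) (hc k)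
    obtain ⟨δ, h1, h2, h3⟩ := floor_sum _ (fun p hp => (hS p hp).pos) (64 * W) (c k)
    have h4 : ((PS t W).card : ℝ) ≤ W := by exact_mod_cast hcard
    refine ⟨δ, z - ((∑ p ∈ PS t W, 64 * W * c k p / p) / (64 * W) : ℕ), h1, ?_, ?_⟩
    · push_cast; linarith
    · have h5 : (((64 * W) * ((∑ p ∈ PS t W, 64 * W * c k p / p) / (64 * W)) + A k : ℕ) : ℝ) =
          (∑ p ∈ PS t W, 64 * W * c k p / p : ℕ) := by rw [hA, Nat.div_add_mod]
      rw [h3, hz, Nat.cast_add, Nat.cast_mul] at h5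
      rw [Int.cast_sub, Int.cast_natCast]
      push_cast at h5 ⊢
      rw [← hM] at h5
      rw [← mul_div_assoc]
      linarith

theorem prod_ite_PS (t W p : ℕ) :
    ∏ u ∈ range W, (if u.Prime ∧ t ≤ u ∧ u ≠ p then u else 1) = ∏ q ∈ (PS t W).erase p, q := by
  rw [← Finset.prod_filter]
  refine Finset.prod_congr ?_ fun _ _ => rfl
  ext u
  simp only [PS, Finset.mem_filter, Finset.mem_erase]
  tauto

theorem resid {t W p k g r : ℕ} {X : ℤ} (hp : p ∈ PS t W)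
    (hg : g = (∏ q ∈ (PS t W).erase p, q) % p) (hr : (r : ℤ) ≡ X [ZMOD p]) :
    ((((if p = 0 then 0 else 2 ^ k % p) * r * (if p = 0 then 0 else g ^ (p - 2) % p) : ℕ) : ℤ) *
      ∏ q ∈ (PS t W).erase p, (q : ℤ)) ≡ 2 ^ k * X [ZMOD p] := by
  have hS : ∀ p ∈ PS t W, p.Prime := fun p hp => (Finset.mem_filter.1 hp).2.1
  have hpp := hS p hp
  have := Fact.mk hpp
  rw [if_neg hpp.ne_zero, if_neg hpp.ne_zero, ← ZMod.intCast_eq_intCast_iff]
  have hr' : (r : ZMod p) = (X : ZMod p) := by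
    have := (ZMod.intCast_eq_intCast_iff _ _ _).2 hr
    simpa using this
  have hG : (∏ q ∈ (PS t W).erase p, (q : ZMod p)) ≠ 0 := by
    refine Finset.prod_ne_zero_iff.2 fun q hq h => ?_
    rw [Finset.mem_erase] at hq
    rw [ZMod.natCast_eq_zero_iff] at h
    exact hq.1 ((Nat.prime_dvd_prime_iff_eq hpp (hS q hq.2)).1 h).symm
  have hg' : (g : ZMod p) = ∏ q ∈ (PS t W).erase p, (q : ZMod p) := by
    rw [hg, ZMod.natCast_mod, Nat.cast_prod]
  have h1 := ZMod.pow_card_sub_one_eq_one hG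
  have h2 : p - 1 = p - 2 + 1 := by have := hpp.two_le; omega
  rw [h2, pow_succ] at h1
  push_cast
  rw [hr', hg', mul_assoc, h1, mul_one]

end Sign

open Sign

variable {α β : Type} [Rp α] [Rp β]

theorem ZC.pos {X : α → ℤ} (h : ZC X) : CH fun a => 0 < X a := by
  obtain ⟨b, th, R, hb, hth, hR, hX, hRX⟩ := h
  obtain ⟨W, hW, hWc⟩ : ∃ W : α → ℕ, PTime W ∧ ∀ a, b a + 2 ≤ (PS (th a) (W a)).card :=
    ⟨fun a => (4 * (th a + (b a + 2)) + 8) * (4 * (th a + (b a + 2)) + 8) + 1, by fun_prop,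
      fun a => card_PS _ _⟩
  have hf : FN fun q : (α × ℕ) × ℕ =>
      if q.2.Prime ∧ th q.1.1 ≤ q.2 ∧ q.2 ≠ q.1.2 then q.2 else 1 :=
    FN.ite ((CH.prime (by fun_prop)).and (CH.pt (by fun_prop))) (FN.pt (by fun_prop))
      (FN.pt (by fun_prop))
  obtain ⟨g, hg, hge⟩ := FN.prodMod (N := fun q : α × ℕ => W q.1) (p := fun q => q.2) hf
    (by fun_prop) (by fun_prop)
  have h2 : PTime fun x : ((α × ℕ) × ℕ) × ℕ × ℕ =>
      if x.1.2 = 0 then 0 else 2 ^ x.1.1.2 % x.1.2 :=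
    pt_powMod (g := fun _ => 2) (by fun_prop) (by fun_prop) (by fun_prop)
  have h3 : PTime fun x : ((α × ℕ) × ℕ) × ℕ × ℕ =>
      if x.1.2 = 0 then 0 else x.2.1 ^ (x.1.2 - 2) % x.1.2 :=
    pt_powMod (by fun_prop) (by fun_prop) (by fun_prop)
  have h4 : PTime fun x : ((α × ℕ) × ℕ) × ℕ × ℕ =>
      64 * W x.1.1.1 * ((if x.1.2 = 0 then 0 else 2 ^ x.1.1.2 % x.1.2) * x.2.2 *
        (if x.1.2 = 0 then 0 else x.2.1 ^ (x.1.2 - 2) % x.1.2)) / x.1.2 :=
    PTime.div (PTime.mul (by fun_prop) ((h2.mul (by fun_prop)).mul h3)) (by fun_prop)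
  have h5 := FN.map₂ h4 (hg.comp (g := fun x : (α × ℕ) × ℕ => (x.1.1, x.2)) (by fun_prop))
    (hR.comp (g := fun x : (α × ℕ) × ℕ => (x.1.1, x.2)) (by fun_prop))
  have h6 := FN.ite (c := fun x : (α × ℕ) × ℕ => x.2.Prime ∧ th x.1.1 ≤ x.2)
    ((CH.prime (by fun_prop)).and (CH.pt (by fun_prop))) h5 (FN.pt (PTime.const 0))
  have h7 := FN.map (g := fun x : (α × ℕ) × ℕ => x.2 % (64 * W x.1.1)) (by fun_prop)
    (FN.sum (N := fun q : α × ℕ => W q.1) h6 (by fun_prop))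
  obtain ⟨A, hA, hAe⟩ : ∃ A : α × ℕ → ℕ, FN A ∧ ∀ a k, A (a, k) = (∑ p ∈ PS (th a) (W a),
      64 * W a * ((if p = 0 then 0 else 2 ^ k % p) * R (a, p) *
        (if p = 0 then 0 else g (a, p) ^ (p - 2) % p)) / p) % (64 * W a) :=
    ⟨_, h7, fun a k => by simp only [PS, Finset.sum_filter]⟩
  have n1 : CH fun q : α × ℕ => 16 * A q < 64 * W q.1 ∨ 15 * (64 * W q.1) ≤ 16 * A q :=
    CH.subst (P := fun x : (α × ℕ) × ℕ => 16 * x.2 < 64 * W x.1.1 ∨ 15 * (64 * W x.1.1) ≤ 16 * x.2)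
      (CH.pt (by fun_prop)) hA
  have n2 : CH fun q : α × ℕ => 64 * W q.1 ≤ 16 * A q ∧ 2 * A q < 64 * W q.1 :=
    CH.subst (P := fun x : (α × ℕ) × ℕ => 64 * W x.1.1 ≤ 16 * x.2 ∧ 2 * x.2 < 64 * W x.1.1)
      (CH.pt (by fun_prop)) hA
  have n3 := CH.all (N := fun q : α × ℕ => q.2)
    (n1.comp (f := fun x : (α × ℕ) × ℕ => (x.1.1, x.2)) (by fun_prop)) (by fun_prop)
  refine (CH.ex (N := fun a => W a * W a + 1) (n3.and n2) (by fun_prop)).congr fun a => ?_
  refine main (X a) (b a) (th a) (W a) (hX a) (hWc a) _ (fun k p hp => ?_) (fun k => A (a, k))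
    (hAe a)
  have hp' := (Finset.mem_filter.1 hp).2
  exact resid hp (by rw [hge (a, p) hp'.1]; exact congrArg (· % p) (prod_ite_PS (th a) (W a) p))
    (hRX a p hp'.1 hp'.2)

end Crest.Agent.R316
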