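import Crest.Agent.R316.ZC
import Crest.Agent.R316.Sign

/-! Row 316: rationals. -/

set_option autoImplicit false

namespace Crest.Agent.R316

open Crest.Agent.PT Finset

variable {α β : Type} [Rp α] [Rp β]

theorem QC.congr {X Y : α → ℚ} (h : QC X) (e : ∀ a, Y a = X a) : QC Y := by
  obtain rfl : Y = X := funext e
  exact h

theorem QC.zc {X : α → ℤ} (h : ZC X) : QC fun a => (X a : ℚ) :=
  ⟨X, fun _ => 1, h, ZC.pt (PTime.const 1), fun a => by simp⟩

theorem QC.fn {f : α → ℕ} (h : FN f) : QC fun a => (f a : ℚ) :=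
  (QC.zc (ZC.fn h)).congr fun a => by simp

theorem QC.nat {f : α → ℕ} (h : PTime f) : QC fun a => (f a : ℚ) := QC.fn (FN.pt h)

theorem QC.const (q : ℚ) : QC fun _ : α => q :=
  ⟨fun _ => q.num, fun _ => q.den, ZC.pt (PTime.const _), ZC.pt (PTime.const _),
    fun _ => ⟨Int.natCast_ne_zero.2 q.den_ne_zero, by simpa using (Rat.num_div_den q).symm⟩⟩

theorem QC.comp {X : β → ℚ} {g : α → β} (h : QC X) (hg : PTime g) : QC fun a => X (g a) := by
  obtain ⟨N, D, hN, hD, h⟩ := h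
  exact ⟨fun a => N (g a), fun a => D (g a), hN.comp hg, hD.comp hg, fun a => h (g a)⟩

theorem QC.subst {X : α × ℕ → ℚ} {f : α → ℕ} (h : QC X) (hf : FN f) : QC fun a => X (a, f a) := by
  obtain ⟨N, D, hN, hD, h⟩ := h
  exact ⟨fun a => N (a, f a), fun a => D (a, f a), hN.subst hf, hD.subst hf, fun a => h _⟩

theorem QC.neg {X : α → ℚ} (h : QC X) : QC fun a => -X a := by
  obtain ⟨N, D, hN, hD, h⟩ := h
  refine ⟨fun a => -N a, D, hN.neg, hD, fun a => ⟨(h a).1, ?_⟩⟩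
  simp only [(h a).2]
  push_cast
  ring

theorem QC.add {X Y : α → ℚ} (hX : QC X) (hY : QC Y) : QC fun a => X a + Y a := by
  obtain ⟨N, D, hN, hD, h⟩ := hX
  obtain ⟨N', D', hN', hD', h'⟩ := hY
  refine ⟨fun a => N a * D' a + N' a * D a, fun a => D a * D' a, (hN.mul hD').add (hN'.mul hD),
    hD.mul hD', fun a => ⟨mul_ne_zero (h a).1 (h' a).1, ?_⟩⟩
  have h1 : (D a : ℚ) ≠ 0 := by exact_mod_cast (h a).1
  have h2 : (D' a : ℚ) ≠ 0 := by exact_mod_cast (h' a).1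
  simp only [(h a).2, (h' a).2]
  push_cast
  field_simp

theorem QC.sub {X Y : α → ℚ} (hX : QC X) (hY : QC Y) : QC fun a => X a - Y a :=
  (hX.add hY.neg).congr fun _ => sub_eq_add_neg _ _

theorem QC.mul {X Y : α → ℚ} (hX : QC X) (hY : QC Y) : QC fun a => X a * Y a := by
  obtain ⟨N, D, hN, hD, h⟩ := hX
  obtain ⟨N', D', hN', hD', h'⟩ := hY
  refine ⟨fun a => N a * N' a, fun a => D a * D' a, hN.mul hN',
    hD.mul hD', fun a => ⟨mul_ne_zero (h a).1 (h' a).1, ?_⟩⟩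
  simp only [(h a).2, (h' a).2]
  push_cast
  exact div_mul_div_comm _ _ _ _

theorem QC.pos {X : α → ℚ} (h : QC X) : CH fun a => 0 < X a := by
  obtain ⟨N, D, hN, hD, h⟩ := h
  refine (hN.mul hD).pos.congr fun a => ?_
  simp only [(h a).2]
  rw [div_pos_iff, ← mul_pos_iff]
  exact_mod_cast Iff.rfl

theorem QC.eq_zero {X : α → ℚ} (h : QC X) : CH fun a => X a = 0 := by
  refine (h.pos.not.and h.neg.pos.not).congr fun a => ?_
  constructor
  · intro e
    simp [e]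
  · rintro ⟨h1, h2⟩
    linarith [not_lt.1 h1, not_lt.1 h2]

theorem QC.ite {c : α → Prop} [∀ a, Decidable (c a)] {X Y : α → ℚ} (hc : CH c) (hX : QC X)
    (hY : QC Y) : QC fun a => if c a then X a else Y a := by
  obtain ⟨N, D, hN, hD, h⟩ := hX
  obtain ⟨N', D', hN', hD', h'⟩ := hY
  refine ⟨fun a => if c a then N a else N' a, fun a => if c a then D a else D' a,
    ZC.ite hc hN hN', ZC.ite hc hD hD', fun a => ?_⟩
  dsimp only
  split_ifs
  · exact h a
  · exact h' a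

theorem QC.inv {X : α → ℚ} (h : QC X) : QC fun a => (X a)⁻¹ := by
  have hz := h.eq_zero
  obtain ⟨N, D, hN, hD, h⟩ := h
  refine ⟨fun a => if X a = 0 then 0 else D a, fun a => if X a = 0 then 1 else N a,
    ZC.ite hz (ZC.pt (PTime.const 0)) hD, ZC.ite hz (ZC.pt (PTime.const 1)) hN, fun a => ?_⟩
  dsimp only
  split_ifs with h0
  · simp [h0]
  · refine ⟨fun e => h0 ?_, ?_⟩
    · rw [(h a).2, e]
      simp
    · rw [(h a).2, inv_div]

theorem QC.div {X Y : α → ℚ} (hX : QC X) (hY : QC Y) : QC fun a => X a / Y a :=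
  (hX.mul hY.inv).congr fun _ => div_eq_mul_inv _ _

theorem QC.sum {X : α × ℕ → ℚ} {N : α → ℕ} (h : QC X) (hN : PTime N) :
    QC fun a => ∑ u ∈ range (N a), X (a, u) := by
  obtain ⟨Nu, D, hNu, hD, h⟩ := h
  have h1 : ZC fun q : (α × ℕ) × ℕ => if q.2 = q.1.2 then Nu q.1 else D (q.1.1, q.2) :=
    ZC.ite (CH.pt (by fun_prop)) (hNu.comp (by fun_prop))
      (hD.comp (g := fun q : (α × ℕ) × ℕ => (q.1.1, q.2)) (by fun_prop))
  have h2 : ZC fun p : α × ℕ => ∏ v ∈ range (N p.1), if v = p.2 then Nu p else D (p.1, v) :=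
    h1.prod (hN.comp PTime.fst')
  refine ⟨_, _, h2.sum hN, hD.prod hN, fun a => ⟨prod_ne_zero_iff.2 fun u _ => (h _).1, ?_⟩⟩
  have hne : ∀ u, (D (a, u) : ℚ) ≠ 0 := fun u => by exact_mod_cast (h _).1
  push_cast
  rw [sum_div]
  refine sum_congr rfl fun u hu => ?_
  rw [← mul_prod_erase _ _ hu, ← mul_prod_erase _ (fun v => (D (a, v) : ℚ)) hu, if_pos rfl,
    prod_congr rfl fun v hv => if_neg (ne_of_mem_erase hv), (h _).2,
    mul_div_mul_right _ _ (prod_ne_zero_iff.2 fun v _ => hne v)]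

theorem QC.prod {X : α × ℕ → ℚ} {N : α → ℕ} (h : QC X) (hN : PTime N) :
    QC fun a => ∏ u ∈ range (N a), X (a, u) := by
  obtain ⟨Nu, D, hNu, hD, h⟩ := h
  refine ⟨_, _, hNu.prod hN, hD.prod hN, fun a => ⟨prod_ne_zero_iff.2 fun u _ => (h _).1, ?_⟩⟩
  push_cast
  rw [← prod_div_distrib]
  exact prod_congr rfl fun u _ => (h _).2

theorem QC.pow {X : α → ℚ} {k : α → ℕ} (h : QC X) (hk : PTime k) : QC fun a => X a ^ k a :=
  ((h.comp (g := fun p : α × ℕ => p.1) PTime.fst').prod hk).congr fun a => by simp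

theorem QC.factorial {k : α → ℕ} (hk : PTime k) : QC fun a => ((k a).factorial : ℚ) := by
  have h1 : QC fun p : α × ℕ => ((p.2 + 1 : ℕ) : ℚ) := QC.nat (by fun_prop)
  refine (h1.prod hk).congr fun a => ?_
  rw [← prod_range_add_one_eq_factorial]
  push_cast
  rfl

theorem QC.bound {X : α → ℚ} (h : QC X) :
    ∃ b : α → ℕ, PTime b ∧ ∀ a, |X a| ≤ 2 ^ b a ∧ (X a ≠ 0 → 1 / 2 ^ b a ≤ |X a|) := by
  obtain ⟨N, D, ⟨b, -, -, hb, -, -, hN, -⟩, ⟨b', -, -, hb', -, -, hD, -⟩, h⟩ := h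
  refine ⟨fun a => b a + b' a, hb.add hb', fun a => ?_⟩
  have h1 : (1 : ℚ) ≤ |(D a : ℚ)| := by exact_mod_cast Int.one_le_abs (h a).1
  have h2 : |(N a : ℚ)| ≤ 2 ^ b a := by exact_mod_cast hN a
  have h3 : |(D a : ℚ)| ≤ 2 ^ b' a := by exact_mod_cast hD a
  have h4 : (2 : ℚ) ^ b a ≤ 2 ^ (b a + b' a) := pow_le_pow_right₀ one_le_two (by omega)
  have h5 : (2 : ℚ) ^ b' a ≤ 2 ^ (b a + b' a) := pow_le_pow_right₀ one_le_two (by omega)
  rw [(h a).2, abs_div]
  refine ⟨(div_le_self (abs_nonneg _) h1).trans (h2.trans h4), fun h0 => ?_⟩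
  have h6 : N a ≠ 0 := fun e => h0 (by rw [e]; simp)
  have h7 : (1 : ℚ) ≤ |(N a : ℚ)| := by exact_mod_cast Int.one_le_abs h6
  exact div_le_div₀ (abs_nonneg _) h7 (by linarith) (h3.trans h5)

theorem QC.lagc {D j k : α → ℕ} (hD : PTime D) (hj : PTime j) (hk : PTime k) :
    QC fun a => lagc (D a) (j a) (k a) := by
  have h1 : QC fun a => (lcZ (D a) (j a) (k a) : ℚ) :=
    QC.zc (zc_lcZ.comp (g := fun a => (D a, j a, k a)) (by fun_prop))
  have h2 : QC fun p : α × ℕ => if p.2 = j p.1 then (1 : ℚ) else (j p.1 : ℚ) - p.2 :=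
    QC.ite (CH.pt (by fun_prop)) (QC.const 1)
      ((QC.nat (hj.comp PTime.fst')).sub (QC.nat PTime.snd'))
  refine (h1.div (h2.prod (N := fun a => D a + 1) (by fun_prop))).congr fun a => ?_
  unfold R316.lagc
  congr 1
  rw [← filter_ne', prod_filter]
  exact prod_congr rfl fun i _ => by simp

end Crest.Agent.R316
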