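import Crest.Agent.R316.PTB

/-! Row 316: a criterion for real points by relative precision. -/

set_option autoImplicit false

namespace Crest.Agent.R316

open Finset Filter Topology

/-- the scales -/
def scl (b D e : ℕ) : ℚ := 2 ^ e / 2 ^ (b + D + 3)

namespace RealC

theorem exists_conj {D : ℕ} {z : ℕ → ℂ}
    (hconj : ∀ φ : ℂ → Prop,
      (cnt D fun j => φ ((starRingEnd ℂ) (z j))) = cnt D fun j => φ (z j))
    {i : ℕ} (hi : i < D) : ∃ j < D, z j = (starRingEnd ℂ) (z i) := by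
  have := hconj fun w => w = (starRingEnd ℂ) (z i)
  rw [← cnt_pos, ← this, cnt_pos]
  exact ⟨i, hi, rfl⟩

theorem conj_of_sq {w : ℂ} (h : w ^ 2 + 1 = 0) : (starRingEnd ℂ) w = -w := by
  have : (w - Complex.I) * (w + Complex.I) = 0 := by
    linear_combination h - Complex.I_sq
  rcases mul_eq_zero.1 this with h | h
  · rw [sub_eq_zero.1 h, Complex.conj_I]
  · rw [eq_neg_of_add_eq_zero_left h, map_neg, Complex.conj_I]

theorem exists_scale (D b : ℕ) {η : ℝ} (h1 : 1 / 2 ^ b ≤ 2 * η) (h2 : 2 * η ≤ 2 ^ b) :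
    ∃ e < 2 * b + D + 4, (D + 2) * (2 ^ e / 2 ^ (b + D + 3) : ℝ) ≤ η ∧
      η < 2 * ((D + 2) * (2 ^ e / 2 ^ (b + D + 3) : ℝ)) := by
  have hD : ((D : ℝ) + 2) ≤ 2 ^ (D + 2) := by
    exact_mod_cast (Nat.lt_two_pow_self (n := D + 2)).le
  have hD0 : (0 : ℝ) < (D : ℝ) + 2 := by positivity
  have hb : (0 : ℝ) < 2 ^ b := by positivity
  have hB : (0 : ℝ) < 2 ^ (b + D + 3) := by positivity
  have eB : (2 : ℝ) ^ (b + D + 3) = 2 * 2 ^ b * 2 ^ (D + 2) := by ring
  rw [div_le_iff₀ hb] at h1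
  have hx : 1 ≤ η * 2 ^ (b + D + 3) / (D + 2) := by
    rw [le_div_iff₀ hD0, eB]
    have : (0 : ℝ) < 2 ^ (D + 2) := by positivity
    nlinarith
  obtain ⟨e, he1, he2⟩ := exists_nat_pow_near hx (one_lt_two (α := ℝ))
  rw [le_div_iff₀ hD0] at he1
  rw [div_lt_iff₀ hD0, pow_succ 2 e] at he2
  refine ⟨e, ?_, ?_, ?_⟩
  · have h3 : (2 : ℝ) ^ e < 2 ^ (2 * b + D + 4) := by
      have e2 : (2 : ℝ) ^ (2 * b + D + 4) = 2 * 2 ^ b * 2 ^ (b + D + 3) := by ring
      have h4 : (0 : ℝ) < 2 ^ e := by positivity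
      have h5 : (0 : ℝ) ≤ D := by positivity
      rw [e2]
      nlinarith [mul_pos hb hB]
    exact (pow_lt_pow_iff_right₀ one_lt_two).1 h3
  · rw [← mul_div_assoc, div_le_iff₀ hB]
    linarith
  · rw [← mul_div_assoc, ← mul_div_assoc, lt_div_iff₀ hB]
    linarith

end RealC

open RealC

theorem real_crit (D b : ℕ) (z : ℕ → ℂ)
    (hconj : ∀ φ : ℂ → Prop,
      (cnt D fun j => φ ((starRingEnd ℂ) (z j))) = cnt D fun j => φ (z j))
    (hsep : ∀ i < D, ∀ j < D, ‖z i - z j‖ ≤ 2 ^ b ∧ (z i - z j ≠ 0 → 1 / 2 ^ b ≤ ‖z i - z j‖))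
    (hI : InG D z Complex.I) (hI' : InG D z (-Complex.I)) {θ : ℝ} (h0 : 0 < θ) (h1 : θ < 1)
    {t : ℂ} (ht : InG D z t) :
    t.im = 0 ↔ ∀ k < D, z k ^ 2 + 1 = 0 → ∀ e < 2 * b + D + 4, ∀ m < 4 * D * (D + 2) + 1,
      ∀ l < D + 1,
        (cnt D fun j => ‖z j - t - (m : ℂ) * (scl b D e : ℂ) * z k‖ < (l + θ) * (scl b D e : ℝ)) =
          cnt D fun j => ‖z j - t + (m : ℂ) * (scl b D e : ℂ) * z k‖ < (l + θ) * (scl b D e : ℝ) := by
  have hs' : ∀ e, ((scl b D e : ℚ) : ℂ) = (((scl b D e : ℚ) : ℝ) : ℂ) := fun e => by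
    rw [Complex.ofReal_ratCast]
  constructor
  · intro him k _ hk e _ m _ l _
    have htc : (starRingEnd ℂ) t = t := Complex.conj_eq_iff_im.2 him
    rw [← hconj fun w => ‖w - t - (m : ℂ) * (scl b D e : ℂ) * z k‖ < (l + θ) * (scl b D e : ℝ)]
    refine cnt_congr fun j _ => ?_
    rw [← Complex.norm_conj]
    simp only [map_sub, map_mul, Complex.conj_conj, htc, conj_of_sq hk, map_natCast, map_ratCast,
      mul_neg, sub_neg_eq_add]
  · intro H
    by_contra him
    obtain ⟨i0, hi0, hti⟩ := ht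
    obtain ⟨k0, hk0, hk1, hk2, hk3⟩ : ∃ k < D, z k ^ 2 + 1 = 0 ∧ ‖z k‖ = 1 ∧
        (starRingEnd ℂ) t = t - ((2 * |t.im| : ℝ) : ℂ) * z k := by
      rcases lt_or_gt_of_ne him with h | h
      · obtain ⟨k, hk, e⟩ := hI'
        refine ⟨k, hk, by rw [← e]; simp, by rw [← e]; simp, ?_⟩
        rw [← e, abs_of_neg h]
        apply Complex.ext <;> simp
        ring
      · obtain ⟨k, hk, e⟩ := hI
        refine ⟨k, hk, by rw [← e]; simp, by rw [← e]; simp, ?_⟩
        rw [← e, abs_of_pos h]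
        apply Complex.ext <;> simp
        ring
    generalize hη : |t.im| = η at hk3
    have hη0 : 0 < η := hη ▸ abs_pos.2 him
    obtain ⟨j0, hj0, hj0'⟩ := exists_conj hconj hi0
    have hn : ‖z i0 - z j0‖ = 2 * η := by
      rw [hj0', ← hti, hk3, sub_sub_cancel, norm_mul, hk2, mul_one, Complex.norm_real,
        Real.norm_of_nonneg (by positivity)]
    obtain ⟨hu, hl⟩ := hsep i0 hi0 j0 hj0
    replace hl := hl (by rw [← norm_ne_zero_iff, hn]; positivity)
    rw [hn] at hu hl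
    obtain ⟨e, he, he1, he2⟩ := exists_scale D b hl hu
    have es : ((scl b D e : ℚ) : ℝ) = 2 ^ e / 2 ^ (b + D + 3) := by simp [scl]
    rw [← es] at he1 he2
    have hs0 : (0 : ℝ) < ((scl b D e : ℚ) : ℝ) := by rw [es]; positivity
    replace H := H k0 hk0 hk1 e he
    rw [hs'] at H
    generalize ((scl b D e : ℚ) : ℝ) = s at H he1 he2 hs0
    have hm : ∀ k : ℕ, (⌊2 * η * k / s⌋₊ : ℝ) * s ≤ 2 * η * k ∧
        2 * η * k < (⌊2 * η * k / s⌋₊ : ℝ) * s + s := fun k => by
      have a1 := Nat.floor_le (a := 2 * η * k / s) (by positivity)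
      have a2 := Nat.lt_floor_add_one (2 * η * k / s)
      rw [le_div_iff₀ hs0] at a1
      rw [div_lt_iff₀ hs0] at a2
      exact ⟨a1, by linarith⟩
    have hnorm : ∀ x : ℝ, ‖(x : ℂ) * z k0‖ = |x| := fun x => by
      rw [norm_mul, hk2, mul_one, Complex.norm_real, Real.norm_eq_abs]
    have key : ∀ k : ℕ, k ≤ D → ∃ j < D,
        ‖z j - t - (⌊2 * η * k / s⌋₊ : ℂ) * (s : ℂ) * z k0‖ < (k + θ) * s := by
      intro k
      induction k with
      | zero =>
        intro _
        refine ⟨i0, hi0, ?_⟩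
        rw [← hti]
        simpa using mul_pos h0 hs0
      | succ k ih =>
        intro hk
        obtain ⟨j, hj, hjn⟩ := ih (by omega)
        obtain ⟨j', hj', ej⟩ := exists_conj hconj hj
        have hmlt : ⌊2 * η * (k + 1 : ℕ) / s⌋₊ < 4 * D * (D + 2) + 1 := by
          refine Nat.lt_succ_of_le (Nat.floor_le_of_le ?_)
          rw [div_le_iff₀ hs0]
          have a1 : ((k + 1 : ℕ) : ℝ) ≤ D := by exact_mod_cast hk
          have a2 : (0 : ℝ) ≤ D := by positivity
          push_cast at a1 ⊢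
          nlinarith
        rw [← cnt_pos, H _ hmlt (k + 1) (by omega), cnt_pos]
        refine ⟨j', hj', ?_⟩
        rw [← Complex.norm_conj] at hjn
        simp only [map_sub, map_mul, hk3, conj_of_sq hk1, map_natCast, Complex.conj_ofReal,
          ← ej] at hjn
        have a1 := hm k
        have a2 := hm (k + 1)
        generalize ⌊2 * η * k / s⌋₊ = m at a1 hjn
        generalize ⌊2 * η * (k + 1 : ℕ) / s⌋₊ = m' at a2
        have a3 : z j' - t + (m' : ℂ) * (s : ℂ) * z k0 =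
            (z j' - (t - ((2 * η : ℝ) : ℂ) * z k0) - (m : ℂ) * (s : ℂ) * -z k0) +
              ((m' * s - m * s - 2 * η : ℝ) : ℂ) * z k0 := by
          push_cast
          ring
        rw [a3]
        refine (norm_add_le _ _).trans_lt ?_
        rw [hnorm]
        have a4 : |(m' : ℝ) * s - m * s - 2 * η| ≤ s := by
          push_cast at a2
          rw [abs_le]
          constructor <;> linarith
        rw [Nat.cast_succ]
        linarith
    have key' : ∀ k : ℕ, k ≤ D → ∃ j < D, ‖z j - t - ((2 * η * k : ℝ) : ℂ) * z k0‖ < η := by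
      intro k hk
      obtain ⟨j, hj, hjn⟩ := key k hk
      refine ⟨j, hj, ?_⟩
      have a1 := hm k
      generalize ⌊2 * η * k / s⌋₊ = m at a1 hjn
      have a3 : z j - t - ((2 * η * k : ℝ) : ℂ) * z k0 =
          (z j - t - (m : ℂ) * (s : ℂ) * z k0) + ((m * s - 2 * η * k : ℝ) : ℂ) * z k0 := by
        push_cast
        ring
      rw [a3]
      refine (norm_add_le _ _).trans_lt ?_
      rw [hnorm]
      have a4 : |(m : ℝ) * s - 2 * η * k| ≤ s := by
        rw [abs_le]
        constructor <;> linarith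
      have a5 : (k : ℝ) ≤ D := by exact_mod_cast hk
      nlinarith
    choose! f hf1 hf2 using key'
    have hcard := card_le_card_of_injOn (s := range (D + 1)) (t := range D) f
      (fun k hk => by simpa using hf1 k (by simpa [Nat.lt_succ_iff] using hk))
      (fun k hk k' hk' hkk => by
        have b1 := hf2 k (by simpa [Nat.lt_succ_iff] using hk)
        have b2 := hf2 k' (by simpa [Nat.lt_succ_iff] using hk')
        rw [hkk] at b1
        have b3 : ((2 * η * k - 2 * η * k' : ℝ) : ℂ) * z k0 =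
            (z (f k') - t - ((2 * η * k' : ℝ) : ℂ) * z k0) -
              (z (f k') - t - ((2 * η * k : ℝ) : ℂ) * z k0) := by
          push_cast
          ring
        have b4 := hnorm (2 * η * k - 2 * η * k')
        rw [b3] at b4
        have b5 := (norm_sub_le _ _).trans_lt (add_lt_add b2 b1)
        rw [b4, abs_lt] at b5
        have b6 : (k : ℝ) < k' + 1 := by nlinarith
        have b7 : (k' : ℝ) < k + 1 := by nlinarith
        have b8 : k < k' + 1 := by exact_mod_cast b6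
        have b9 : k' < k + 1 := by exact_mod_cast b7
        omega)
    simp at hcard

/-- most offsets avoid a finite set of numbers -/
theorem good_count {ι : Type} (s : Finset ι) (u : ι → ℝ) {T : ℕ} (hT : s.card ≤ T) :
    2 * T + 1 < 2 * cnt (2 * T + 1) fun θ => ∀ i ∈ s, ∀ l : ℕ,
      1 / (2 * (2 * T + 1 : ℝ)) ≤ |u i - (l + (2 * θ + 1) / (2 * (2 * T + 1 : ℝ)))| := by
  classical
  have h1 := cnt_add_not (2 * T + 1) fun θ => ∀ i ∈ s, ∀ l : ℕ,
      1 / (2 * (2 * T + 1 : ℝ)) ≤ |u i - (l + (2 * θ + 1) / (2 * (2 * T + 1 : ℝ)))|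
  have h2 : (cnt (2 * T + 1) fun θ => ¬ ∀ i ∈ s, ∀ l : ℕ,
      1 / (2 * (2 * T + 1 : ℝ)) ≤ |u i - (l + (2 * θ + 1) / (2 * (2 * T + 1 : ℝ)))|) ≤ T := by
    refine le_trans ?_ ((card_image_le (s := s)
      (f := fun i => ⌊(2 * T + 1 : ℝ) * u i⌋₊ % (2 * T + 1))).trans hT)
    refine card_le_card fun c hc => ?_
    simp only [mem_filter, mem_range, not_forall, not_le] at hc
    obtain ⟨hc, i, hi, l, hl⟩ := hc
    refine mem_image.2 ⟨i, hi, ?_⟩
    have hT0 : (0 : ℝ) < 2 * T + 1 := by positivity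
    have e : u i - (l + (2 * c + 1) / (2 * (2 * T + 1 : ℝ))) =
        (2 * ((2 * T + 1) * u i - ((2 * T + 1) * l + c)) - 1) / (2 * (2 * T + 1 : ℝ)) := by
      field_simp
      ring
    rw [e, abs_div, abs_of_pos (a := 2 * (2 * T + 1 : ℝ)) (by positivity),
      div_lt_div_iff_of_pos_right (by positivity), abs_lt] at hl
    have e2 : ⌊(2 * T + 1 : ℝ) * u i⌋₊ = (2 * T + 1) * l + c := by
      have h0 : (0 : ℝ) ≤ (2 * T + 1) * l + c := by positivity
      rw [Nat.floor_eq_iff (by linarith)]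
      push_cast
      constructor <;> linarith
    rw [e2, Nat.mul_add_mod, Nat.mod_eq_of_lt hc]
  omega

end Crest.Agent.R316
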