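import Crest.Agent.R316.Small
import Crest.Agent.R316.RealC

/-! Row 316: the indicator of real grid points. -/

set_option autoImplicit false

namespace Crest.Agent.R316

open Crest.Agent.PT Finset

variable {α β : Type} [Rp α] [Rp β]

namespace RealT

theorem dg_lt {D u : ℕ} (h : u < D) : dg D u 0 = u := by
  simp [dg, Nat.mod_eq_of_lt h]

theorem scl_pos (b D e : ℕ) : 0 < scl b D e := by unfold scl; positivity

def EE (b D : ℕ) : ℕ := 2 * b + D + 4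
def MM (D : ℕ) : ℕ := 4 * D * (D + 2) + 1
def TT (b D : ℕ) : ℕ := D * (D * D) * (EE b D * MM D * 2)

/-- the offset -/
noncomputable def off (T θ : ℕ) : ℝ := (2 * θ + 1) / (2 * (2 * T + 1 : ℝ))

def Good (b D : ℕ) (z : ℕ → ℂ) (θ : ℕ) : Prop :=
  ∀ x ∈ (range D ×ˢ range D ×ˢ range D) ×ˢ
      ((range (EE b D) ×ˢ range (MM D)) ×ˢ ({1, -1} : Finset ℚ)), ∀ l : ℕ,
    1 / (2 * (2 * TT b D + 1 : ℝ)) ≤
      |‖z x.1.1 - z x.1.2.2 + (x.2.2 : ℂ) * ((x.2.1.2 : ℂ) * (scl b D x.2.1.1 : ℂ) * z x.1.2.1)‖ /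
        (scl b D x.2.1.1 : ℝ) - (l + (2 * θ + 1) / (2 * (2 * TT b D + 1 : ℝ)))|

theorem good_many (b D : ℕ) (z : ℕ → ℂ) :
    2 * TT b D + 1 < 2 * cnt (2 * TT b D + 1) (Good b D z) := by
  refine good_count _ _ ?_
  simp only [card_product, card_range, TT]
  exact Nat.mul_le_mul_left _ (Nat.mul_le_mul_left _ card_le_two)

theorem off_pos (T θ : ℕ) : 0 < off T θ := by unfold off; positivity

theorem off_lt {T θ : ℕ} (h : θ < 2 * T + 1) : off T θ < 1 := by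
  unfold off
  rw [div_lt_one (by positivity)]
  have : (θ : ℝ) + 1 ≤ 2 * T + 1 := by exact_mod_cast h
  linarith

theorem gap {x s o τ l D : ℝ} (hs : 0 < s) (hτ : 0 < τ) (hD : 0 < D) (hl : l + o ≤ D)
    (h : 1 / τ ≤ |x / s - (l + o)|) :
    x ≤ (l + o) * s * (1 - 1 / (τ * D)) ∨ (l + o) * s * (1 + 1 / (τ * D)) ≤ x := by
  have k : (l + o) * s * (1 / (τ * D)) ≤ 1 / τ * s := by
    have : (l + o) * s * (1 / (τ * D)) = (l + o) / D * (1 / τ * s) := by field_simp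
    rw [this]
    exact mul_le_of_le_one_left (by positivity) ((div_le_one hD).2 hl)
  have e : x = x / s * s := by field_simp
  rcases le_abs'.1 h with h | h
  · left
    have := mul_le_mul_of_nonneg_right h hs.le
    nlinarith
  · right
    have := mul_le_mul_of_nonneg_right h hs.le
    nlinarith

/-- index type: `((((a, θ), e), m), l)` -/
abbrev Ix (α : Type) := (((α × ℕ) × ℕ) × ℕ) × ℕ

/-- side conditions on the index -/
def Side (b D : α → ℕ) (z : α → ℕ → ℂ) (q : Ix α) : Prop :=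
  q.1.1.1.2 < 2 * TT (b q.1.1.1.1) (D q.1.1.1.1) + 1 ∧
    Good (b q.1.1.1.1) (D q.1.1.1.1) (z q.1.1.1.1) q.1.1.1.2 ∧
    q.1.1.2 < EE (b q.1.1.1.1) (D q.1.1.1.1) ∧ q.1.2 < MM (D q.1.1.1.1) ∧ q.2 < D q.1.1.1.1 + 1

theorem pt_TT {b D : α → ℕ} (hb : PTime b) (hD : PTime D) : PTime fun a => TT (b a) (D a) := by
  unfold TT EE MM
  fun_prop

theorem ind_disc {D b : α → ℕ} {z : α → ℕ → ℂ} (hG : GF D z) (hb : PTime b) (c : ℚ)
    (hc : c ∈ ({1, -1} : Finset ℚ)) :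
    IND (fun (q : Ix α) v => OnG (D q.1.1.1.1) (z q.1.1.1.1) 3 v ∧ Side b D z q) fun q v =>
      ‖v 0 - v 2 + (c : ℂ) * ((q.1.2 : ℂ) * (scl (b q.1.1.1.1) (D q.1.1.1.1) q.1.1.2 : ℂ) * v 1)‖ <
        (q.2 + off (TT (b q.1.1.1.1) (D q.1.1.1.1)) q.1.1.1.2) *
          (scl (b q.1.1.1.1) (D q.1.1.1.1) q.1.1.2 : ℝ) := by
  have hπ : PTime fun q : Ix α => q.1.1.1.1 := by fun_prop
  have hD' : PTime fun q : Ix α => D q.1.1.1.1 := hG.1.comp hπ
  have hb' : PTime fun q : Ix α => b q.1.1.1.1 := hb.comp hπ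
  have hT : PTime fun q : Ix α => TT (b q.1.1.1.1) (D q.1.1.1.1) := pt_TT hb' hD'
  have hT2 : PTime fun q : Ix α => 2 * (2 * TT (b q.1.1.1.1) (D q.1.1.1.1) + 1) :=
    (PTime.const 2).mul (((PTime.const 2).mul hT).add (PTime.const 1))
  have hs : QC fun q : Ix α => scl (b q.1.1.1.1) (D q.1.1.1.1) q.1.1.2 :=
    ((QC.const 2).pow (k := fun q : Ix α => q.1.1.2) (by fun_prop)).div
      ((QC.const 2).pow ((hb'.add hD').add (PTime.const 3)))
  have hF : PF fun (q : Ix α) v => v 0 - v 2 + (c : ℂ) *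
      ((q.1.2 : ℂ) * (scl (b q.1.1.1.1) (D q.1.1.1.1) q.1.1.2 : ℂ) * v 1) :=
    ((PF.var (PU.const 0)).sub (PF.var (PU.const 2))).add ((PF.const (QC.const c)).mul
      (((PF.nat (f := fun q : Ix α => q.1.2) (by fun_prop)).mul (PF.const hs)).mul
        (PF.var (PU.const 1))))
  have hρ : QC fun q : Ix α => (((q.2 : ℕ) : ℚ) + ((2 * q.1.1.1.2 + 1 : ℕ) : ℚ) /
      ((2 * (2 * TT (b q.1.1.1.1) (D q.1.1.1.1) + 1) : ℕ) : ℚ)) *
        scl (b q.1.1.1.1) (D q.1.1.1.1) q.1.1.2 :=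
    ((QC.nat (by fun_prop)).add ((QC.nat (by fun_prop)).div (QC.nat hT2))).mul hs
  have hL : PTime fun q : Ix α =>
      2 * (2 * TT (b q.1.1.1.1) (D q.1.1.1.1) + 1) * (D q.1.1.1.1 + 1) :=
    hT2.mul (hD'.add (PTime.const 1))
  refine (ind_small (hG.comp hπ) (PU.const 3) hF hρ hL).mono ?_ ?_
  · rintro ⟨⟨⟨⟨a, θ⟩, e⟩, m⟩, l⟩ v ⟨hv, h1, h2, h3, h4, h5⟩
    have hs0 := scl_pos (b a) (D a) e
    refine ⟨hv, by positivity, Nat.mul_pos (by positivity) (by positivity), fun v' hv' => ?_⟩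
    obtain ⟨j, hj, e0⟩ := hv' 0 (by omega)
    obtain ⟨k, hk, e1⟩ := hv' 1 (by omega)
    obtain ⟨i, hi, e2⟩ := hv' 2 (by omega)
    have := h2 ((j, k, i), (e, m), c) (by
      simp only [mem_product, mem_range]; exact ⟨⟨hj, hk, hi⟩, ⟨h3, h4⟩, hc⟩) l
    have h6 : (l : ℝ) ≤ D a := by exact_mod_cast Nat.lt_succ_iff.1 h5
    have h7 := off_lt h1
    have := gap (D := (D a : ℝ) + 1) (by exact_mod_cast hs0) (by positivity) (by positivity)
      (by unfold off at h7; linarith) this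
    simp only [glue_lt (show 0 < 3 by omega), glue_lt (show 1 < 3 by omega),
      glue_lt (show 2 < 3 by omega), e0, e1, e2]
    push_cast
    exact this
  · rintro ⟨⟨⟨⟨a, θ⟩, e⟩, m⟩, l⟩ v -
    simp only [glue_lt (show 0 < 3 by omega), glue_lt (show 1 < 3 by omega),
      glue_lt (show 2 < 3 by omega), off]
    push_cast
    rfl

theorem onG_glue {D m : ℕ} {z : ℕ → ℂ} {v : Pt} (hv : OnG D z m v) {i : ℕ} (hi : i < D) :
    OnG D z (m + 1) (glue 1 (fun k => z (dg D i k)) v) := by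
  rintro (_ | k) hk
  · exact ⟨i, hi, by rw [glue_lt zero_lt_one, dg_lt hi]⟩
  · rw [glue_add]; exact hv k (by omega)

theorem ind_cnt {D b : α → ℕ} {z : α → ℕ → ℂ} (hG : GF D z) (hb : PTime b) :
    IND (fun (q : Ix α) v => OnG (D q.1.1.1.1) (z q.1.1.1.1) 2 v ∧ Side b D z q) fun q v =>
      (cnt (D q.1.1.1.1) fun j => ‖z q.1.1.1.1 j - v 1 -
        (q.1.2 : ℂ) * (scl (b q.1.1.1.1) (D q.1.1.1.1) q.1.1.2 : ℂ) * v 0‖ <
          (q.2 + off (TT (b q.1.1.1.1) (D q.1.1.1.1)) q.1.1.1.2) *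
            (scl (b q.1.1.1.1) (D q.1.1.1.1) q.1.1.2 : ℝ)) =
      cnt (D q.1.1.1.1) fun j => ‖z q.1.1.1.1 j - v 1 +
        (q.1.2 : ℂ) * (scl (b q.1.1.1.1) (D q.1.1.1.1) q.1.1.2 : ℂ) * v 0‖ <
          (q.2 + off (TT (b q.1.1.1.1) (D q.1.1.1.1)) q.1.1.1.2) *
            (scl (b q.1.1.1.1) (D q.1.1.1.1) q.1.1.2 : ℝ) := by
  have hπ : PTime fun q : Ix α => q.1.1.1.1 := by fun_prop
  refine (IND.cnt_eq ((hG.comp hπ).fam (PU.const 1)) (ind_disc hG hb (-1) (by simp))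
    (ind_disc hG hb 1 (by simp))).mono ?_ ?_
  · rintro q v ⟨hv, hs⟩ i hi
    exact ⟨onG_glue hv (by simpa using hi), hs⟩
  · rintro q v -
    have g1 : ∀ y : Pt, glue 1 y v 1 = v 0 := fun y => glue_add 1 0 y v
    have g2 : ∀ y : Pt, glue 1 y v 2 = v 1 := fun y => glue_add 1 1 y v
    simp only [pow_one, glue_lt zero_lt_one, g1, g2]
    refine Eq.congr (cnt_congr fun j hj => ?_) (cnt_congr fun j hj => ?_)
    · rw [dg_lt hj]; simp [sub_eq_add_neg]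
    · rw [dg_lt hj]; simp

theorem aux {D : α → ℕ} {z : α → ℕ → ℂ} (hG : GF D z) (hI : ∀ a, InG (D a) (z a) Complex.I)
    (hI' : ∀ a, InG (D a) (z a) (-Complex.I)) :
    ∃ (Θ : α → ℕ) (Good : α → ℕ → Prop), PTime Θ ∧ (∀ a, Θ a < 2 * cnt (Θ a) (Good a)) ∧
      IND (fun (p : α × ℕ) v => p.2 < Θ p.1 ∧ Good p.1 p.2 ∧ InG (D p.1) (z p.1) (v 0))
        fun _ v => (v 0).im = 0 := by
  have hD := hG.1
  obtain ⟨b, hb, hsep⟩ := grid_sep hG (PU.const 2)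
    ((PF.var (α := α) (PU.const 0)).sub (PF.var (PU.const 1)))
  have hT := pt_TT hb hD
  refine ⟨fun a => 2 * TT (b a) (D a) + 1, fun a => Good (b a) (D a) (z a), by fun_prop,
    fun a => good_many _ _ _, ?_⟩
  have hD1 : PTime fun p : α × ℕ => D p.1 := hD.comp PTime.fst'
  have hb1 : PTime fun p : α × ℕ => b p.1 := hb.comp PTime.fst'
  have hD2 : PTime fun p : (α × ℕ) × ℕ => D p.1.1 := hD1.comp PTime.fst'
  have hD3 : PTime fun p : ((α × ℕ) × ℕ) × ℕ => D p.1.1.1 := hD2.comp PTime.fst'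
  have h1 := (((ind_cnt hG hb).all (N := fun p => D p.1.1.1 + 1) (by fun_prop)).all
    (N := fun p => 4 * D p.1.1 * (D p.1.1 + 2) + 1) (by fun_prop)).all
    (N := fun p => 2 * b p.1 + D p.1 + 4) (by fun_prop)
  have hG1 := hG.comp (PTime.fst' (α := α) (β := ℕ))
  have h0 := ind_zero hG1 (PU.const 1)
    (((PF.var (α := α × ℕ) (PU.const 0)).pow (PTime.const 2)).add PF.one)
  let S : α × ℕ → Pt → Prop := fun p v => OnG (D p.1) (z p.1) 2 v ∧
    p.2 < 2 * TT (b p.1) (D p.1) + 1 ∧ Good (b p.1) (D p.1) (z p.1) p.2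
  have h0' := h0.mono (S' := S) (P' := fun _ v => v 0 ^ 2 + 1 = 0)
    (fun p v h k hk => h.1 k (by omega)) fun p v _ => by rw [glue_lt zero_lt_one]
  have h1' := h1.mono (S' := S) (fun p v h e he m hm l hl => ⟨h.1, h.2.1, h.2.2, he, hm, hl⟩)
    fun p v _ => Iff.rfl
  refine (IND.allFam (hG1.fam (PU.const 1)) (h0'.imp h1')).mono ?_ ?_
  · rintro p v ⟨h1, h2, h3⟩ i hi
    refine ⟨onG_glue (fun k hk => ?_) (by simpa using hi), h1, h2⟩
    obtain rfl : k = 0 := by omega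
    exact h3
  · rintro ⟨a, θ⟩ v ⟨h1, -, h3⟩
    have g1 : ∀ y : Pt, glue 1 y v 1 = v 0 := fun y => glue_add 1 0 y v
    rw [real_crit (D a) (b a) (z a) (hG.conj a) (fun i hi j hj => ?_) (hI a) (hI' a)
      (off_pos (TT (b a) (D a)) θ) (off_lt h1) h3]
    · simp only [pow_one, glue_lt zero_lt_one, g1]
      refine forall₂_congr fun k hk => ?_
      rw [dg_lt hk]
    · have := hsep a (cons (z a i) (cons (z a j) 0)) (by
        rintro (_ | _ | k) hk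
        · exact ⟨i, hi, rfl⟩
        · exact ⟨j, hj, rfl⟩
        · omega)
      simpa only [glue_lt (show 0 < 2 by omega), glue_lt (show 1 < 2 by omega), cons_zero,
        (cons_succ _ _ 0 : cons (z a i) (cons (z a j) 0) 1 = _)] using this

end RealT

theorem real_ind {D : α → ℕ} {z : α → ℕ → ℂ} (hG : GF D z) :
    ∃ (Θ : α → ℕ) (Good : α → ℕ → Prop), PTime Θ ∧ (∀ a, Θ a < 2 * cnt (Θ a) (Good a)) ∧
      IND (fun (p : α × ℕ) v => p.2 < Θ p.1 ∧ Good p.1 p.2 ∧ InG (D p.1) (z p.1) (v 0))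
        fun _ v => (v 0).im = 0 := by
  obtain ⟨Θ, Good, h1, h2, h3⟩ := RealT.aux (hG.union gf_ii)
    (fun a => (inG_union (z' := fun i => if i = 0 then Complex.I else -Complex.I)).2
      (Or.inr ⟨0, Nat.zero_lt_two, rfl⟩))
    (fun a => (inG_union (z' := fun i => if i = 0 then Complex.I else -Complex.I)).2
      (Or.inr ⟨1, Nat.one_lt_two, rfl⟩))
  exact ⟨Θ, Good, h1, h2, h3.mono (fun p v h => ⟨h.1, h.2.1,
      (inG_union (z' := fun i => if i = 0 then Complex.I else -Complex.I)).2 (Or.inl h.2.2)⟩)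
    fun _ _ _ => Iff.rfl⟩

end Crest.Agent.R316
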