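import Crest.Agent.R316.Chi
import Crest.Agent.R316.Lead

/-! Row 316: sample points. -/

set_option autoImplicit false

namespace Crest.Agent.R316

open Crest.Agent.PT Finset Filter Topology

variable {α β : Type} [Rp α] [Rp β]

theorem continuous_re_glue {H : α → Pt → ℂ} (hH : PF H) (a : α) (n : ℕ) {X : Type}
    [TopologicalSpace X] {w : X → Pt} (hw : Continuous w) :
    Continuous fun p : X × (Fin n → ℝ) => (H a (glue n (rext p.2) (w p.1))).re :=
  Complex.continuous_re.comp ((hH.continuous a).comp ((continuous_glue n).comp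
    ((continuous_rext.comp continuous_snd).prodMk (hw.comp continuous_fst))))

open Chi in
theorem samp {D r n : α → ℕ} {z : α → ℕ → ℂ} {H : α → Pt → ℂ} (hG : GF D z) (hr : PU r)
    (hn : PU n) (hH : PF H) :
    ∃ (M : α → ℕ) (z' : α → ℕ → ℂ), GF M z' ∧ ∀ a (x : Fin (r a) → ℝ),
      (∀ k, InG (D a) (z a) (x k)) →
      (∀ y : Fin (n a) → ℝ, 0 ≤ (H a (glue (n a) (rext y) (rext x))).re) →
      ∀ A : Set (Fin (n a) → ℝ), A.Nonempty →
        (∀ y ∈ A, (H a (glue (n a) (rext y) (rext x))).re = 0) → IsClosed A →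
        IsClosed ({y | (H a (glue (n a) (rext y) (rext x))).re = 0} \ A) →
        ∃ y ∈ A, ∀ k, InG (M a) (z' a) (y k) := by
  obtain ⟨e, χ, hχ, hc⟩ := chi hn hH
  let F : α → Pt → ℂ := fun a p => χ a (cons (p (r a)) (cons (p (r a + 1)) (glue (r a) p 0)))
  have hF : PF F := by
    have h1 : PF fun (q : α × Un) p => glue (r q.1) p 0 q.2.val :=
      pf_glue (Y := fun q p => p q.2.val) (W := fun _ _ => 0) hr pf_id PF.zero
    have h2 : PF fun (q : α × Un) p => cons (p (r q.1 + 1)) (glue (r q.1) p 0) q.2.val :=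
      pf_glue (m := fun _ => 1) (Y := fun q p => p (r q.1 + 1))
        (W := fun q p => glue (r q.1) p 0 q.2.val) (PU.const 1)
        (PF.var (k := fun q : α × Un => r q.1 + 1) (by fun_prop)) h1
    exact hχ.glue (m := fun _ => 1) (Y := fun q p => p (r q.1))
      (W := fun q p => cons (p (r q.1 + 1)) (glue (r q.1) p 0) q.2.val) (PU.const 1)
      (PF.var (k := fun q : α × Un => r q.1) (by fun_prop)) h2
  have hN := (hG.fam hr).prod (g := fun a => a) (G := fun _ _ => 0) PTime.id PF.zero hF
  have hFv : ∀ a (η : Pt) T κ, F a (glue (r a) η (cons T (cons κ 0))) =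
      χ a (cons T (cons κ (glue (r a) η 0))) := by
    intro a η T κ
    have e1 : glue (r a) η (cons T (cons κ 0)) (r a + 1) = κ := by
      rw [add_comm, glue_add]; simp
    simp only [F, glue_self, e1, glue_glue, cons_zero]
  obtain ⟨M, z', hM, hlead⟩ := lead_grid hN (fun a => by
    have hfin : (⋃ u ∈ range (D a ^ r a), {T | χ a (cons T (cons 0
        (glue (r a) (fun k => z a (dg (D a) u k)) 0))) = 0}).Finite :=
      (range (D a ^ r a)).finite_toSet.biUnion fun u _ => (hc a).2.1 _ _
    obtain ⟨T, hT⟩ := hfin.exists_notMem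
    refine ⟨T, 0, Finset.prod_ne_zero_iff.2 fun u hu h => hT ?_⟩
    rw [hFv] at h
    exact Set.mem_biUnion hu h)
  refine ⟨M, z', hM, fun a x hx h0 A hA hAZ hcl hcl' => ?_⟩
  have hcont : Continuous fun y : Fin (n a) → ℝ => (H a (glue (n a) (rext y) (rext x))).re :=
    (continuous_re_glue hH a (n a) (X := Unit) (w := fun _ => rext x) continuous_const).comp
      (continuous_const (y := ()).prodMk continuous_id)
  obtain ⟨y, hy, κ, ξ, hκ, hξ, hmin⟩ := penalty (hc a).1 _ hcont h0 A hA hAZ hcl hcl'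
  refine ⟨y, hy, fun k => hlead a κ (fun m => ξ m k) (y k) hκ
    ((continuous_apply k).continuousAt.tendsto.comp hξ) fun m => ?_⟩
  obtain ⟨u, hu, hux⟩ := (onG_iff (D := D a) (m := r a) (z := z a) (v := rext x)).1
    fun j hj => by
      have := hx ⟨j, hj⟩
      rwa [← rext_val x ⟨j, hj⟩] at this
  refine Finset.prod_eq_zero (mem_range.2 hu) ?_
  have hxe : glue (r a) (fun k => z a (dg (D a) u k)) 0 = rext x := by
    funext j
    by_cases hj : j < r a
    · rw [glue_lt hj, hux j hj]
    · simp [glue, rext, ext, hj]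
  rw [hFv, hxe]
  exact ((hc a).2.2 (rext x) (κ m) (ξ m) (im_rext x) (hmin m)).2 k

end Crest.Agent.R316
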