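import Crest.Agent.R316.Ind
import Crest.Agent.R316.Norm

/-! Row 316: sizes of values on grids. -/

set_option autoImplicit false

namespace Crest.Agent.R316

open Crest.Agent.PT Finset

variable {α β : Type} [Rp α] [Rp β]

namespace Small

open Polynomial

theorem root_le {p : ℂ[X]} (hp : p ≠ 0) {w : ℂ} (hw : p.IsRoot w) {B B' : ℝ}
    (hB : ∀ k, ‖p.coeff k‖ ≤ B) (hB' : 0 < B') (hl : 1 / B' ≤ ‖p.leadingCoeff‖) :
    ‖w‖ ≤ B * B' + 1 := by
  have h := hw.norm_lt_cauchyBound hp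
  have hB0 : 0 ≤ B := (norm_nonneg _).trans (hB 0)
  have h1 : (range p.natDegree).sup (fun k => ‖p.coeff k‖₊) ≤ ⟨B, hB0⟩ :=
    Finset.sup_le fun k _ => hB k
  have h2 : (((range p.natDegree).sup (fun k => ‖p.coeff k‖₊) : NNReal) : ℝ) ≤ B := h1
  have h3 : ‖w‖ < ((range p.natDegree).sup (fun k => ‖p.coeff k‖₊) : NNReal) / ‖p.leadingCoeff‖ + 1 := by
    have := NNReal.coe_lt_coe.2 h
    simpa [cauchyBound] using this
  have h4 : 0 < ‖p.leadingCoeff‖ := lt_of_lt_of_le (by positivity) hl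
  have h5 : (((range p.natDegree).sup (fun k => ‖p.coeff k‖₊) : NNReal) : ℝ) / ‖p.leadingCoeff‖
      ≤ B * B' := by
    rw [div_le_iff₀ h4]
    rw [div_le_iff₀ hB'] at hl
    nlinarith
  linarith

theorem root_ge {p : ℂ[X]} (hp : p ≠ 0) {w : ℂ} (hw : p.IsRoot w) (hw0 : w ≠ 0) {B : ℝ}
    (hB0 : 0 < B) (hB : ∀ k, ‖p.coeff k‖ ≤ B) (hB' : ∀ k, p.coeff k ≠ 0 → 1 / B ≤ ‖p.coeff k‖) :
    ‖w⁻¹‖ ≤ B * B + 1 := by
  let _ := invertibleOfNonzero hw0
  have h1 : p.reverse.IsRoot w⁻¹ := by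
    have := (eval₂_reverse_eq_zero_iff (RingHom.id ℂ) w p).2 (by simpa using hw)
    simpa using this
  refine root_le (by simpa using hp) h1 (fun k => by rw [coeff_reverse]; exact hB _) hB0 ?_
  rw [reverse_leadingCoeff]
  exact hB' _ (trailingCoeff_nonzero_iff_nonzero.2 hp)

/-- the value of `F` at the grid point number `u` -/
noncomputable def val (D m : α → ℕ) (z : α → ℕ → ℂ) (F : α → Pt → ℂ) (a : α) (u : ℕ) : ℂ :=
  F a (glue (m a) (fun k => z a (dg (D a) u k)) 0)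

/-- the polynomial whose roots are the values on the grid -/
noncomputable def pol (D m : α → ℕ) (z : α → ℕ → ℂ) (F : α → Pt → ℂ) (a : α) : ℂ[X] :=
  ∏ u ∈ range (D a ^ m a), (X - C (val D m z F a u))

variable {D m : α → ℕ} {z : α → ℕ → ℂ} {F : α → Pt → ℂ}

omit [Rp α] in
theorem monic_pol (a : α) : (pol D m z F a).Monic :=
  monic_prod_of_monic _ _ fun _ _ => monic_X_sub_C _

omit [Rp α] in
theorem natDegree_pol (a : α) : (pol D m z F a).natDegree = D a ^ m a := by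
  unfold pol
  rw [natDegree_prod_of_monic _ _ fun _ _ => monic_X_sub_C _]
  simp

omit [Rp α] in
theorem root_pol {a : α} {v : Pt} (hv : OnG (D a) (z a) (m a) v) :
    (pol D m z F a).IsRoot (F a (glue (m a) v 0)) := by
  obtain ⟨u, hu, h⟩ := onG_iff.1 hv
  rw [glue_congr h]
  unfold pol
  rw [IsRoot.def, eval_prod]
  exact prod_eq_zero (mem_range.2 hu) (by simp [val])

theorem coeff_pol (hG : GF D z) (hm : PU m) (hF : PF F) :
    ∃ c : α × ℕ → ℚ, QC c ∧ ∀ a k, (c (a, k) : ℂ) = (pol D m z F a).coeff k := by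
  have h1 : PF fun a p => p (m a) - F a (glue (m a) p 0) := (PF.var hm).sub (hF.trunc hm)
  have h2 := (hG.fam hm).prod (g := fun a => a) (G := fun _ _ => 0) (by fun_prop) PF.zero h1
  obtain ⟨G, hG1, hG2⟩ := PF.coef1 (k := fun p : α × ℕ => p.2)
    (h2.comp (g := fun p : α × ℕ => p.1) PTime.fst') PTime.snd'
  obtain ⟨c, hc1, hc2⟩ := hG1.val
  refine ⟨c, hc1, fun a k => ?_⟩
  rw [hc2, hG2 (a, k) 0 (pol D m z F a)]
  intro t
  unfold pol
  rw [eval_prod]
  refine prod_congr rfl fun u _ => ?_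
  have e1 : glue (m a) (fun k => z a (dg (D a) u k)) (cons t 0) (m a) = t := by
    have := glue_add (m a) 0 (fun k => z a (dg (D a) u k)) (cons t 0)
    rw [zero_add] at this
    rw [this, cons_zero]
  have e2 : glue (m a) (glue (m a) (fun k => z a (dg (D a) u k)) (cons t 0)) 0 =
      glue (m a) (fun k => z a (dg (D a) u k)) 0 := glue_congr (fun i hi => glue_lt hi _ _) _
  simp only [e1, e2, eval_sub, eval_X, eval_C, val]

theorem two_le_pow {L : ℕ} (hL : 1 ≤ L) : (2 : ℝ) ≤ (1 + 1 / L) ^ L := by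
  have hL' : (0 : ℝ) < L := by exact_mod_cast hL
  have := one_add_mul_le_pow (a := (1 : ℝ) / L) (by
    have : (0 : ℝ) ≤ 1 / L := by positivity
    linarith) L
  rw [mul_one_div_cancel hL'.ne'] at this
  linarith

theorem pow_le_half {L : ℕ} (hL : 1 ≤ L) : (1 - 1 / L : ℝ) ^ L ≤ 1 / 2 := by
  have hL' : (1 : ℝ) ≤ L := by exact_mod_cast hL
  have h0 : (0 : ℝ) ≤ 1 / L := by positivity
  have h1 : (1 : ℝ) / L ≤ 1 := by rw [div_le_one (by linarith)]; exact hL'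
  have h2 := two_le_pow hL
  have h3 : (1 - 1 / L : ℝ) ^ L * (1 + 1 / L) ^ L ≤ 1 := by
    rw [← mul_pow]
    apply pow_le_one₀
    · exact mul_nonneg (by linarith) (by linarith)
    · nlinarith
  have h4 : (0 : ℝ) ≤ (1 - 1 / L) ^ L := pow_nonneg (by linarith) _
  nlinarith

theorem small_case {y : ℂ} {K : ℕ} (h : ‖y‖ ≤ (1 / 2) ^ (K + 2)) :
    1 + y ≠ 0 ∧ ‖(1 + y)⁻¹ - 1‖ ≤ 1 / 2 ^ K := by
  have h0 : (0 : ℝ) < 1 / 2 ^ K := by positivity
  have h1 : (1 : ℝ) / 2 ^ K ≤ 1 := by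
    rw [div_le_one (by positivity)]; exact one_le_pow₀ (by norm_num)
  have h2 : ‖y‖ ≤ 1 / 2 ^ K / 4 := by
    refine h.trans (le_of_eq ?_)
    rw [pow_add, one_div_pow]; ring
  have h3 : (1 : ℝ) / 2 ≤ ‖1 + y‖ := by
    have := norm_sub_norm_le (1 : ℂ) (-y)
    rw [norm_one, norm_neg, sub_neg_eq_add] at this
    linarith
  have hne : 1 + y ≠ 0 := by
    intro e; rw [e, norm_zero] at h3; linarith
  refine ⟨hne, ?_⟩
  have : (1 + y)⁻¹ - 1 = -y / (1 + y) := by field_simp; ring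
  rw [this, norm_div, norm_neg, div_le_iff₀ (by linarith)]
  nlinarith

theorem large_case {y : ℂ} {K : ℕ} (h : (2 : ℝ) ^ (K + 2) ≤ ‖y‖) :
    1 + y ≠ 0 ∧ ‖(1 + y)⁻¹‖ ≤ 1 / 2 ^ K := by
  have h1 : (1 : ℝ) ≤ 2 ^ K := one_le_pow₀ (by norm_num)
  have h3 : (2 : ℝ) ^ K ≤ ‖1 + y‖ := by
    have := norm_sub_norm_le y (-1)
    rw [norm_neg, norm_one, sub_neg_eq_add, add_comm] at this
    rw [pow_add] at h
    linarith
  have hne : 1 + y ≠ 0 := by
    intro e; rw [e, norm_zero] at h3; linarith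
  refine ⟨hne, ?_⟩
  rw [norm_inv, one_div]
  exact inv_anti₀ (by positivity) h3

theorem dich {w : ℂ} {ρ : ℚ} {L : ℕ} (K : ℕ) (hρ : 0 < ρ) (hL : 1 ≤ L)
    (h : ‖w‖ ≤ (ρ : ℝ) * (1 - 1 / L) ∨ (ρ : ℝ) * (1 + 1 / L) ≤ ‖w‖) :
    1 + (w * ((ρ⁻¹ : ℚ) : ℂ)) ^ (L * (K + 2)) ≠ 0 ∧
      ‖(1 + (w * ((ρ⁻¹ : ℚ) : ℂ)) ^ (L * (K + 2)))⁻¹ - (if ‖w‖ < (ρ : ℝ) then 1 else 0)‖ ≤
        1 / 2 ^ K := by
  have hρ' : (0 : ℝ) < ρ := by exact_mod_cast hρ
  have hL' : (1 : ℝ) ≤ L := by exact_mod_cast hL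
  have h0 : (0 : ℝ) < 1 / L := by positivity
  have hn : ‖w * ((ρ⁻¹ : ℚ) : ℂ)‖ = ‖w‖ / ρ := by
    rw [norm_mul, Complex.norm_ratCast, abs_of_pos (by push_cast; positivity)]
    push_cast
    rw [div_eq_mul_inv]
  rcases h with h | h
  · have hlt : ‖w‖ < (ρ : ℝ) := by nlinarith
    rw [if_pos hlt]
    apply small_case
    rw [norm_pow, hn, pow_mul]
    refine pow_le_pow_left₀ (by positivity) (le_trans ?_ (pow_le_half hL)) _
    refine pow_le_pow_left₀ (by positivity) ?_ _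
    rw [div_le_iff₀ hρ']; linarith
  · have hlt : ¬ ‖w‖ < (ρ : ℝ) := by nlinarith
    rw [if_neg hlt, sub_zero]
    apply large_case
    rw [norm_pow, hn, pow_mul]
    refine pow_le_pow_left₀ (by positivity) (le_trans (two_le_pow hL) ?_) _
    refine pow_le_pow_left₀ (by positivity) ?_ _
    rw [le_div_iff₀ hρ']; linarith

end Small

theorem grid_sep {D m : α → ℕ} {z : α → ℕ → ℂ} {F : α → Pt → ℂ} (hG : GF D z) (hm : PU m)
    (hF : PF F) : ∃ b : α → ℕ, PTime b ∧ ∀ a v, OnG (D a) (z a) (m a) v →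
      ‖F a (glue (m a) v 0)‖ ≤ 2 ^ b a ∧
        (F a (glue (m a) v 0) ≠ 0 → 1 / 2 ^ b a ≤ ‖F a (glue (m a) v 0)‖) := by
  obtain ⟨c, hc1, hc2⟩ := Small.coeff_pol hG hm hF
  obtain ⟨b, hb1, hb2⟩ := hc1.bound
  obtain ⟨g, hg1, hg2⟩ := pt_bdd hb1 (hG.fam hm).2.1
  refine ⟨fun a => 2 * g a + 1, by fun_prop, fun a v hv => ?_⟩
  have hne := (Small.monic_pol (D := D) (m := m) (z := z) (F := F) a).ne_zero
  have hone : (1 : ℝ) ≤ 2 ^ g a := one_le_pow₀ (by norm_num)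
  have hup : ∀ k, ‖(Small.pol D m z F a).coeff k‖ ≤ 2 ^ g a := by
    intro k
    by_cases hk : k ≤ D a ^ m a
    · rw [← hc2, Complex.norm_ratCast]
      have h1 : |((c (a, k) : ℚ) : ℝ)| ≤ 2 ^ b (a, k) := by exact_mod_cast (hb2 (a, k)).1
      exact h1.trans (pow_le_pow_right₀ (by norm_num) (hg2 a k hk))
    · rw [Polynomial.coeff_eq_zero_of_natDegree_lt (by rw [Small.natDegree_pol]; omega), norm_zero]
      positivity
  have hlo : ∀ k, (Small.pol D m z F a).coeff k ≠ 0 →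
      1 / 2 ^ g a ≤ ‖(Small.pol D m z F a).coeff k‖ := by
    intro k h0
    have hk : k ≤ D a ^ m a := by
      rw [← Small.natDegree_pol (z := z) (F := F)]
      exact Polynomial.le_natDegree_of_ne_zero h0
    rw [← hc2] at h0 ⊢
    rw [Complex.norm_ratCast]
    have h1 : (1 : ℝ) / 2 ^ b (a, k) ≤ |((c (a, k) : ℚ) : ℝ)| := by
      have := (hb2 (a, k)).2 (by exact_mod_cast h0)
      have h2 := (Rat.cast_le (K := ℝ)).2 this
      push_cast at h2
      exact h2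
    refine le_trans ?_ h1
    exact one_div_le_one_div_of_le (by positivity) (pow_le_pow_right₀ (by norm_num) (hg2 a k hk))
  have hpow : (2 : ℝ) ^ (2 * g a + 1) = 2 * (2 ^ g a * 2 ^ g a) := by ring
  constructor
  · have := Small.root_le hne (Small.root_pol hv) hup one_pos (by
      rw [(Small.monic_pol a).leadingCoeff]; simp)
    rw [hpow]
    nlinarith
  · intro h0
    have := Small.root_ge hne (Small.root_pol hv) h0 (by positivity) hup hlo
    rw [norm_inv] at this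
    have h1 : 0 < ‖F a (glue (m a) v 0)‖ := norm_pos_iff.2 h0
    rw [one_div]
    apply inv_le_of_inv_le₀ h1
    rw [hpow]
    nlinarith

theorem grid_inv {D m : α → ℕ} {z : α → ℕ → ℂ} {F : α → Pt → ℂ} (hG : GF D z) (hm : PU m)
    (hF : PF F) : ∃ F' : α → Pt → ℂ, PF F' ∧ ∀ a,
      (∀ v, OnG (D a) (z a) (m a) v → F a (glue (m a) v 0) ≠ 0) →
        ∀ v, OnG (D a) (z a) (m a) v → F' a v = (F a (glue (m a) v 0))⁻¹ := by
  obtain ⟨c, hc1, hc2⟩ := Small.coeff_pol hG hm hF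
  have h1 : PF fun (p : α × ℕ) v => (c (p.1, p.2 + 1) : ℂ) * F p.1 (glue (m p.1) v 0) ^ p.2 :=
    (PF.const (hc1.comp (g := fun p : α × ℕ => (p.1, p.2 + 1)) (by fun_prop))).mul
      (((hF.trunc hm).comp (g := fun p : α × ℕ => p.1) PTime.fst').pow PTime.snd')
  have h2 := (h1.sum (hG.fam hm).2.1).neg.mul
    (PF.const (hc1.comp (g := fun a : α => (a, 0)) (by fun_prop)).inv)
  refine ⟨_, h2, fun a hne v hv => ?_⟩
  have hroot := Small.root_pol (F := F) hv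
  rw [Polynomial.IsRoot.def, Polynomial.eval_eq_sum_range, Small.natDegree_pol,
    sum_range_succ'] at hroot
  have h0 : (Small.pol D m z F a).coeff 0 ≠ 0 := by
    rw [Polynomial.coeff_zero_eq_eval_zero]
    unfold Small.pol
    rw [Polynomial.eval_prod]
    refine prod_ne_zero_iff.2 fun u hu => ?_
    have := hne (fun k => z a (dg (D a) u k)) (onG_iff.2 ⟨u, mem_range.1 hu, fun _ _ => rfl⟩)
    simpa [Small.val] using this
  have hw := hne v hv
  simp only [Rat.cast_inv, hc2]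
  have e : ∑ k ∈ range (D a ^ m a), (Small.pol D m z F a).coeff (k + 1) *
      F a (glue (m a) v 0) ^ (k + 1) = F a (glue (m a) v 0) *
      ∑ k ∈ range (D a ^ m a), (Small.pol D m z F a).coeff (k + 1) * F a (glue (m a) v 0) ^ k := by
    rw [mul_sum]
    exact sum_congr rfl fun k _ => by ring
  rw [e, pow_zero, mul_one] at hroot
  field_simp
  linear_combination -hroot

theorem ind_small {D m L : α → ℕ} {z : α → ℕ → ℂ} {F : α → Pt → ℂ} {ρ : α → ℚ} (hG : GF D z)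
    (hm : PU m) (hF : PF F) (hρ : QC ρ) (hL : PTime L) :
    IND (fun a v => OnG (D a) (z a) (m a) v ∧ 0 < ρ a ∧ 1 ≤ L a ∧
        ∀ v', OnG (D a) (z a) (m a) v' →
          ‖F a (glue (m a) v' 0)‖ ≤ (ρ a : ℝ) * (1 - 1 / L a) ∨
            (ρ a : ℝ) * (1 + 1 / L a) ≤ ‖F a (glue (m a) v' 0)‖)
      fun a v => ‖F a (glue (m a) v 0)‖ < (ρ a : ℝ) := by
  have h1 : PF fun (p : α × ℕ) v =>
      1 + (F p.1 v * (((ρ p.1)⁻¹ : ℚ) : ℂ)) ^ (L p.1 * (p.2 + 2)) :=
    PF.one.add (((hF.comp (g := fun p : α × ℕ => p.1) PTime.fst').mul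
      (PF.const (hρ.comp (g := fun p : α × ℕ => p.1) PTime.fst').inv)).pow (by fun_prop))
  obtain ⟨F', hF1, hF2⟩ := grid_inv (hG.comp (g := fun p : α × ℕ => p.1) PTime.fst')
    (hm.comp (f := fun p : α × ℕ => p.1) PTime.fst') h1
  refine ⟨F', hF1, fun a K v hS => ?_⟩
  obtain ⟨hv, hρ0, hL1, hd⟩ := hS
  rw [hF2 (a, K) (fun v' hv' => (Small.dich K hρ0 hL1 (hd v' hv')).1) v hv]
  convert (Small.dich K hρ0 hL1 (hd v hv)).2

theorem ind_zero {D m : α → ℕ} {z : α → ℕ → ℂ} {F : α → Pt → ℂ} (hG : GF D z) (hm : PU m)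
    (hF : PF F) :
    IND (fun a v => OnG (D a) (z a) (m a) v) fun a v => F a (glue (m a) v 0) = 0 := by
  obtain ⟨b, hb1, hb2⟩ := grid_sep hG hm hF
  have hρ : QC fun a => ((2 : ℚ) ^ (b a + 1))⁻¹ := ((QC.const 2).pow (by fun_prop)).inv
  refine (ind_small (L := fun _ => 1) hG hm hF hρ (PTime.const 1)).mono
    (fun a v hv => ⟨hv, by positivity, le_rfl, fun v' hv' => ?_⟩) fun a v hv => ?_
  · by_cases h0 : F a (glue (m a) v' 0) = 0
    · left; simp [h0]
    · right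
      refine le_trans (le_of_eq ?_) ((hb2 a v' hv').2 h0)
      push_cast
      field_simp
      ring
  · constructor
    · intro h0
      rw [h0, norm_zero]
      push_cast
      positivity
    · intro h
      by_contra h0
      have h1 := (hb2 a v hv).2 h0
      push_cast at h
      have h2 : ((2 : ℝ) ^ (b a + 1))⁻¹ ≤ 1 / 2 ^ b a := by
        rw [one_div]
        exact inv_anti₀ (by positivity) (pow_le_pow_right₀ (by norm_num) (by omega))
      linarith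

end Crest.Agent.R316
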