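import Crest.Agent.R316.StSem
import Crest.Agent.R316.PF

/-! Row 316: the reduction to one polynomial. -/

set_option autoImplicit false

namespace Crest.Agent.R316

open Crest.Agent.PT Crest.RealEA Finset

namespace StA

variable {α : Type} [Rp α] {n : α → ℕ} {L : α × ℕ → ℕ}

theorem pt_stp {k : α → ℕ} {s : α → ℕ × ℕ × ℕ × ℕ} (hn : PTime n) (hL : PTime L) (hk : PTime k)
    (hs : PTime s) : PTime fun a => stp (n a) (fun t => L (a, t)) (k a) (s a) := by
  unfold stp
  fun_prop

theorem pt_okAt {k : α → ℕ} {s : α → ℕ × ℕ × ℕ × ℕ} (hn : PTime n) (hL : PTime L) (hk : PTime k)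
    (hs : PTime s) : PTime fun a => okAt (n a) (fun t => L (a, t)) (k a) (s a) := by
  unfold okAt
  fun_prop

theorem st_bound (n : ℕ) (L : ℕ → ℕ) (k g : ℕ) (hg : ∀ u ≤ 3 * k + 3, L u ≤ g) :
    ∀ j ≤ k, (st n L j).1 ≤ 3 * j + 2 ∧ (st n L j).2.1 ≤ j + 1 ∧ (st n L j).2.2.1 ≤ j ∧
      (st n L j).2.2.2 ≤ g := by
  intro j
  induction j with
  | zero => intro _; simp [st]
  | succ j ih =>
    intro hj
    obtain ⟨h1, h2, h3, h4⟩ := ih (by omega)
    have h5 := hg ((st n L j).1 + 1) (by omega)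
    rw [st]
    generalize st n L j = s at *
    unfold stp
    split_ifs <;> (try dsimp only) <;> omega

theorem pf_vu {k : α → ℕ} (hn : PU n) (hk : PTime k) : PF fun a v => vu (n a) v (k a) :=
  PF.var (hn.add (PU.min_right hk hn))

theorem pf_va {k : α → ℕ} (hn : PU n) (hk : PTime k) : PF fun a v => va (n a) v (k a) :=
  PF.var (((PU.const 2).mul hn).add (PU.min_right hk hn))

theorem pf_vb {k j : α → ℕ} (hn : PU n) (hk : PTime k) (hj : PTime j) :
    PF fun a v => vb (n a) v (k a) (j a) :=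
  PF.var ((((PU.const 3).mul hn).add ((PU.min_right hk hn).mul (hn.add (PU.const 1)))).add
    (PU.min_right hj hn))

theorem pu_NV (hn : PU n) : PU fun a => NV (n a) := by
  unfold NV
  fun_prop

theorem pu_idx {i : α → ℕ} (hn : PU n) (hL : PTime L) (hi : PTime i) :
    PU fun a => idx (n a) (fun t => L (a, t)) (i a) := by
  classical
  have h := PU.card_filter (c := fun a t => ∀ t' < t + 1, L (a, t') ≠ i a) hn
    (PTime.forall_lt (n := fun p : α × Un => p.2.val + 1) (c := fun p t' => L (p.1, t') ≠ i p.1)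
      (by fun_prop) (by fun_prop))
  unfold idx cnt
  convert h

theorem pf_sq {F : α → Pt → ℂ} (h : PF F) : PF fun a v => F a v ^ 2 :=
  h.pow (k := fun _ => 2) (PTime.const 2)

theorem pf_gval {t c : α → ℕ} (hn : PU n) (hL : PTime L) (ht : PTime t) (hc : PTime c) :
    PF fun a v => gval (n a) (fun t => L (a, t)) v (t a) (c a) := by
  unfold gval
  have h0 : PTime fun a => L (a, t a) := by fun_prop
  have h1 : PTime fun a => L (a, t a + 1) := by fun_prop
  have h2 : PTime fun a => L (a, t a + 2) := by fun_prop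
  have u1 := pf_vu hn (k := fun a => c a + 1 + L (a, t a + 1)) (by fun_prop)
  have u2 := pf_vu hn (k := fun a => c a + 1 + L (a, t a + 2)) (by fun_prop)
  refine PF.ite (CH.pt (by fun_prop)) (PF.ite (CH.pt (by fun_prop)) (PF.nat h2).neg (PF.nat h2)) ?_
  refine PF.ite (CH.pt (by fun_prop)) (PF.var ((pu_NV hn).add (pu_idx hn hL h1))) ?_
  refine PF.ite (CH.pt (by fun_prop)) (PF.var (pu_idx hn hL h1)) ?_
  refine PF.ite (CH.pt (by fun_prop)) (u1.add u2) ?_
  exact PF.ite (CH.pt (by fun_prop)) (u1.sub u2) (u1.mul u2)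

theorem pf_cpy {k h : α → ℕ} (hn : PU n) (hk : PTime k) (hh : PTime h) :
    PF fun a v => cpy (n a) v (k a) (h a) := by
  have hn' : PU fun p : α × Un => n p.1 := by fun_prop
  have h1 : PF fun (p : α × Un) v => if p.2.val < h p.1 then
      (vb (n p.1) v (k p.1) p.2.val - vb (n p.1) v (k p.1 + 1) p.2.val) ^ 2 else 0 :=
    PF.ite (CH.pt (by fun_prop))
      (pf_sq ((pf_vb hn' (by fun_prop) (by fun_prop)).sub (pf_vb hn' (by fun_prop) (by fun_prop))))
      PF.zero
  exact h1.sumU (hn.add (PU.const 1))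

theorem pf_conAt {k : α → ℕ} {s : α → ℕ × ℕ × ℕ × ℕ} (hn : PU n) (hL : PTime L) (hk : PTime k)
    (hs : PTime s) : PF fun a v => conAt (n a) (fun t => L (a, t)) v (k a) (s a) := by
  unfold conAt
  have hn' := hn.ptime
  have b0 := pf_vb hn hk (j := fun a => (s a).2.1) (by fun_prop)
  have b1 := pf_vb hn (k := fun a => k a + 1) (j := fun a => (s a).2.1) (by fun_prop) (by fun_prop)
  have b2 := pf_vb hn (k := fun a => k a + 1) (j := fun a => (s a).2.1 + 1) (by fun_prop)
    (by fun_prop)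
  have u := pf_vu hn (k := fun a => k a + L (a, (s a).1 + 1)) (by fun_prop)
  have a0 := pf_va hn hk
  refine PF.ite (CH.pt (by fun_prop)) PF.zero ?_
  refine PF.ite (CH.pt (by fun_prop))
    ((pf_sq ((pf_vu hn hk).sub (pf_gval hn hL (by fun_prop) (by fun_prop)))).add
      (pf_cpy hn hk (by fun_prop))) ?_
  refine (pf_cpy hn hk (by fun_prop)).add ?_
  refine PF.ite (CH.pt (by fun_prop))
    ((pf_sq (b0.mul u)).add (pf_sq ((PF.one.sub b0).sub (u.mul a0)))) ?_
  refine PF.ite (CH.pt (by fun_prop))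
    (((pf_sq ((pf_sq b0).sub b0)).add (pf_sq (b0.mul ((u.mul (pf_sq a0)).sub PF.one)))).add
      (pf_sq ((PF.one.sub b0).mul (u.add (pf_sq a0))))) ?_
  refine PF.ite (CH.pt (by fun_prop)) (pf_sq (b0.sub (b2.mul b1))) ?_
  exact PF.ite (CH.pt (by fun_prop)) (pf_sq (b0.sub ((b2.add b1).sub (b2.mul b1))))
    (pf_sq (b0.sub (PF.one.sub b1)))

theorem encode_eq (S : Sentence) : S.encode = (S.toNats.map Crest.Enc.natCode).flatten := rfl

theorem le_length_codes (T : List ℕ) : T.length ≤ ((T.map Crest.Enc.natCode).flatten).length := by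
  induction T with
  | nil => simp
  | cons a T ih =>
    rw [List.map_cons, List.flatten_cons, List.length_append, length_natCode, List.length_cons]
    omega

theorem iterate_codes (T : List ℕ) {t : ℕ} (ht : t ≤ T.length) :
    natRest^[t] (T.map Crest.Enc.natCode).flatten = ((T.drop t).map Crest.Enc.natCode).flatten := by
  simpa using iterate_skip natRest Crest.Enc.natCode natRest_natCode T [] t ht

theorem iterate_codes_lt (T : List ℕ) {t : ℕ} (ht : t < T.length) :
    natRest^[t] (T.map Crest.Enc.natCode).flatten =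
      Crest.Enc.natCode T[t] ++ ((T.drop (t + 1)).map Crest.Enc.natCode).flatten := by
  rw [iterate_codes T ht.le, List.drop_eq_getElem_cons ht, List.map_cons, List.flatten_cons]

/-- the tokens of a word -/
theorem exists_tokens : ∃ (n : Word → ℕ) (L : Word × ℕ → ℕ), PU n ∧ PTime L ∧
    ∀ T : List ℕ, n (T.map Crest.Enc.natCode).flatten = T.length ∧
      ∀ t, L ((T.map Crest.Enc.natCode).flatten, t) = T.getD t 0 := by
  have hR : PTime natRest := PTime.natRest PTime.id
  obtain ⟨n, hn, hspec⟩ := PU.find_lt (n := fun w : Word => w.length)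
    (c := fun w t => natRest^[t] w = []) (PU.length PTime.id)
    (PTime.eq_nil (PTime.iterate hR length_natRest_le (by fun_prop) (by fun_prop)))
  have hn' := hn.ptime
  have hI : PTime fun p : Word × ℕ => natRest^[min p.2 p.1.length] p.1 :=
    PTime.iterate_min hR length_natRest_le (by fun_prop) (by fun_prop) (by fun_prop)
  refine ⟨n, fun p => if p.2 < n p.1 then natVal (natRest^[min p.2 p.1.length] p.1) else 0, hn,
    PTime.ite (by fun_prop) hI.natVal (PTime.const 0), fun T => ?_⟩
  obtain ⟨-, h2, h3⟩ := hspec (T.map Crest.Enc.natCode).flatten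
  have hle := le_length_codes T
  have hT : n (T.map Crest.Enc.natCode).flatten = T.length := by
    rcases lt_trichotomy (n (T.map Crest.Enc.natCode).flatten) T.length with h | h | h
    · have := congrArg List.length (h3 (h.trans_le hle))
      rw [iterate_codes_lt T h, List.length_append, length_natCode] at this
      simp at this
    · exact h
    · exact absurd (by rw [iterate_codes T le_rfl]; simp) (h2 _ h)
  refine ⟨hT, fun t => ?_⟩
  dsimp only
  rw [hT]
  split_ifs with h
  · rw [min_eq_left (h.le.trans hle), iterate_codes_lt T h, natVal_natCode,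
      List.getD_eq_getElem _ _ h]
  · rw [List.getD_eq_default _ _ (not_lt.1 h)]

theorem map_range_getD (T : List ℕ) : (List.range T.length).map (fun t => T.getD t 0) = T := by
  refine List.ext_getElem (by simp) fun i h1 h2 => ?_
  simp [h2]

end StA

open StA

theorem pt_st {α : Type} [Rp α] {n : α → ℕ} {L : α × ℕ → ℕ} {k : α → ℕ} (hn : PU n) (hL : PTime L)
    (hk : PU k) : PTime fun a => st (n a) (fun t => L (a, t)) (k a) := by
  have hn' := hn.ptime
  have hk' := hk.ptime
  obtain ⟨g, hg, hgb⟩ := pt_bdd hL (N := fun a => 3 * k a + 3) (by fun_prop)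
  refine PTime.loop (fun a j => st (n a) (fun t => L (a, t)) j)
    (fun a s j => stp (n a) (fun t => L (a, t)) j s) hk (PTime.const _)
    (pt_stp (L := fun q : (α × (ℕ × ℕ × ℕ × ℕ) × Un) × ℕ => L (q.1.1, q.2)) (by fun_prop)
      (by fun_prop) (by fun_prop) (by fun_prop))
    (fun _ _ _ => rfl) (B := fun a => 5 * k a + 3 + PT.sz (g a))
    ((((PB.const 5).mul hk.pb).add (PB.const 3)).add hg.sz) fun a j hj => ?_
  obtain ⟨h1, h2, h3, h4⟩ := st_bound (n a) (fun t => L (a, t)) (k a) (g a) (hgb a) j hj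
  generalize st (n a) (fun t => L (a, t)) j = s at *
  obtain ⟨s1, s2, s3, s4⟩ := s
  have := sz_nat_le_self s1
  have := sz_nat_le_self s2
  have := sz_nat_le_self s3
  have := sz_nat_mono h4
  simp only [sz_prod] at *
  omega

theorem pt_valid {α : Type} [Rp α] {n : α → ℕ} {L : α × ℕ → ℕ} (hn : PU n) (hL : PTime L) :
    PTime fun a => Valid (n a) fun t => L (a, t) := by
  have hn' := hn.ptime
  have h1 := pt_st hn hL hn
  have h2 : PTime fun p : α × Un => st (n p.1) (fun t => L (p.1, t)) p.2.val :=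
    pt_st (L := fun q : (α × Un) × ℕ => L (q.1.1, q.2)) (by fun_prop) (by fun_prop) (by fun_prop)
  have h3 : PTime fun a => ∀ k < n a,
      okAt (n a) (fun t => L (a, t)) k (st (n a) (fun t => L (a, t)) k) :=
    PTime.forall_lt hn (pt_okAt (L := fun q : (α × Un) × ℕ => L (q.1.1, q.2)) (by fun_prop)
      (by fun_prop) (by fun_prop) h2)
  exact ((PTime.const 2).le hn').and (h3.and ((h1.fst.eq hn').and
    ((h1.snd.fst.eq (PTime.const 0)).and (h1.snd.snd.snd.eq (PTime.const 0)))))

theorem pf_Qf {α : Type} [Rp α] {n : α → ℕ} {L : α × ℕ → ℕ} (hn : PU n) (hL : PTime L) :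
    PF fun a v => Qf (n a) (fun t => L (a, t)) v := by
  have h2 : PTime fun p : α × Un => st (n p.1) (fun t => L (p.1, t)) p.2.val :=
    pt_st (L := fun q : (α × Un) × ℕ => L (q.1.1, q.2)) (by fun_prop) (by fun_prop) (by fun_prop)
  have h3 : PF fun (p : α × Un) v => conAt (n p.1) (fun t => L (p.1, t)) v p.2.val
      (st (n p.1) (fun t => L (p.1, t)) p.2.val) :=
    pf_conAt (L := fun q : (α × Un) × ℕ => L (q.1.1, q.2)) (by fun_prop) (by fun_prop)
      (by fun_prop) h2
  exact (h3.sumU hn).add (pf_sq (pf_vb hn (PTime.const 0) (PTime.const 1)))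

theorem stageA : ∃ (ok : Word → Prop) (r n : Word → ℕ) (Q : Word → Pt → ℂ),
    CH ok ∧ PU r ∧ PU n ∧ PF Q ∧ ∀ w, w ∈ EATR ↔ ok w ∧
      ∃ x : Fin (r w) → ℝ, ∀ y : Fin (n w) → ℝ, Q w (glue (n w) (rext y) (rext x)) ≠ 0 := by
  obtain ⟨n, L, hn, hL, hT⟩ := exists_tokens
  refine ⟨fun w => w = ((List.range (n w)).map fun t => Crest.Enc.natCode (L (w, t))).flatten ∧
      Valid (n w) fun t => L (w, t), n, fun w => NV (n w), fun w v => Qf (n w) (fun t => L (w, t)) v,
    CH.pt ((PTime.id.weq (PTime.flatRange hn (by fun_prop))).and (pt_valid hn hL)), hn, pu_NV hn,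
    pf_Qf hn hL, fun w => ⟨?_, ?_⟩⟩
  · rintro ⟨S, hW, hS, rfl⟩
    obtain ⟨h1, h2⟩ := hT S.toNats
    rw [← encode_eq] at h1 h2
    have h3 : (fun t => L (S.encode, t)) = fun t => S.toNats.getD t 0 := funext h2
    refine ⟨⟨?_, ?_⟩, (sem S hW _ _ h1 h3).1 hS⟩
    · simp only [h1, h2]
      conv_lhs => rw [encode_eq, ← map_range_getD S.toNats, List.map_map]
      rfl
    · rw [h1, h3]
      exact valid_of_wf S hW
  · rintro ⟨⟨hw, hV⟩, hx⟩
    obtain ⟨S, hW, hS⟩ := wf_of_valid hV
    have he : S.encode = w := by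
      rw [encode_eq, hS, List.map_map]
      exact hw.symm
    obtain ⟨h1, h2⟩ := hT S.toNats
    rw [← encode_eq, he] at h1 h2
    exact ⟨S, hW, (sem S hW _ _ h1 (funext h2)).2 hx, he⟩

end Crest.Agent.R316
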