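import Crest.Agent.R316.Defs

/-!
Row 316: sentences as systems of equations. `L` is the token sequence (`L 0 = r`, `L 1 = s`) and `n`
its length. An item is a connective, the header of an atom, or a gate. An automaton reads one item
per step. Variables: `y`-variables at `idx i`, one value `vu k` and one auxiliary variable `va k` per
item, truth values `vb k j` (the stack of truth values of the formulas pending before item `k`, top
at `j = h`), and the `x`-variables after the first `NV n` coordinates.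
-/

set_option autoImplicit false

namespace Crest.Agent.R316

open Finset

/-- state: position, number of pending formulas, item number of the last atom header, number of
remaining gates -/
def stp (n : ℕ) (L : ℕ → ℕ) (k : ℕ) (s : ℕ × ℕ × ℕ × ℕ) : ℕ × ℕ × ℕ × ℕ :=
  if n ≤ s.1 then s
  else if 0 < s.2.2.2 then
    (s.1 + (if L s.1 = 1 ∨ L s.1 = 2 then 2 else 3), s.2.1, s.2.2.1, s.2.2.2 - 1)
  else if L s.1 = 6 ∨ L s.1 = 7 then (s.1 + 2, s.2.1 - 1, k, L (s.1 + 1))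
  else if L s.1 = 10 then (s.1 + 1, s.2.1, s.2.2.1, 0)
  else (s.1 + 1, s.2.1 + 1, s.2.2.1, 0)

/-- the state before item `k` -/
def st (n : ℕ) (L : ℕ → ℕ) : ℕ → ℕ × ℕ × ℕ × ℕ
  | 0 => (2, 1, 0, 0)
  | k + 1 => stp n L k (st n L k)

def okAt (n : ℕ) (L : ℕ → ℕ) (k : ℕ) (s : ℕ × ℕ × ℕ × ℕ) : Prop :=
  s.1 < n →
    (0 < s.2.2.2 →
      (L s.1 = 0 ∧ (L (s.1 + 1) = 0 ∨ (L (s.1 + 1) = 1 ∧ L (s.1 + 2) ≠ 0))) ∨
      (L s.1 = 1 ∧ L (s.1 + 1) < L 0) ∨ (L s.1 = 2 ∧ L (s.1 + 1) < L 1) ∨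
      ((L s.1 = 3 ∨ L s.1 = 4 ∨ L s.1 = 5) ∧ L (s.1 + 1) < k - s.2.2.1 - 1 ∧
        L (s.1 + 2) < k - s.2.2.1 - 1)) ∧
    (s.2.2.2 = 0 → 1 ≤ s.2.1 ∧
      (((L s.1 = 6 ∨ L s.1 = 7) ∧ 0 < L (s.1 + 1)) ∨ L s.1 = 8 ∨ L s.1 = 9 ∨ L s.1 = 10))

/-- the tokens present a well-formed sentence -/
def Valid (n : ℕ) (L : ℕ → ℕ) : Prop :=
  2 ≤ n ∧ (∀ k < n, okAt n L k (st n L k)) ∧
    (st n L n).1 = n ∧ (st n L n).2.1 = 0 ∧ (st n L n).2.2.2 = 0

/-- first position of the token `i` -/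
noncomputable def idx (n : ℕ) (L : ℕ → ℕ) (i : ℕ) : ℕ := cnt n fun t => ∀ t' < t + 1, L t' ≠ i

def NV (n : ℕ) : ℕ := 3 * n + (n + 1) * (n + 1)

section
variable {K : Type} [CommRing K] (n : ℕ) (L : ℕ → ℕ) (v : ℕ → K)

def vu (k : ℕ) : K := v (n + min k n)
def va (k : ℕ) : K := v (2 * n + min k n)
def vb (k j : ℕ) : K := v (3 * n + min k n * (n + 1) + min j n)

/-- value of the gate at position `t` in the circuit with header item `c` -/
noncomputable def gval (t c : ℕ) : K :=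
  if L t = 0 then (if L (t + 1) = 1 then -(L (t + 2) : K) else (L (t + 2) : K))
  else if L t = 1 then v (NV n + idx n L (L (t + 1)))
  else if L t = 2 then v (idx n L (L (t + 1)))
  else if L t = 3 then vu n v (c + 1 + L (t + 1)) + vu n v (c + 1 + L (t + 2))
  else if L t = 4 then vu n v (c + 1 + L (t + 1)) - vu n v (c + 1 + L (t + 2))
  else vu n v (c + 1 + L (t + 1)) * vu n v (c + 1 + L (t + 2))

/-- the stack below height `h` is copied -/
def cpy (k h : ℕ) : K :=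
  ∑ j ∈ range (n + 1), if j < h then (vb n v k j - vb n v (k + 1) j) ^ 2 else 0

/-- the sum of the squared constraints of item `k` in state `s` -/
noncomputable def conAt (k : ℕ) (s : ℕ × ℕ × ℕ × ℕ) : K :=
  if n ≤ s.1 then 0
  else if 0 < s.2.2.2 then (vu n v k - gval n L v s.1 s.2.2.1) ^ 2 + cpy n v k (s.2.1 + 1)
  else cpy n v k s.2.1 +
    if L s.1 = 6 then
      (vb n v k s.2.1 * vu n v (k + L (s.1 + 1))) ^ 2 +
        (1 - vb n v k s.2.1 - vu n v (k + L (s.1 + 1)) * va n v k) ^ 2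
    else if L s.1 = 7 then
      (vb n v k s.2.1 ^ 2 - vb n v k s.2.1) ^ 2 +
        (vb n v k s.2.1 * (vu n v (k + L (s.1 + 1)) * va n v k ^ 2 - 1)) ^ 2 +
        ((1 - vb n v k s.2.1) * (vu n v (k + L (s.1 + 1)) + va n v k ^ 2)) ^ 2
    else if L s.1 = 8 then
      (vb n v k s.2.1 - vb n v (k + 1) (s.2.1 + 1) * vb n v (k + 1) s.2.1) ^ 2
    else if L s.1 = 9 then
      (vb n v k s.2.1 - (vb n v (k + 1) (s.2.1 + 1) + vb n v (k + 1) s.2.1 -
        vb n v (k + 1) (s.2.1 + 1) * vb n v (k + 1) s.2.1)) ^ 2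
    else (vb n v k s.2.1 - (1 - vb n v (k + 1) s.2.1)) ^ 2

/-- the polynomial that has a real zero over `x` iff the condition fails somewhere -/
noncomputable def Qf : K := ∑ k ∈ range n, conAt n L v k (st n L k) + vb n v 0 1 ^ 2

end

end Crest.Agent.R316
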