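import Crest.Agent.R316.StDefs
import Crest.Agent.R316.PTB

/-! Row 316: the equations are solvable; valid tokens present a sentence. -/

set_option autoImplicit false

namespace Crest.Agent.R316

open Crest.Agent.PT Crest.RealEA Finset

namespace StEx

variable {n : ℕ} {L : ℕ → ℕ}

lemma st_succ (k : ℕ) : st n L (k + 1) = stp n L k (st n L k) := rfl

lemma pos_ge (k : ℕ) : (st n L k).1 < n → k + 2 ≤ (st n L k).1 := by
  induction k with
  | zero => exact fun _ => le_rfl
  | succ k ih =>
    rw [st_succ, stp]
    split_ifs <;> (try simp only) <;> omega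

lemma h_le (k : ℕ) : (st n L k).2.1 ≤ k + 1 := by
  induction k with
  | zero => exact le_rfl
  | succ k ih =>
    rw [st_succ, stp]
    split_ifs <;> (try simp only) <;> omega

lemma c_le (k : ℕ) : (st n L (k + 1)).2.2.1 ≤ k := by
  induction k with
  | zero =>
    rw [st_succ, stp]
    split_ifs <;> exact le_rfl
  | succ k ih =>
    rw [st_succ, stp]
    split_ifs <;> (try simp only) <;> omega

lemma c_lt (k : ℕ) (h : 0 < (st n L k).2.2.2) : (st n L k).2.2.1 < k := by
  cases k with
  | zero => exact absurd h (lt_irrefl 0)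
  | succ k => exact Nat.lt_succ_of_le (c_le k)

lemma st_const {k : ℕ} (h : n ≤ (st n L k).1) (j : ℕ) : st n L (k + j) = st n L k := by
  induction j with
  | zero => rfl
  | succ j ih => rw [← add_assoc, st_succ, ih, stp, if_pos h]

lemma inactive (hv : Valid n L) {k : ℕ} (hk : k ≤ n) (h : n ≤ (st n L k).1) :
    (st n L k).1 = n ∧ (st n L k).2.1 = 0 ∧ (st n L k).2.2.2 = 0 := by
  have := st_const h (n - k)
  rw [show k + (n - k) = n by omega] at this
  rw [← this]
  exact hv.2.2

lemma pos_le (hv : Valid n L) {k : ℕ} (hk : k ≤ n) : (st n L k).1 ≤ n := by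
  by_contra h
  have := (inactive hv hk (by omega)).1
  omega

lemma chain (hv : Valid n L) (j : ℕ) : ∀ k, k ≤ n → j < (st n L k).2.2.2 → k + j + 2 < n := by
  induction j with
  | zero =>
    intro k hk h
    have h1 : (st n L k).1 < n := by
      by_contra h1
      have := (inactive hv hk (by omega)).2.2
      omega
    have := pos_ge k h1
    omega
  | succ j ih =>
    intro k hk h
    have h1 : (st n L k).1 < n := by
      by_contra h1
      have := (inactive hv hk (by omega)).2.2
      omega
    have h2 := pos_ge k h1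
    have := ih (k + 1) (by omega) (by
      rw [st_succ, stp, if_neg (by omega), if_pos (by omega)]
      simp only
      omega)
    omega

lemma idx_lt {p : ℕ} (hp : p < n) : idx n L (L p) < n := by
  have h1 := cnt_add_not n fun t => ∀ t' < t + 1, L t' ≠ L p
  have h2 : 0 < cnt n fun t => ¬ ∀ t' < t + 1, L t' ≠ L p :=
    cnt_pos.2 ⟨p, hp, fun h => h p (Nat.lt_succ_self p) rfl⟩
  unfold idx
  omega

/-- `gval` with separate value vectors. -/
noncomputable def gv (n : ℕ) (L : ℕ → ℕ) (X Y W : ℕ → ℝ) (t c : ℕ) : ℝ :=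
  if L t = 0 then (if L (t + 1) = 1 then -(L (t + 2) : ℝ) else (L (t + 2) : ℝ))
  else if L t = 1 then X (idx n L (L (t + 1)))
  else if L t = 2 then Y (idx n L (L (t + 1)))
  else if L t = 3 then W (c + 1 + L (t + 1)) + W (c + 1 + L (t + 2))
  else if L t = 4 then W (c + 1 + L (t + 1)) - W (c + 1 + L (t + 2))
  else W (c + 1 + L (t + 1)) * W (c + 1 + L (t + 2))

lemma gv_congr (hv : Valid n L) {k : ℕ} (hk : k < n) (h1 : (st n L k).1 < n)
    (h2 : 0 < (st n L k).2.2.2) (X : ℕ → ℝ) {Y Y' W W' : ℕ → ℝ} (hY : ∀ i < n, Y i = Y' i)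
    (hW : ∀ i < k, W i = W' i) :
    gv n L X Y W (st n L k).1 (st n L k).2.2.1 = gv n L X Y' W' (st n L k).1 (st n L k).2.2.1 := by
  have h3 := (hv.2.1 k hk h1).1 h2
  have h4 := pos_le hv (show k + 1 ≤ n by omega)
  rw [st_succ, stp, if_neg (by omega), if_pos h2] at h4
  simp only at h4
  have h5 : (st n L k).1 + 1 < n := by split_ifs at h4 <;> omega
  unfold gv
  split_ifs
  · rfl
  · rfl
  · rfl
  · exact hY _ (idx_lt h5)
  all_goals rw [hW _ (by omega), hW _ (by omega)]

/-- Forward recursion. -/
noncomputable def fwd (F : ℕ → (ℕ → ℝ) → ℝ) (k : ℕ) : ℝ :=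
  F k fun i => if _h : i < k then fwd F i else 0
termination_by k

lemma exists_fwd (F : ℕ → (ℕ → ℝ) → ℝ) :
    ∃ U : ℕ → ℝ, ∀ k, U k = F k fun i => if i < k then U i else 0 :=
  ⟨fwd F, fun k => by rw [fwd]; rfl⟩

lemma exists_bwd {X : Type} (x0 : X) (m : ℕ) :
    ∀ G : ℕ → X → X, ∃ B : ℕ → X, ∀ k < m, B k = G k (B (k + 1)) := by
  induction m with
  | zero => exact fun _ => ⟨fun _ => x0, fun _ h => absurd h (Nat.not_lt_zero _)⟩
  | succ m ih =>
    intro G
    obtain ⟨B, hB⟩ := ih fun k => G (k + 1)
    refine ⟨fun k => Nat.casesOn k (G 0 (B 0)) B, fun k hk => ?_⟩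
    cases k with
    | zero => rfl
    | succ k => exact hB k (by omega)

lemma drop_cons {t : ℕ} (h : t < n) :
    ((List.range n).map L).drop t = L t :: ((List.range n).map L).drop (t + 1) := by
  rw [List.drop_eq_getElem_cons (by simpa using h)]
  simp

lemma parse (hv : Valid n L) (m : ℕ) : ∀ k, k + m = n → ∃ (gs : List AGate) (fs : List Form),
    gs.length = (st n L k).2.2.2 ∧
    (∀ (g : ℕ) (hg : g < gs.length), (gs[g]).WF (L 0) (L 1) (k - (st n L k).2.2.1 - 1 + g)) ∧
    fs.length = (st n L k).2.1 ∧ (∀ φ ∈ fs, φ.WF (L 0) (L 1)) ∧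
    ((List.range n).map L).drop (st n L k).1 =
      gs.flatMap AGate.toNats ++ fs.flatMap Form.toNats := by
  have base : ∀ k, k ≤ n → n ≤ (st n L k).1 → ∃ (gs : List AGate) (fs : List Form),
      gs.length = (st n L k).2.2.2 ∧
      (∀ (g : ℕ) (hg : g < gs.length), (gs[g]).WF (L 0) (L 1) (k - (st n L k).2.2.1 - 1 + g)) ∧
      fs.length = (st n L k).2.1 ∧ (∀ φ ∈ fs, φ.WF (L 0) (L 1)) ∧
      ((List.range n).map L).drop (st n L k).1 =
        gs.flatMap AGate.toNats ++ fs.flatMap Form.toNats := fun k hk h => by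
    obtain ⟨h1, h2, h3⟩ := inactive hv hk h
    exact ⟨[], [], h3.symm, fun g hg => absurd hg (Nat.not_lt_zero _), h2.symm, by simp,
      by simp [h1]⟩
  induction m with
  | zero => exact fun k hk => base k (by omega) (by rw [show k = n by omega, hv.2.2.1])
  | succ m ih =>
    intro k hk
    by_cases h1 : n ≤ (st n L k).1
    · exact base k (by omega) h1
    obtain ⟨gs, fs, a1, a2, a3, a4, a5⟩ := ih (k + 1) (by omega)
    have h4 := pos_le hv (show k + 1 ≤ n by omega)
    obtain ⟨ok1, ok2⟩ := hv.2.1 k (by omega) (not_le.1 h1)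
    have hc := c_lt (n := n) (L := L) k
    rw [st_succ, stp, if_neg h1] at a1 a2 a3 a5 h4
    generalize st n L k = s at *
    obtain ⟨t, h, c, rem⟩ := s
    simp only at *
    by_cases h2 : 0 < rem
    · simp only [if_pos h2] at a1 a2 a3 a5 h4
      have key : ∀ g0 : AGate, g0.WF (L 0) (L 1) (k - c - 1) →
          ((List.range n).map L).drop t = g0.toNats ++ ((List.range n).map L).drop
            (t + if L t = 1 ∨ L t = 2 then 2 else 3) → ∃ (gs : List AGate) (fs : List Form),
          gs.length = rem ∧
          (∀ (g : ℕ) (hg : g < gs.length), (gs[g]).WF (L 0) (L 1) (k - c - 1 + g)) ∧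
          fs.length = h ∧ (∀ φ ∈ fs, φ.WF (L 0) (L 1)) ∧
          ((List.range n).map L).drop t = gs.flatMap AGate.toNats ++ fs.flatMap Form.toNats := by
        intro g0 w0 e0
        refine ⟨g0 :: gs, fs, by simp only [List.length_cons]; omega, fun g hg => ?_, a3, a4, ?_⟩
        · cases g with
          | zero => exact w0
          | succ g =>
            have := a2 g (by simpa using hg)
            rw [show k + 1 - c - 1 + g = k - c - 1 + (g + 1) by have := hc h2; omega] at this
            exact this
        · rw [e0, a5, List.flatMap_cons, List.append_assoc]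
      have d2 : L t = 1 ∨ L t = 2 → ((List.range n).map L).drop t = [L t, L (t + 1)] ++
          ((List.range n).map L).drop (t + if L t = 1 ∨ L t = 2 then 2 else 3) := fun e => by
        rw [if_pos e] at h4 ⊢
        rw [drop_cons (by omega), drop_cons (by omega)]
        rfl
      have d3 : ¬ (L t = 1 ∨ L t = 2) → ((List.range n).map L).drop t =
          [L t, L (t + 1), L (t + 2)] ++
          ((List.range n).map L).drop (t + if L t = 1 ∨ L t = 2 then 2 else 3) := fun e => by
        rw [if_neg e] at h4 ⊢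
        rw [drop_cons (by omega), drop_cons (by omega), drop_cons (by omega)]
        rfl
      rcases ok1 h2 with ⟨e, e' | ⟨e', e''⟩⟩ | ⟨e, e'⟩ | ⟨e, e'⟩ | ⟨e | e | e, e'⟩
      · refine key (.const (L (t + 2) : ℤ)) trivial ?_
        rw [d3 (by omega), e, e']
        simp [AGate.toNats]
      · refine key (.const (-(L (t + 2) : ℤ))) trivial ?_
        rw [d3 (by omega), e, e']
        simp [AGate.toNats, Nat.pos_of_ne_zero e'']
      · exact key (.varX (L (t + 1))) e' (by rw [d2 (by omega), e]; rfl)
      · exact key (.varY (L (t + 1))) e' (by rw [d2 (by omega), e]; rfl)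
      · exact key (.add (L (t + 1)) (L (t + 2))) e' (by rw [d3 (by omega), e]; rfl)
      · exact key (.sub (L (t + 1)) (L (t + 2))) e' (by rw [d3 (by omega), e]; rfl)
      · exact key (.mul (L (t + 1)) (L (t + 2))) e' (by rw [d3 (by omega), e]; rfl)
    · obtain ⟨hh, ok⟩ := ok2 (by omega)
      simp only [if_neg h2] at a1 a2 a3 a5 h4
      have fin : ∀ fs' : List Form, fs'.length = h → (∀ φ ∈ fs', φ.WF (L 0) (L 1)) →
          ((List.range n).map L).drop t = fs'.flatMap Form.toNats →
          ∃ (gs : List AGate) (fs : List Form), gs.length = rem ∧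
          (∀ (g : ℕ) (hg : g < gs.length), (gs[g]).WF (L 0) (L 1) (k - c - 1 + g)) ∧
          fs.length = h ∧ (∀ φ ∈ fs, φ.WF (L 0) (L 1)) ∧
          ((List.range n).map L).drop t = gs.flatMap AGate.toNats ++ fs.flatMap Form.toNats :=
        fun fs' b1 b2 b3 => ⟨[], fs', by simp only [List.length_nil]; omega,
          fun g hg => absurd hg (Nat.not_lt_zero _), b1, b2, by simpa using b3⟩
      by_cases e1 : L t = 6 ∨ L t = 7
      · simp only [if_pos e1] at a1 a2 a3 a5 h4
        have hw : CircuitWF (L 0) (L 1) gs := by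
          refine ⟨fun e => ?_, fun g => ?_⟩
          · rw [e] at a1
            simp only [List.length_nil] at a1
            omega
          · have := a2 g.1 g.2
            rw [show k + 1 - k - 1 + g.1 = g.1 by omega] at this
            exact this
        have hd : ((List.range n).map L).drop t =
            L t :: (circuitToNats gs ++ fs.flatMap Form.toNats) := by
          rw [drop_cons (by omega), drop_cons (by omega), a5, circuitToNats, a1]
          rfl
        rcases e1 with e | e
        · refine fin (.eqZero gs :: fs) (by simp only [List.length_cons]; omega) ?_ ?_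
          · exact List.forall_mem_cons.2 ⟨hw, a4⟩
          · rw [hd, e]; rfl
        · refine fin (.pos gs :: fs) (by simp only [List.length_cons]; omega) ?_ ?_
          · exact List.forall_mem_cons.2 ⟨hw, a4⟩
          · rw [hd, e]; rfl
      · simp only [if_neg e1] at a1 a2 a3 a5 h4
        by_cases e2 : L t = 10
        · simp only [if_pos e2] at a1 a2 a3 a5 h4
          rw [List.length_eq_zero_iff.1 a1] at a5
          rcases fs with _ | ⟨φ, fs⟩
          · simp only [List.length_nil] at a3
            omega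
          · obtain ⟨w1, w2⟩ := List.forall_mem_cons.1 a4
            refine fin (.not φ :: fs) a3 (List.forall_mem_cons.2 ⟨w1, w2⟩) ?_
            rw [drop_cons (by omega), a5, e2]
            rfl
        · simp only [if_neg e2] at a1 a2 a3 a5 h4
          rw [List.length_eq_zero_iff.1 a1] at a5
          rcases fs with _ | ⟨φ, _ | ⟨ψ, fs⟩⟩
          · simp only [List.length_nil] at a3
            omega
          · simp only [List.length_cons, List.length_nil] at a3
            omega
          · obtain ⟨w1, w2⟩ := List.forall_mem_cons.1 a4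
            obtain ⟨w2, w3⟩ := List.forall_mem_cons.1 w2
            simp only [List.length_cons] at a3
            have e3 : L t = 8 ∨ L t = 9 := by omega
            rcases e3 with e | e
            · refine fin (.and φ ψ :: fs) (by simp only [List.length_cons]; omega)
                (List.forall_mem_cons.2 ⟨⟨w1, w2⟩, w3⟩) ?_
              rw [drop_cons (by omega), a5, e]
              simp [Form.toNats]
            · refine fin (.or φ ψ :: fs) (by simp only [List.length_cons]; omega)
                (List.forall_mem_cons.2 ⟨⟨w1, w2⟩, w3⟩) ?_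
              rw [drop_cons (by omega), a5, e]
              simp [Form.toNats]

end StEx

open StEx

theorem con_exists {n : ℕ} {L : ℕ → ℕ} (h : Valid n L) (x y : ℕ → ℝ) :
    ∃ v : ℕ → ℝ, (∀ t < n, v t = y t) ∧ (∀ t, v (NV n + t) = x t) ∧
      ∀ k < n, conAt n L v k (st n L k) = 0 := by
  classical
  obtain ⟨U, hU⟩ := exists_fwd fun k W => gv n L x y W (st n L k).1 (st n L k).2.2.1
  obtain ⟨B, hB⟩ := exists_bwd (0 : ℕ → ℝ) n fun k β j =>
    if (st n L k).2.2.2 = 0 ∧ j = (st n L k).2.1 then
      (if L (st n L k).1 = 6 then (if U (k + L ((st n L k).1 + 1)) = 0 then 1 else 0)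
      else if L (st n L k).1 = 7 then (if 0 < U (k + L ((st n L k).1 + 1)) then 1 else 0)
      else if L (st n L k).1 = 8 then β (j + 1) * β j
      else if L (st n L k).1 = 9 then β (j + 1) + β j - β (j + 1) * β j
      else 1 - β j)
    else β j
  obtain ⟨A, hA⟩ : ∃ A : ℕ → ℝ, ∀ k, A k = if L (st n L k).1 = 6 then
      (U (k + L ((st n L k).1 + 1)))⁻¹ else if 0 < U (k + L ((st n L k).1 + 1)) then
      (√(U (k + L ((st n L k).1 + 1))))⁻¹ else √(-U (k + L ((st n L k).1 + 1))) := ⟨_, fun _ => rfl⟩
  obtain ⟨v, hv⟩ : ∃ v : ℕ → ℝ, ∀ i, v i = if i < n then y i else if i < 2 * n then U (i - n)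
      else if i < 3 * n then A (i - 2 * n) else if i < NV n then
      B ((i - 3 * n) / (n + 1)) ((i - 3 * n) % (n + 1)) else x (i - NV n) := ⟨_, fun _ => rfl⟩
  have hNV : 3 * n ≤ NV n := Nat.le_add_right _ _
  have e1 : ∀ t < n, v t = y t := fun t ht => by rw [hv, if_pos ht]
  have e2 : ∀ t, v (NV n + t) = x t := fun t => by
    rw [hv, if_neg (by omega), if_neg (by omega), if_neg (by omega), if_neg (by omega),
      Nat.add_sub_cancel_left]
  have e3 : ∀ k < n, vu n v k = U k := fun k hk => by
    rw [vu, min_eq_left hk.le, hv, if_neg (by omega), if_pos (by omega), Nat.add_sub_cancel_left]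
  have e4 : ∀ k < n, va n v k = A k := fun k hk => by
    rw [va, min_eq_left hk.le, hv, if_neg (by omega), if_neg (by omega), if_pos (by omega),
      Nat.add_sub_cancel_left]
  have e5 : ∀ k ≤ n, ∀ j ≤ n, vb n v k j = B k j := fun k hk j hj => by
    have h1 : k * (n + 1) ≤ n * (n + 1) := Nat.mul_le_mul_right _ hk
    have h2 : NV n = 3 * n + (n * (n + 1) + (n + 1)) := by unfold NV; ring
    rw [vb, min_eq_left hk, min_eq_left hj, hv, if_neg (by omega), if_neg (by omega),
      if_neg (by omega), if_pos (by omega), add_assoc, Nat.add_sub_cancel_left, add_comm,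
      Nat.add_mul_div_right _ _ (Nat.succ_pos n), Nat.add_mul_mod_self_right,
      Nat.div_eq_of_lt (by omega), Nat.mod_eq_of_lt (by omega), zero_add]
  refine ⟨v, e1, e2, fun k hk => ?_⟩
  have hcp : ∀ m, (∀ j < m, ¬ ((st n L k).2.2.2 = 0 ∧ j = (st n L k).2.1)) → cpy n v k m = 0 :=
    fun m hm => sum_eq_zero fun j hj => by
      have hj' := Nat.lt_succ_iff.1 (mem_range.1 hj)
      split_ifs with h1
      · rw [e5 k hk.le j hj', e5 (k + 1) hk j hj', hB k hk]
        simp only [if_neg (hm j h1), sub_self]
        norm_num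
      · rfl
  unfold conAt
  by_cases h1 : n ≤ (st n L k).1
  · exact if_pos h1
  rw [if_neg h1]
  have h1' := not_le.1 h1
  by_cases h2 : 0 < (st n L k).2.2.2
  · rw [if_pos h2, hcp _ (fun j _ hj => by omega), e3 k hk, hU]
    have : gval n L v (st n L k).1 (st n L k).2.2.1 =
        gv n L (fun i => v (NV n + i)) v (vu n v) (st n L k).1 (st n L k).2.2.1 := rfl
    rw [this, funext e2, gv_congr h hk h1' h2 x e1 (W := vu n v)
      (W' := fun i => if i < k then U i else 0) fun i hi => by rw [if_pos hi, e3 i (by omega)]]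
    norm_num
  rw [if_neg h2, hcp _ (fun j hj hj' => by omega), zero_add]
  have p1 := pos_ge k h1'
  have p2 := h_le (n := n) (L := L) k
  have ok := ((h.2.1 k hk h1').2 (by omega)).2
  have p3 : L (st n L k).1 = 6 ∨ L (st n L k).1 = 7 → k + L ((st n L k).1 + 1) < n := fun e => by
    have := chain h (L ((st n L k).1 + 1) - 1) (k + 1) hk (by
      rw [st_succ, stp, if_neg h1, if_neg h2, if_pos e]
      simp only
      omega)
    omega
  rw [e5 k hk.le _ (by omega), e5 (k + 1) hk _ (by omega), e5 (k + 1) hk _ (by omega), e4 k hk,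
    hB k hk, hA]
  simp only [show (st n L k).2.2.2 = 0 by omega, and_self, if_true]
  by_cases c6 : L (st n L k).1 = 6
  · simp only [if_pos c6]
    rw [e3 _ (p3 (Or.inl c6))]
    split_ifs with hu
    · simp [hu]
    · simp [hu]
  simp only [if_neg c6]
  by_cases c7 : L (st n L k).1 = 7
  · simp only [if_pos c7]
    rw [e3 _ (p3 (Or.inr c7))]
    split_ifs with hu
    · rw [inv_pow, Real.sq_sqrt hu.le, mul_inv_cancel₀ hu.ne']
      norm_num
    · rw [Real.sq_sqrt (by linarith)]
      norm_num
  simp only [if_neg c7]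
  split_ifs <;> norm_num

theorem wf_of_valid {n : ℕ} {L : ℕ → ℕ} (h : Valid n L) :
    ∃ S : Sentence, S.WF ∧ S.toNats = (List.range n).map L := by
  obtain ⟨gs, fs, a1, -, a3, a4, a5⟩ := parse h n 0 (zero_add n)
  have h2 := h.1
  change gs.length = 0 at a1
  change fs.length = 1 at a3
  change List.drop 2 _ = _ at a5
  obtain ⟨φ, rfl⟩ := List.length_eq_one_iff.1 a3
  rw [List.length_eq_zero_iff.1 a1] at a5
  refine ⟨⟨L 0, L 1, φ⟩, a4 φ (by simp), ?_⟩
  rw [← List.drop_zero (l := (List.range n).map L), drop_cons (by omega), drop_cons (by omega), a5]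
  simp [Sentence.toNats]

end Crest.Agent.R316
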