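import Crest.Agent.R316.StSound
import Crest.Agent.R316.StEx

/-! Row 316: truth of a sentence in terms of the polynomial. -/

set_option autoImplicit false

namespace Crest.Agent.R316

open Crest.Agent.PT Crest.RealEA Finset

namespace StSem

theorem Qf_map {K K' : Type} [CommRing K] [CommRing K'] (φ : K →+* K') (n : ℕ) (L : ℕ → ℕ)
    (v : ℕ → K) : Qf n L (fun i => φ (v i)) = φ (Qf n L v) := by
  have hg : ∀ t c, gval n L (fun i => φ (v i)) t c = φ (gval n L v t c) := by
    intro t c
    unfold gval vu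
    split_ifs <;> simp
  have hc : ∀ k h, cpy n (fun i => φ (v i)) k h = φ (cpy n v k h) := by
    intro k h
    unfold cpy vb
    rw [map_sum]
    refine sum_congr rfl fun j _ => ?_
    split_ifs <;> simp
  have ha : ∀ k s, conAt n L (fun i => φ (v i)) k s = φ (conAt n L v k s) := by
    intro k s
    unfold conAt
    simp only [hg, hc]
    unfold vu va vb
    split_ifs <;> simp
  unfold Qf
  simp only [ha]
  simp [vb]

theorem cpy_nonneg (n : ℕ) (v : ℕ → ℝ) (k h : ℕ) : 0 ≤ cpy n v k h := by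
  refine sum_nonneg fun j _ => ?_
  split_ifs
  · positivity
  · exact le_rfl

theorem conAt_nonneg (n : ℕ) (L : ℕ → ℕ) (v : ℕ → ℝ) (k : ℕ) (s : ℕ × ℕ × ℕ × ℕ) :
    0 ≤ conAt n L v k s := by
  have h1 := cpy_nonneg n v k s.2.1
  have h2 := cpy_nonneg n v k (s.2.1 + 1)
  unfold conAt
  split_ifs <;> positivity

theorem Qf_eq_zero (n : ℕ) (L : ℕ → ℕ) (v : ℕ → ℝ) :
    Qf n L v = 0 ↔ (∀ k < n, conAt n L v k (st n L k) = 0) ∧ vb n v 0 1 = 0 := by
  rw [Qf, add_eq_zero_iff_of_nonneg (sum_nonneg fun k _ => conAt_nonneg _ _ _ _ _) (sq_nonneg _),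
    sum_eq_zero_iff_of_nonneg fun k _ => conAt_nonneg _ _ _ _ _]
  simp

theorem circuit_congr {r s : ℕ} {x x' y y' : ℕ → ℝ} {c : List AGate} (h : CircuitWF r s c)
    (hx : ∀ i ∈ circuitToNats c, i < r → x i = x' i)
    (hy : ∀ i ∈ circuitToNats c, i < s → y i = y' i) :
    circuitValue x y c = circuitValue x' y' c := by
  unfold circuitValue circuitValues
  congr 1
  refine List.foldl_ext _ _ _ fun prev g hg => ?_
  obtain ⟨t, rfl⟩ := List.mem_iff_get.1 hg
  have hw := h.2 t
  have hm : ∀ i ∈ (c.get t).toNats, i ∈ circuitToNats c := fun i hi =>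
    List.mem_cons_of_mem _ (List.mem_flatMap.2 ⟨_, hg, hi⟩)
  generalize c.get t = g at hw hm
  cases g with
  | varX i => rw [AGate.value, AGate.value, hx i (hm i (by simp [AGate.toNats])) hw]
  | varY i => rw [AGate.value, AGate.value, hy i (hm i (by simp [AGate.toNats])) hw]
  | _ => rfl

theorem holds_congr {r s : ℕ} {x x' y y' : ℕ → ℝ} {φ : Form} (h : φ.WF r s)
    (hx : ∀ i ∈ φ.toNats, i < r → x i = x' i) (hy : ∀ i ∈ φ.toNats, i < s → y i = y' i) :
    φ.Holds x y ↔ φ.Holds x' y' := by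
  induction φ with
  | eqZero c =>
    rw [Form.Holds, Form.Holds, circuit_congr h (fun i hi => hx i (List.mem_cons_of_mem _ hi))
      fun i hi => hy i (List.mem_cons_of_mem _ hi)]
  | pos c =>
    rw [Form.Holds, Form.Holds, circuit_congr h (fun i hi => hx i (List.mem_cons_of_mem _ hi))
      fun i hi => hy i (List.mem_cons_of_mem _ hi)]
  | and φ ψ ih1 ih2 =>
    exact and_congr
      (ih1 h.1 (fun i hi => hx i (by simp [Form.toNats, hi])) fun i hi =>
        hy i (by simp [Form.toNats, hi]))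
      (ih2 h.2 (fun i hi => hx i (by simp [Form.toNats, hi])) fun i hi =>
        hy i (by simp [Form.toNats, hi]))
  | or φ ψ ih1 ih2 =>
    exact or_congr
      (ih1 h.1 (fun i hi => hx i (by simp [Form.toNats, hi])) fun i hi =>
        hy i (by simp [Form.toNats, hi]))
      (ih2 h.2 (fun i hi => hx i (by simp [Form.toNats, hi])) fun i hi =>
        hy i (by simp [Form.toNats, hi]))
  | not φ ih =>
    exact not_congr (ih h (fun i hi => hx i (by simp [Form.toNats, hi])) fun i hi =>
      hy i (by simp [Form.toNats, hi]))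

theorem idx_spec {n : ℕ} {L : ℕ → ℕ} {i : ℕ} (h : ∃ t < n, L t = i) :
    idx n L i < n ∧ L (idx n L i) = i := by
  classical
  have h' : ∃ t, L t = i := h.imp fun _ h => h.2
  have h1 : Nat.find h' < n := by
    obtain ⟨t, ht, hL⟩ := h
    exact (Nat.find_min' h' hL).trans_lt ht
  have h2 : idx n L i = Nat.find h' := by
    rw [idx, cnt_congr (B' := fun t => t < Nat.find h'), cnt_lt, min_eq_right h1.le]
    intro u _
    rw [Nat.lt_find_iff]
    exact forall_congr' fun t => imp_congr_left Nat.lt_succ_iff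
  rw [h2]
  exact ⟨h1, Nat.find_spec h'⟩

theorem glue_rext {m n : ℕ} (y : Fin m → ℝ) (x : Fin n → ℝ) (v : ℕ → ℝ)
    (hy : ∀ k : Fin m, v k = y k) (hx : ∀ t, v (m + t) = extend x t) :
    glue m (rext y) (rext x) = fun i => Complex.ofRealHom (v i) := by
  funext i
  rcases lt_or_ge i m with hi | hi
  · rw [glue_lt hi, ← Fin.val_mk (n := m) hi, rext_val, hy]
    rfl
  · obtain ⟨t, rfl⟩ := Nat.exists_eq_add_of_le hi
    rw [hx, add_comm, glue_add, rext, ext, extend]
    split_ifs <;> simp

end StSem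

open StSem

theorem sem (S : Sentence) (h : S.WF) (n : ℕ) (L : ℕ → ℕ) (hn : n = S.toNats.length)
    (hL : L = fun t => S.toNats.getD t 0) :
    S.IsTrue ↔ ∃ x : Fin n → ℝ, ∀ y : Fin (NV n) → ℝ,
      Qf n L (glue (NV n) (rext y) (rext x)) ≠ 0 := by
  classical
  have hidx : ∀ i ∈ S.body.toNats, idx n L i < n ∧ L (idx n L i) = i := by
    intro i hi
    have : i ∈ S.toNats := List.mem_cons_of_mem _ (List.mem_cons_of_mem _ hi)
    obtain ⟨t, ht, rfl⟩ := List.mem_iff_getElem.1 this
    exact idx_spec ⟨t, hn ▸ ht, by rw [hL]; exact List.getD_eq_getElem _ _ ht⟩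
  constructor
  · rintro ⟨x, hx⟩
    refine ⟨fun t => extend x (L t), fun y hQ => ?_⟩
    set v : ℕ → ℝ := fun i =>
      if i < NV n then extend y i else extend (fun t : Fin n => extend x (L t)) (i - NV n) with hv
    have hv2 : ∀ t, v (NV n + t) = extend (fun t : Fin n => extend x (L t)) t := fun t => by
      simp [hv]
    rw [glue_rext y _ v (fun k => by simp [hv, extend]) hv2, Qf_map, map_eq_zero,
      Qf_eq_zero] at hQ
    have h1 := con_sound S h n L hn hL v hQ.1
    rw [hQ.2, if_pos] at h1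
    · exact zero_ne_one h1
    refine (holds_congr h (fun i hi _ => ?_) fun i _ hi => ?_).1
      (hx fun j => v (idx n L j))
    · rw [hv2, extend.eq_1 _ (idx n L i), dif_pos (hidx i hi).1]
      simp only [(hidx i hi).2]
    · rw [extend, dif_pos hi]
  · rintro ⟨x, hx⟩
    refine ⟨fun i => extend x (idx n L i), fun y => ?_⟩
    by_contra hne
    have hval : Valid n L := by
      rw [hn, hL]
      exact valid_of_wf S h
    obtain ⟨v, h1, h2, h3⟩ := con_exists hval (extend x) fun t => extend y (L t)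
    refine hx (fun k => v k) ?_
    rw [glue_rext _ x v (fun _ => rfl) h2, Qf_map, map_eq_zero, Qf_eq_zero]
    refine ⟨h3, ?_⟩
    rw [con_sound S h n L hn hL v h3, if_neg]
    intro hH
    refine hne ((holds_congr h (fun i _ hi => ?_) fun i hi _ => ?_).1 hH)
    · rw [h2, extend.eq_1 _ i, dif_pos hi]
    · rw [h1 _ (hidx i hi).1, (hidx i hi).2]

end Crest.Agent.R316
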