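import Crest.Agent.R316.StDefs
import Crest.Agent.R316.PTB

/-! Row 316: the equations compute the truth value. -/

set_option autoImplicit false

namespace Crest.Agent.R316

open Crest.Agent.PT Crest.RealEA Finset

namespace StSound

/-- the tokens `l` stand at position `t` -/
def At (n : ℕ) (L : ℕ → ℕ) : ℕ → List ℕ → Prop
  | t, [] => t ≤ n
  | t, a :: l => t < n ∧ L t = a ∧ At n L (t + 1) l

variable {n : ℕ} {L : ℕ → ℕ}

theorem At.le {t : ℕ} {l : List ℕ} (h : At n L t l) : t ≤ n := by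
  cases l with
  | nil => exact h
  | cons a l => exact h.1.le

theorem At.append {t : ℕ} {l l' : List ℕ} (h : At n L t (l ++ l')) :
    At n L t l ∧ At n L (t + l.length) l' := by
  induction l generalizing t with
  | nil => exact ⟨h.le, h⟩
  | cons a l ih =>
    obtain ⟨h1, h2, h3⟩ := h
    obtain ⟨h4, h5⟩ := ih h3
    exact ⟨⟨h1, h2, h4⟩, by rwa [List.length_cons, ← add_assoc, add_right_comm]⟩

theorem at_self (p l : List ℕ) : At (p ++ l).length (fun t => (p ++ l).getD t 0) p.length l := by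
  induction l generalizing p with
  | nil => simp [At]
  | cons a l ih =>
    refine ⟨by simp, by simp, ?_⟩
    have := ih (p ++ [a])
    simpa using this

def items : Form → ℕ
  | .eqZero c => c.length + 1
  | .pos c => c.length + 1
  | .and φ ψ => 1 + items φ + items ψ
  | .or φ ψ => 1 + items φ + items ψ
  | .not φ => 1 + items φ

theorem cpy_nonneg (v : ℕ → ℝ) (k h : ℕ) : 0 ≤ cpy n v k h :=
  sum_nonneg fun j _ => by split_ifs <;> positivity

theorem cpy_zero {v : ℕ → ℝ} {k h : ℕ} (h0 : cpy n v k h = 0) (hh : h ≤ n + 1) :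
    ∀ j < h, vb n v k j = vb n v (k + 1) j := by
  intro j hj
  have := (sum_eq_zero_iff_of_nonneg fun j _ => by split_ifs <;> positivity).1 h0 j
    (mem_range.2 (by omega))
  rw [if_pos hj] at this
  exact sub_eq_zero.1 (pow_eq_zero_iff two_ne_zero |>.1 this)

theorem gate {t p : ℕ} (g : AGate) (ha : At n L t g.toNats) (hw : g.WF (L 0) (L 1) p) :
    t < n ∧ (if L t = 1 ∨ L t = 2 then 2 else 3) = g.toNats.length ∧ 2 ≤ g.toNats.length ∧
    ((L t = 0 ∧ (L (t + 1) = 0 ∨ (L (t + 1) = 1 ∧ L (t + 2) ≠ 0))) ∨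
      (L t = 1 ∧ L (t + 1) < L 0) ∨ (L t = 2 ∧ L (t + 1) < L 1) ∨
      ((L t = 3 ∨ L t = 4 ∨ L t = 5) ∧ L (t + 1) < p ∧ L (t + 2) < p)) ∧
    ∀ (v : ℕ → ℝ) (c : ℕ) (vals : List ℝ), (∀ a < p, vu n v (c + 1 + a) = vals.getD a 0) →
      gval n L v t c = g.value (fun i => v (NV n + idx n L i)) (fun i => v (idx n L i)) vals := by
  cases g with
  | const z =>
    obtain ⟨h1, h2, -, h3, -, h4, -⟩ := ha
    refine ⟨h1, by simp [h2, AGate.toNats], by simp [AGate.toNats], Or.inl ⟨h2, ?_⟩,
      fun v c vals _ => ?_⟩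
    · rw [h3, show t + 2 = t + 1 + 1 from rfl, h4]
      split_ifs <;> omega
    · rw [gval, if_pos h2, h3, show t + 2 = t + 1 + 1 from rfl, h4, AGate.value, Nat.cast_natAbs]
      by_cases hz : z < 0
      · simp [hz, abs_of_neg hz]
      · simp [hz, abs_of_nonneg (not_lt.1 hz)]
  | varX i =>
    obtain ⟨h1, h2, -, h3, -⟩ := ha
    exact ⟨h1, by simp [h2, AGate.toNats], by simp [AGate.toNats],
      Or.inr (Or.inl ⟨h2, h3 ▸ hw⟩), fun v c vals _ => by simp [gval, h2, h3, AGate.value]⟩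
  | varY i =>
    obtain ⟨h1, h2, -, h3, -⟩ := ha
    exact ⟨h1, by simp [h2, AGate.toNats], by simp [AGate.toNats],
      Or.inr (Or.inr (Or.inl ⟨h2, h3 ▸ hw⟩)), fun v c vals _ => by simp [gval, h2, h3, AGate.value]⟩
  | add a b =>
    obtain ⟨h1, h2, -, h3, -, h4, -⟩ := ha
    replace h4 : L (t + 2) = b := h4
    exact ⟨h1, by simp [h2, AGate.toNats], by simp [AGate.toNats],
      Or.inr (Or.inr (Or.inr ⟨by omega, h3 ▸ hw.1, h4 ▸ hw.2⟩)),
      fun v c vals hv => by simp [gval, h2, h3, h4, AGate.value, hv a hw.1, hv b hw.2]⟩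
  | sub a b =>
    obtain ⟨h1, h2, -, h3, -, h4, -⟩ := ha
    replace h4 : L (t + 2) = b := h4
    exact ⟨h1, by simp [h2, AGate.toNats], by simp [AGate.toNats],
      Or.inr (Or.inr (Or.inr ⟨by omega, h3 ▸ hw.1, h4 ▸ hw.2⟩)),
      fun v c vals hv => by simp [gval, h2, h3, h4, AGate.value, hv a hw.1, hv b hw.2]⟩
  | mul a b =>
    obtain ⟨h1, h2, -, h3, -, h4, -⟩ := ha
    replace h4 : L (t + 2) = b := h4
    exact ⟨h1, by simp [h2, AGate.toNats], by simp [AGate.toNats],
      Or.inr (Or.inr (Or.inr ⟨by omega, h3 ▸ hw.1, h4 ▸ hw.2⟩)),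
      fun v c vals hv => by simp [gval, h2, h3, h4, AGate.value, hv a hw.1, hv b hw.2]⟩

theorem gates (gs : List AGate) {t p h c : ℕ} (hs : st n L (c + 1 + p) = (t, h, c, gs.length))
    (ha : At n L t (gs.flatMap AGate.toNats))
    (hw : ∀ i (hi : i < gs.length), gs[i].WF (L 0) (L 1) (p + i)) (ht : c + 1 + p + 2 ≤ t)
    (hh : h ≤ c + 1) :
    st n L (c + 1 + p + gs.length) = (t + (gs.flatMap AGate.toNats).length, h, c, 0) ∧
    (∀ i, c + 1 + p ≤ i → i < c + 1 + p + gs.length → okAt n L i (st n L i)) ∧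
    c + 1 + p + gs.length + 2 ≤ t + (gs.flatMap AGate.toNats).length ∧
    ∀ v : ℕ → ℝ, (∀ k < n, conAt n L v k (st n L k) = 0) →
      (∀ j < h + 1, vb n v (c + 1 + p) j = vb n v (c + 1 + p + gs.length) j) ∧
      ∀ vals : List ℝ, vals.length = p → (∀ a < p, vu n v (c + 1 + a) = vals.getD a 0) →
        ∀ a < p + gs.length, vu n v (c + 1 + a) = (gs.foldl (fun prev g => prev ++
          [g.value (fun i => v (NV n + idx n L i)) (fun i => v (idx n L i)) prev]) vals).getD a 0 := by
  induction gs generalizing t p with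
  | nil => exact ⟨hs, fun i h1 h2 => by simp at h2; omega, ht, fun v _ => ⟨fun j _ => rfl,
      fun vals _ h => h⟩⟩
  | cons g gs ih =>
    rw [List.flatMap_cons] at ha ⊢
    obtain ⟨a1, a2⟩ := ha.append
    obtain ⟨g1, g2, g3, g4, g5⟩ := gate g a1 (hw 0 (by simp))
    have hs' : st n L (c + 1 + (p + 1)) = (t + g.toNats.length, h, c, gs.length) := by
      rw [← add_assoc, st, hs, stp]
      simp [g1.not_ge, g2]
    obtain ⟨i1, i2, i3, i4⟩ := ih hs' a2
      (fun i hi => by have := hw (i + 1) (by simpa using hi); rwa [add_assoc, add_comm 1 i])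
      (by omega)
    have e : c + 1 + p + (g :: gs).length = c + 1 + (p + 1) + gs.length := by simp; omega
    rw [e, List.length_append, ← add_assoc t]
    refine ⟨i1, fun i h1 h2 => ?_, i3, fun v hv => ?_⟩
    · rcases h1.eq_or_lt with rfl | h1
      · rw [hs]
        refine fun _ => ⟨fun _ => ?_, fun h => by simp at h⟩
        simp only [show c + 1 + p - c - 1 = p by omega]
        exact g4
      · exact i2 i (by omega) h2
    · have h0 := hv (c + 1 + p) (by omega)
      rw [hs, conAt] at h0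
      simp only [g1.not_ge, if_false, List.length_cons, Nat.zero_lt_succ, if_true] at h0
      obtain ⟨b1, b2⟩ := (add_eq_zero_iff_of_nonneg (sq_nonneg _) (cpy_nonneg _ _ _)).1 h0
      obtain ⟨j1, j2⟩ := i4 v hv
      refine ⟨fun j hj => (cpy_zero b2 (by omega) j hj).trans (j1 j hj), fun vals l1 l2 a ha => ?_⟩
      refine j2 _ (by simp [l1]) (fun a ha => ?_) a (by simp at ha; omega)
      rcases (Nat.lt_succ_iff.1 ha).eq_or_lt with rfl | ha
      · rw [sub_eq_zero.1 (pow_eq_zero_iff two_ne_zero |>.1 b1), g5 v c vals l2, ← l1]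
        simp
      · rw [l2 a ha, List.getD_append _ _ _ _ (by omega)]

theorem length_values (x y : ℕ → ℝ) (gs : List AGate) (vals : List ℝ) :
    (gs.foldl (fun prev g => prev ++ [g.value x y prev]) vals).length = vals.length + gs.length := by
  induction gs generalizing vals with
  | nil => rfl
  | cons g gs ih => rw [List.foldl_cons, ih]; simp; omega

theorem atom (gs : List AGate) {k t h c a : ℕ} (hs : st n L k = (t, h, c, 0))
    (ha : At n L t (a :: circuitToNats gs)) (h67 : a = 6 ∨ a = 7)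
    (hw : CircuitWF (L 0) (L 1) gs) (h1 : 1 ≤ h) (ht : k + 2 ≤ t) (hh : h ≤ k + 1) :
    st n L (k + (gs.length + 1)) = (t + (a :: circuitToNats gs).length, h - 1, k, 0) ∧
    (∀ i, k ≤ i → i < k + (gs.length + 1) → okAt n L i (st n L i)) ∧
    k + (gs.length + 1) + 2 ≤ t + (a :: circuitToNats gs).length ∧
    ∀ v : ℕ → ℝ, (∀ k < n, conAt n L v k (st n L k) = 0) →
      (∀ j < h, vb n v (k + 1) j = vb n v (k + (gs.length + 1)) j) ∧
      vu n v (k + gs.length) =
        circuitValue (fun i => v (NV n + idx n L i)) (fun i => v (idx n L i)) gs := by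
  obtain ⟨a1, a2, -, a3, a4⟩ := ha
  have hs' : st n L (k + 1 + 0) = (t + 1 + 1, h - 1, k, gs.length) := by
    rw [add_zero, st, hs, stp]
    simp [a1.not_ge, a2, h67, a3]
  have hpos : 0 < gs.length := List.length_pos_iff.2 hw.1
  obtain ⟨i1, i2, i3, i4⟩ := gates gs hs' a4 (fun i hi => by simpa using hw.2 ⟨i, hi⟩) (by omega)
    (by omega)
  have e : k + (gs.length + 1) = k + 1 + 0 + gs.length := by omega
  have e' : t + (a :: circuitToNats gs).length = t + 1 + 1 + (gs.flatMap AGate.toNats).length := by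
    simp only [circuitToNats, List.length_cons]; omega
  rw [e, e']
  refine ⟨i1, fun i h1' h2 => ?_, i3, fun v hv => ?_⟩
  · rcases h1'.eq_or_lt with rfl | h1'
    · rw [hs]
      exact fun _ => ⟨fun h => by simp at h, fun _ => ⟨h1, Or.inl ⟨a2 ▸ h67, a3 ▸ hpos⟩⟩⟩
    · exact i2 i (by omega) h2
  · obtain ⟨j1, j2⟩ := i4 v hv
    refine ⟨fun j hj => j1 j (by omega), ?_⟩
    have := j2 [] rfl (by simp) (gs.length - 1) (by omega)
    rw [show k + 1 + (gs.length - 1) = k + gs.length by omega] at this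
    rw [this, circuitValue, circuitValues, List.getLastD_eq_getLast?, List.getLast?_eq_getElem?,
      length_values, List.getD_eq_getElem?_getD]
    simp

open Classical in
theorem form (φ : Form) {k t h c : ℕ} (hs : st n L k = (t, h, c, 0)) (ha : At n L t φ.toNats)
    (hw : φ.WF (L 0) (L 1)) (h1 : 1 ≤ h) (ht : k + 2 ≤ t) (hh : h ≤ k + 1) :
    (∃ c', st n L (k + items φ) = (t + φ.toNats.length, h - 1, c', 0)) ∧
    (∀ i, k ≤ i → i < k + items φ → okAt n L i (st n L i)) ∧
    k + items φ + 2 ≤ t + φ.toNats.length ∧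
    ∀ v : ℕ → ℝ, (∀ k < n, conAt n L v k (st n L k) = 0) →
      (∀ j < h, vb n v k j = vb n v (k + items φ) j) ∧
      vb n v k h =
        if φ.Holds (fun i => v (NV n + idx n L i)) (fun i => v (idx n L i)) then 1 else 0 := by
  induction φ generalizing k t h c with
  | eqZero gs =>
    obtain ⟨i1, i2, i3, i4⟩ := atom gs hs ha (Or.inl rfl) hw h1 ht hh
    refine ⟨⟨k, i1⟩, i2, i3, fun v hv => ?_⟩
    obtain ⟨a1, a2, -, a3, -⟩ := ha
    obtain ⟨j1, j2⟩ := i4 v hv
    have h0 := hv k (by omega)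
    rw [hs, conAt] at h0
    simp only [a1.not_ge, if_false, lt_irrefl, a2, a3, if_true, j2] at h0
    obtain ⟨b1, b2⟩ := (add_eq_zero_iff_of_nonneg (cpy_nonneg _ _ _) (by positivity)).1 h0
    obtain ⟨b2, b3⟩ := (add_eq_zero_iff_of_nonneg (by positivity) (by positivity)).1 b2
    rw [pow_eq_zero_iff two_ne_zero] at b2 b3
    refine ⟨fun j hj => (cpy_zero b1 (by omega) j hj).trans (j1 j hj), ?_⟩
    simp only [Form.Holds]
    split_ifs with hz
    · rw [hz] at b3; linarith
    · exact (mul_eq_zero.1 b2).resolve_right hz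
  | pos gs =>
    obtain ⟨i1, i2, i3, i4⟩ := atom gs hs ha (Or.inr rfl) hw h1 ht hh
    refine ⟨⟨k, i1⟩, i2, i3, fun v hv => ?_⟩
    obtain ⟨a1, a2, -, a3, -⟩ := ha
    obtain ⟨j1, j2⟩ := i4 v hv
    have h0 := hv k (by omega)
    rw [hs, conAt] at h0
    simp only [a1.not_ge, if_false, lt_irrefl, a2, a3, if_true, j2, Nat.reduceEqDiff] at h0
    obtain ⟨b1, b2⟩ := (add_eq_zero_iff_of_nonneg (cpy_nonneg _ _ _) (by positivity)).1 h0
    obtain ⟨b2, b4⟩ := (add_eq_zero_iff_of_nonneg (by positivity) (by positivity)).1 b2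
    obtain ⟨b2, b3⟩ := (add_eq_zero_iff_of_nonneg (by positivity) (by positivity)).1 b2
    rw [pow_eq_zero_iff two_ne_zero] at b2 b3 b4
    refine ⟨fun j hj => (cpy_zero b1 (by omega) j hj).trans (j1 j hj), ?_⟩
    simp only [Form.Holds]
    have hq := sq_nonneg (va n v k)
    split_ifs with hz
    · have := (mul_eq_zero.1 b4).resolve_right (by positivity)
      linarith
    · refine (mul_eq_zero.1 b3).resolve_right fun h => ?_
      nlinarith [mul_nonneg (sub_nonneg.2 (not_lt.1 hz)) hq]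
  | and φ ψ ih1 ih2 =>
    obtain ⟨a1, a2, a3⟩ := ha
    obtain ⟨a3, a4⟩ := a3.append
    have hs1 : st n L (k + 1) = (t + 1, h + 1, c, 0) := by
      rw [st, hs, stp]; simp [a1.not_ge, a2]
    obtain ⟨⟨c1, i1⟩, i2, i3, i4⟩ := ih1 hs1 a3 hw.1 (by omega) (by omega) (by omega)
    rw [Nat.add_sub_cancel] at i1
    obtain ⟨⟨c2, l1⟩, l2, l3, l4⟩ := ih2 i1 a4 hw.2 h1 (by omega) (by omega)
    have e : k + items (φ.and ψ) = k + 1 + items φ + items ψ := by simp only [items]; omega
    have e' : t + (φ.and ψ).toNats.length = t + 1 + φ.toNats.length + ψ.toNats.length := by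
      simp only [Form.toNats, List.length_cons, List.length_append]; omega
    rw [e, e']
    refine ⟨⟨c2, l1⟩, fun i h2 h3 => ?_, l3, fun v hv => ?_⟩
    · rcases h2.eq_or_lt with rfl | h2
      · rw [hs]
        exact fun _ => ⟨fun h => by simp at h, fun _ => ⟨h1, Or.inr (Or.inl a2)⟩⟩
      · by_cases h4 : i < k + 1 + items φ
        · exact i2 i h2 h4
        · exact l2 i (by omega) h3
    · obtain ⟨j1, j2⟩ := i4 v hv
      obtain ⟨m1, m2⟩ := l4 v hv
      have h0 := hv k (by omega)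
      rw [hs, conAt] at h0
      simp only [a1.not_ge, if_false, lt_irrefl, a2, if_true, Nat.reduceEqDiff] at h0
      obtain ⟨b1, b2⟩ := (add_eq_zero_iff_of_nonneg (cpy_nonneg _ _ _) (by positivity)).1 h0
      rw [pow_eq_zero_iff two_ne_zero, sub_eq_zero, j2, j1 h (by omega), m2] at b2
      refine ⟨fun j hj => (cpy_zero b1 (by omega) j hj).trans ((j1 j (by omega)).trans (m1 j hj)), ?_⟩
      rw [b2]
      simp only [Form.Holds]
      split_ifs <;> simp_all
  | or φ ψ ih1 ih2 =>
    obtain ⟨a1, a2, a3⟩ := ha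
    obtain ⟨a3, a4⟩ := a3.append
    have hs1 : st n L (k + 1) = (t + 1, h + 1, c, 0) := by
      rw [st, hs, stp]; simp [a1.not_ge, a2]
    obtain ⟨⟨c1, i1⟩, i2, i3, i4⟩ := ih1 hs1 a3 hw.1 (by omega) (by omega) (by omega)
    rw [Nat.add_sub_cancel] at i1
    obtain ⟨⟨c2, l1⟩, l2, l3, l4⟩ := ih2 i1 a4 hw.2 h1 (by omega) (by omega)
    have e : k + items (φ.or ψ) = k + 1 + items φ + items ψ := by simp only [items]; omega
    have e' : t + (φ.or ψ).toNats.length = t + 1 + φ.toNats.length + ψ.toNats.length := by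
      simp only [Form.toNats, List.length_cons, List.length_append]; omega
    rw [e, e']
    refine ⟨⟨c2, l1⟩, fun i h2 h3 => ?_, l3, fun v hv => ?_⟩
    · rcases h2.eq_or_lt with rfl | h2
      · rw [hs]
        exact fun _ => ⟨fun h => by simp at h, fun _ => ⟨h1, Or.inr (Or.inr (Or.inl a2))⟩⟩
      · by_cases h4 : i < k + 1 + items φ
        · exact i2 i h2 h4
        · exact l2 i (by omega) h3
    · obtain ⟨j1, j2⟩ := i4 v hv
      obtain ⟨m1, m2⟩ := l4 v hv
      have h0 := hv k (by omega)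
      rw [hs, conAt] at h0
      simp only [a1.not_ge, if_false, lt_irrefl, a2, if_true, Nat.reduceEqDiff] at h0
      obtain ⟨b1, b2⟩ := (add_eq_zero_iff_of_nonneg (cpy_nonneg _ _ _) (by positivity)).1 h0
      rw [pow_eq_zero_iff two_ne_zero, sub_eq_zero, j2, j1 h (by omega), m2] at b2
      refine ⟨fun j hj => (cpy_zero b1 (by omega) j hj).trans ((j1 j (by omega)).trans (m1 j hj)), ?_⟩
      rw [b2]
      simp only [Form.Holds]
      split_ifs <;> simp_all
  | not φ ih1 =>
    obtain ⟨a1, a2, a3⟩ := ha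
    have hs1 : st n L (k + 1) = (t + 1, h, c, 0) := by
      rw [st, hs, stp]; simp [a1.not_ge, a2]
    obtain ⟨⟨c1, i1⟩, i2, i3, i4⟩ := ih1 hs1 a3 hw h1 (by omega) (by omega)
    have e : k + items φ.not = k + 1 + items φ := by simp only [items]; omega
    have e' : t + φ.not.toNats.length = t + 1 + φ.toNats.length := by
      simp only [Form.toNats, List.length_cons]; omega
    rw [e, e']
    refine ⟨⟨c1, i1⟩, fun i h2 h3 => ?_, i3, fun v hv => ?_⟩
    · rcases h2.eq_or_lt with rfl | h2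
      · rw [hs]
        exact fun _ => ⟨fun h => by simp at h, fun _ => ⟨h1, Or.inr (Or.inr (Or.inr a2))⟩⟩
      · exact i2 i h2 h3
    · obtain ⟨j1, j2⟩ := i4 v hv
      have h0 := hv k (by omega)
      rw [hs, conAt] at h0
      simp only [a1.not_ge, if_false, lt_irrefl, a2, Nat.reduceEqDiff] at h0
      obtain ⟨b1, b2⟩ := (add_eq_zero_iff_of_nonneg (cpy_nonneg _ _ _) (by positivity)).1 h0
      rw [pow_eq_zero_iff two_ne_zero, sub_eq_zero, j2] at b2
      refine ⟨fun j hj => (cpy_zero b1 (by omega) j hj).trans (j1 j hj), ?_⟩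
      rw [b2]
      simp only [Form.Holds]
      split_ifs <;> simp_all

theorem st_const {m : ℕ} (h : n ≤ (st n L m).1) (i : ℕ) : st n L (m + i) = st n L m := by
  induction i with
  | zero => rfl
  | succ i ih => rw [← add_assoc, st, ih, stp, if_pos h]

end StSound

open StSound

theorem valid_of_wf (S : Sentence) (h : S.WF) :
    Valid S.toNats.length fun t => S.toNats.getD t 0 := by
  obtain ⟨⟨c, h1⟩, h2, h3, -⟩ := form S.body (k := 0) rfl (at_self [S.r, S.s] S.body.toNats) h
    le_rfl le_rfl le_rfl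
  have e : ([S.r, S.s] ++ S.body.toNats).length = 2 + S.body.toNats.length := by simp; omega
  change Valid ([S.r, S.s] ++ S.body.toNats).length fun t => ([S.r, S.s] ++ S.body.toNats).getD t 0
  generalize (fun t => ([S.r, S.s] ++ S.body.toNats).getD t 0) = L at *
  generalize ([S.r, S.s] ++ S.body.toNats).length = n at *
  simp only [zero_add] at h1 h2 h3
  have h4 : ∀ k, items S.body ≤ k → st n L k = (n, 0, c, 0) := fun k hk => by
    rw [← Nat.add_sub_cancel' hk, st_const (by rw [h1]; simp only; omega), h1, e]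
  refine ⟨by omega, fun k _ => ?_, by rw [h4 n (by omega)]; simp⟩
  by_cases hk : k < items S.body
  · exact h2 k (Nat.zero_le _) hk
  · rw [h4 k (by omega)]
    exact fun h => absurd h (lt_irrefl _)

open Classical in
theorem con_sound (S : Sentence) (h : S.WF) (n : ℕ) (L : ℕ → ℕ) (hn : n = S.toNats.length)
    (hL : L = fun t => S.toNats.getD t 0) (v : ℕ → ℝ)
    (hv : ∀ k < n, conAt n L v k (st n L k) = 0) :
    vb n v 0 1 =
      if S.body.Holds (fun i => v (NV n + idx n L i)) (fun i => v (idx n L i)) then 1 else 0 := by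
  subst hn hL
  exact ((form S.body (k := 0) rfl (at_self [S.r, S.s] S.body.toNats) h
    le_rfl le_rfl le_rfl).2.2.2 v hv).2

end Crest.Agent.R316
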