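import Crest.Agent.R316.FN

/-! Row 316: integers given by residues. -/

set_option autoImplicit false

namespace Crest.Agent.R316

open Crest.Agent.PT Finset

variable {α β : Type} [Rp α] [Rp β]

namespace ZC

theorem two_pow_mono {a b : ℕ} (h : a ≤ b) : (2 : ℤ) ^ a ≤ 2 ^ b :=
  pow_le_pow_right₀ (by norm_num) h

theorem le_two_pow (n : ℕ) : (n : ℤ) ≤ 2 ^ n := by
  exact_mod_cast (Nat.lt_two_pow_self (n := n)).le

theorem swap {R : (α × ℕ) × ℕ → ℕ} (h : FN R) :
    FN fun q : (α × ℕ) × ℕ => R ((q.1.1, q.2), q.1.2) :=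
  h.comp (g := fun q : (α × ℕ) × ℕ => ((q.1.1, q.2), q.1.2)) (by fun_prop)

theorem abs_coeff_le (D : ℕ) (S : Finset ℕ) (hS : ∀ i ∈ S, i ≤ D) (k : ℕ) :
    |(∏ i ∈ S, (Polynomial.X - Polynomial.C (i : ℤ))).coeff k| ≤ ((D : ℤ) + 1) ^ S.card := by
  induction S using Finset.induction_on generalizing k with
  | empty =>
    simp only [prod_empty, Polynomial.coeff_one, card_empty, pow_zero]
    split_ifs <;> simp
  | insert i S hi ih =>
    have ih' := ih fun j hj => hS j (mem_insert_of_mem hj)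
    have hD : (i : ℤ) ≤ D := by exact_mod_cast hS i (mem_insert_self _ _)
    have h0 : (0 : ℤ) ≤ i := by positivity
    have hM : (0 : ℤ) ≤ ((D : ℤ) + 1) ^ S.card := by positivity
    rw [prod_insert hi, card_insert_of_notMem hi, pow_succ]
    cases k with
    | zero =>
      rw [Polynomial.mul_coeff_zero, abs_mul]
      have h1 := ih' 0
      simp only [Polynomial.coeff_sub, Polynomial.coeff_X_zero, Polynomial.coeff_C_zero, zero_sub,
        abs_neg, abs_of_nonneg h0]
      nlinarith [abs_nonneg ((∏ i ∈ S, (Polynomial.X - Polynomial.C (i : ℤ))).coeff 0)]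
    | succ k =>
      rw [Polynomial.coeff_X_sub_C_mul]
      have h1 := ih' k
      have h2 := ih' (k + 1)
      refine (abs_sub _ _).trans ?_
      rw [abs_mul, abs_of_nonneg h0]
      nlinarith [abs_nonneg ((∏ i ∈ S, (Polynomial.X - Polynomial.C (i : ℤ))).coeff (k + 1))]

theorem natDegree_le {R : Type} [CommRing R] (S : Finset ℕ) :
    (∏ i ∈ S, (Polynomial.X - Polynomial.C (i : R))).natDegree ≤ S.card := by
  refine (Polynomial.natDegree_prod_le _ _).trans ?_
  refine (sum_le_card_nsmul _ _ 1 fun i _ => Polynomial.natDegree_X_sub_C_le _).trans ?_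
  simp

theorem card_erase_le' (D j : ℕ) : ((range (D + 1)).erase j).card ≤ D + 1 :=
  card_erase_le.trans (card_range _).le

theorem sum_pow_all {p : ℕ} [Fact p.Prime] {e : ℕ} (he : e ≠ 0) :
    ∑ x ∈ range p, (x : ZMod p) ^ e = if p - 1 ∣ e then -1 else 0 := by
  have h1 : ∑ x ∈ range p, (x : ZMod p) ^ e = ∑ x : ZMod p, x ^ e := by
    refine sum_nbij' (fun x => (x : ZMod p)) ZMod.val (fun _ _ => mem_univ _)
      (fun x _ => mem_range.2 (ZMod.val_lt x)) (fun x hx => ZMod.val_cast_of_lt (mem_range.1 hx))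
      (fun x _ => ZMod.natCast_zmod_val x) fun _ _ => rfl
  have h2 : ∑ x : ZMod p, x ^ e = ∑ x : (ZMod p)ˣ, (x : ZMod p) ^ e := by
    rw [← sum_erase (univ : Finset (ZMod p)) (f := fun x => x ^ e) (a := 0) (zero_pow he)]
    symm
    refine sum_bij (fun u _ => (u : ZMod p)) (fun u _ => by simp) (fun u _ v _ h => Units.ext h)
      (fun x hx => ⟨Units.mk0 x (ne_of_mem_erase hx), mem_univ _, rfl⟩) fun _ _ => rfl
  rw [h1, h2, FiniteField.sum_pow_units, ZMod.card]

theorem coeff_eq {p : ℕ} [Fact p.Prime] {n k : ℕ} (hn : n + 2 ≤ p) (hk : k ≤ n)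
    (Q : Polynomial (ZMod p)) (hQ : Q.natDegree ≤ n) :
    ∑ x ∈ range p, Q.eval (x : ZMod p) * (x : ZMod p) ^ (p - 1 - k) = -Q.coeff k := by
  simp only [Polynomial.eval_eq_sum_range' (Nat.lt_succ_of_le hQ), sum_mul, mul_assoc, ← pow_add]
  rw [sum_comm]
  simp only [← mul_sum]
  rw [sum_eq_single k]
  · rw [sum_pow_all (by omega), if_pos (by rw [show k + (p - 1 - k) = p - 1 by omega])]
    ring
  · intro l hl hlk
    have hl := mem_range.1 hl
    rw [sum_pow_all (by omega), if_neg, mul_zero]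
    rintro ⟨c, hc⟩
    rcases c with _ | _ | c
    · omega
    · omega
    · have : (p - 1) * (c + 1 + 1) = (p - 1) * c + 2 * (p - 1) := by ring
      omega
  · intro h
    exact absurd (mem_range.2 (by omega)) h

end ZC

open ZC

theorem ZC.congr {X Y : α → ℤ} (h : ZC X) (e : ∀ a, Y a = X a) : ZC Y := by
  obtain rfl : Y = X := funext e
  exact h

theorem ZC.fn {f : α → ℕ} (h : FN f) : ZC fun a => (f a : ℤ) := by
  obtain ⟨N, hN, hf⟩ := h.1
  refine ⟨N, fun _ => 0, fun q => f q.1, hN, by fun_prop, h.comp PTime.fst', fun a => ?_,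
    fun a p _ _ => Int.ModEq.refl _⟩
  rw [abs_of_nonneg (by positivity)]
  exact le_trans (Int.ofNat_le.2 (hf a).le) (le_two_pow _)

theorem ZC.comp {X : β → ℤ} {g : α → β} (h : ZC X) (hg : PTime g) : ZC fun a => X (g a) := by
  obtain ⟨b, th, R, hb, hth, hR, h1, h2⟩ := h
  exact ⟨fun a => b (g a), fun a => th (g a), fun q => R (g q.1, q.2), hb.comp hg, hth.comp hg,
    hR.comp (g := fun q : α × ℕ => (g q.1, q.2)) ((hg.comp PTime.fst').pair PTime.snd'),
    fun a => h1 _, fun a p hp ht => h2 _ p hp ht⟩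

theorem ZC.subst {X : α × ℕ → ℤ} {f : α → ℕ} (h : ZC X) (hf : FN f) : ZC fun a => X (a, f a) := by
  obtain ⟨b, th, R, hb, hth, hR, h1, h2⟩ := h
  obtain ⟨N, hN, hfN⟩ := hf.1
  obtain ⟨b', hb', e1⟩ := pt_bdd hb hN
  obtain ⟨th', hth', e2⟩ := pt_bdd hth hN
  exact ⟨b', th', fun q => R ((q.1, f q.1), q.2), hb', hth',
    (swap hR).subst (f := fun q : α × ℕ => f q.1) (hf.comp PTime.fst'),
    fun a => (h1 _).trans (two_pow_mono (e1 a _ (hfN a).le)),
    fun a p hp ht => h2 _ p hp ((e2 a _ (hfN a).le).trans ht)⟩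

theorem ZC.neg {X : α → ℤ} (h : ZC X) : ZC fun a => -X a := by
  obtain ⟨b, th, R, hb, hth, hR, h1, h2⟩ := h
  refine ⟨b, th, fun q => (q.2 - 1) * R q, hb, hth,
    FN.map (g := fun q : (α × ℕ) × ℕ => (q.1.2 - 1) * q.2) (by fun_prop) hR,
    fun a => by rw [abs_neg]; exact h1 a, fun a p hp ht => ?_⟩
  have h3 := (h2 a p hp ht).neg
  refine Int.ModEq.trans ?_ h3
  have h4 := hp.one_le
  push_cast [Nat.cast_sub h4]
  exact Int.modEq_iff_dvd.2 ⟨-(R (a, p) : ℤ), by ring⟩

theorem ZC.add {X Y : α → ℤ} (hX : ZC X) (hY : ZC Y) : ZC fun a => X a + Y a := by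
  obtain ⟨b, th, R, hb, hth, hR, h1, h2⟩ := hX
  obtain ⟨b', th', R', hb', hth', hR', h1', h2'⟩ := hY
  refine ⟨fun a => b a + b' a + 1, fun a => th a + th' a, fun q => R q + R' q, by fun_prop,
    by fun_prop, FN.map₂ (g := fun q : (α × ℕ) × ℕ × ℕ => q.2.1 + q.2.2) (by fun_prop) hR hR',
    fun a => ?_, fun a p hp ht => ?_⟩
  · have e1 := (h1 a).trans (two_pow_mono (Nat.le_add_right _ (b' a)))
    have e2 := (h1' a).trans (two_pow_mono (Nat.le_add_left _ (b a)))
    refine (abs_add_le _ _).trans ?_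
    rw [pow_succ]
    linarith
  · have ht : th a + th' a ≤ p := ht
    push_cast
    exact (h2 a p hp (by omega)).add (h2' a p hp (by omega))

theorem ZC.mul {X Y : α → ℤ} (hX : ZC X) (hY : ZC Y) : ZC fun a => X a * Y a := by
  obtain ⟨b, th, R, hb, hth, hR, h1, h2⟩ := hX
  obtain ⟨b', th', R', hb', hth', hR', h1', h2'⟩ := hY
  refine ⟨fun a => b a + b' a, fun a => th a + th' a, fun q => R q * R' q, by fun_prop,
    by fun_prop, FN.map₂ (g := fun q : (α × ℕ) × ℕ × ℕ => q.2.1 * q.2.2) (by fun_prop) hR hR',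
    fun a => ?_, fun a p hp ht => ?_⟩
  · rw [abs_mul, pow_add]
    exact mul_le_mul (h1 a) (h1' a) (abs_nonneg _) (by positivity)
  · have ht : th a + th' a ≤ p := ht
    push_cast
    exact (h2 a p hp (by omega)).mul (h2' a p hp (by omega))

theorem ZC.pt {X : α → ℤ} (h : PTime X) : ZC X :=
  ((ZC.fn (FN.pt h.toNat)).add (ZC.fn (FN.pt h.toNatNeg)).neg).congr fun a => by omega

theorem ZC.sum {X : α × ℕ → ℤ} {N : α → ℕ} (h : ZC X) (hN : PTime N) :
    ZC fun a => ∑ u ∈ range (N a), X (a, u) := by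
  obtain ⟨b, th, R, hb, hth, hR, h1, h2⟩ := h
  obtain ⟨b', hb', e1⟩ := pt_bdd hb hN
  obtain ⟨th', hth', e2⟩ := pt_bdd hth hN
  refine ⟨fun a => N a + b' a, th', fun q => ∑ u ∈ range (N q.1), R ((q.1, u), q.2), by fun_prop,
    hth', (swap hR).sum (N := fun q : α × ℕ => N q.1) (hN.comp PTime.fst'),
    fun a => ?_, fun a p hp ht => ?_⟩
  · refine (abs_sum_le_sum_abs _ _).trans ((sum_le_card_nsmul _ _ (2 ^ b' a) fun u hu =>
      (h1 _).trans (two_pow_mono (e1 a u (mem_range.1 hu).le))).trans ?_)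
    rw [card_range, nsmul_eq_mul, pow_add]
    exact mul_le_mul_of_nonneg_right (le_two_pow _) (by positivity)
  · push_cast
    exact Int.ModEq.sum fun u hu => h2 _ p hp ((e2 a u (mem_range.1 hu).le).trans ht)

theorem ZC.prod {X : α × ℕ → ℤ} {N : α → ℕ} (h : ZC X) (hN : PTime N) :
    ZC fun a => ∏ u ∈ range (N a), X (a, u) := by
  obtain ⟨b, th, R, hb, hth, hR, h1, h2⟩ := h
  obtain ⟨b', hb', e1⟩ := pt_bdd hb hN
  obtain ⟨th', hth', e2⟩ := pt_bdd hth hN
  obtain ⟨g, hg, e3⟩ := (swap hR).prodMod (N := fun q : α × ℕ => N q.1) (p := fun q => q.2)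
    (hN.comp PTime.fst') PTime.snd'
  refine ⟨fun a => b' a * N a, th', g, by fun_prop, hth', hg, fun a => ?_, fun a p hp ht => ?_⟩
  · rw [abs_prod, pow_mul]
    refine (prod_le_prod (fun _ _ => abs_nonneg _) fun u hu =>
      (h1 _).trans (two_pow_mono (e1 a u (mem_range.1 hu).le))).trans ?_
    rw [prod_const, card_range]
  · rw [e3 (a, p) hp]
    push_cast
    exact (Int.mod_modEq _ _).trans
      (Int.ModEq.prod fun u hu => h2 _ p hp ((e2 a u (mem_range.1 hu).le).trans ht))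

theorem ZC.ite {c : α → Prop} [∀ a, Decidable (c a)] {X Y : α → ℤ} (hc : CH c) (hX : ZC X)
    (hY : ZC Y) : ZC fun a => if c a then X a else Y a := by
  obtain ⟨b, th, R, hb, hth, hR, h1, h2⟩ := hX
  obtain ⟨b', th', R', hb', hth', hR', h1', h2'⟩ := hY
  refine ⟨fun a => b a + b' a, fun a => th a + th' a, fun q => if c q.1 then R q else R' q,
    by fun_prop, by fun_prop,
    FN.ite (c := fun q : α × ℕ => c q.1) (hc.comp PTime.fst') hR hR',
    fun a => ?_, fun a p hp ht => ?_⟩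
  · dsimp only
    split_ifs
    · exact (h1 a).trans (two_pow_mono (Nat.le_add_right _ _))
    · exact (h1' a).trans (two_pow_mono (Nat.le_add_left _ _))
  · have ht : th a + th' a ≤ p := ht
    dsimp only
    split_ifs
    · exact h2 a p hp (by omega)
    · exact h2' a p hp (by omega)

theorem zc_lcZ : ZC fun p : ℕ × ℕ × ℕ => lcZ p.1 p.2.1 p.2.2 := by
  -- the index is `((((D, j, k), p), x), i)`
  obtain ⟨g, hg, e3⟩ := FN.prodMod (α := ((ℕ × ℕ × ℕ) × ℕ) × ℕ)
    (f := fun q => if q.2 = q.1.1.1.2.1 then 1 else q.1.2 + q.1.1.2 - q.2)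
    (N := fun q => q.1.1.1 + 1) (p := fun q => q.1.2) (FN.pt (by fun_prop)) (by fun_prop)
    (by fun_prop)
  have hpow : PTime fun q : (((ℕ × ℕ × ℕ) × ℕ) × ℕ) × ℕ =>
      if q.1.1.2 = 0 then 0 else q.1.2 ^ (q.1.1.2 - 1 - q.1.1.1.2.2) % q.1.1.2 :=
    pt_powMod (by fun_prop) (by fun_prop) (by fun_prop)
  have h1 := FN.map (PTime.mul PTime.snd' hpow) hg
  have h2 := FN.sum (N := fun q : (ℕ × ℕ × ℕ) × ℕ => q.2) h1 PTime.snd'
  have h3 := FN.map (g := fun q : ((ℕ × ℕ × ℕ) × ℕ) × ℕ =>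
    if q.1.1.2.2 ≤ q.1.1.1 + 1 then (q.1.2 - 1) * q.2 else 0) (by fun_prop) h2
  refine ⟨fun a => (a.1 + 1) * (a.1 + 1), fun a => a.1 + 3, _, by fun_prop, by fun_prop, h3,
    ?_, ?_⟩
  · rintro ⟨D, j, k⟩
    refine (abs_coeff_le D _ (fun i hi => Nat.lt_succ_iff.1 (mem_range.1 (mem_of_mem_erase hi)))
      k).trans ?_
    have h0 : (1 : ℤ) ≤ (D : ℤ) + 1 := by have : (0 : ℤ) ≤ D := by positivity
                                          linarith
    refine (pow_le_pow_right₀ h0 (card_erase_le' D j)).trans ?_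
    rw [pow_mul]
    exact pow_le_pow_left₀ (by positivity) (by exact_mod_cast le_two_pow (D + 1)) _
  · rintro ⟨D, j, k⟩ p hp ht
    have ht : D + 3 ≤ p := ht
    have := Fact.mk hp
    rw [← ZMod.intCast_eq_intCast_iff]
    have hQ : ((lcZ D j k : ℤ) : ZMod p) =
        (∏ i ∈ (range (D + 1)).erase j, (Polynomial.X - Polynomial.C (i : ZMod p))).coeff k := by
      have := Polynomial.coeff_map (p := ∏ i ∈ (range (D + 1)).erase j,
        (Polynomial.X - Polynomial.C (i : ℤ))) (Int.castRingHom (ZMod p)) k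
      rw [Polynomial.map_prod] at this
      simp only [Polynomial.map_sub, Polynomial.map_X, map_natCast,
        Polynomial.map_natCast] at this
      simpa [lcZ] using this.symm
    have hdeg := (natDegree_le (R := ZMod p) ((range (D + 1)).erase j)).trans (card_erase_le' D j)
    dsimp only
    rw [hQ]
    split_ifs with hk h0
    · omega
    · have h4 := coeff_eq (p := p) (n := D + 1) (by omega) hk _ hdeg
      rw [← neg_eq_iff_eq_neg] at h4
      rw [← h4]
      push_cast [Nat.cast_sub hp.one_le]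
      rw [ZMod.natCast_self, zero_sub, neg_one_mul]
      congr 1
      refine sum_congr rfl fun x _ => ?_
      rw [e3 (((D, j, k), p), x) hp, ZMod.natCast_mod]
      congr 1
      · rw [Polynomial.eval_prod, ← filter_ne', prod_filter]
        push_cast
        refine prod_congr rfl fun i hi => ?_
        have hi := mem_range.1 hi
        by_cases hij : i = j
        · simp [hij]
        · simp only [hij, if_false, ne_eq, not_false_eq_true, if_true]
          rw [Nat.cast_sub (by omega)]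
          simp
    · rw [Polynomial.coeff_eq_zero_of_natDegree_lt (by omega)]
      simp

end Crest.Agent.R316
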